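import Vale.Agent.P100.Ground.Rates

/-! P100, critical ground state: `aa < N - 2`, decay of `U, V`, the invariants `y > 0`,
`crv ≤ N / (N - 2)` for `z ≥ 0`, and `be / al < psi < 1` on the whole domain. -/

namespace Vale.Agent.P100.Ground

noncomputable section

open Set Filter Topology

namespace GroundState

variable {P : Par} (G : GroundState P) {z : ℝ}

lemma mem (hz : G.zl < z) : z ∈ G.O.dom := by rw [G.dom_eq]; exact hz

lemma mem_nonneg (hz : 0 ≤ z) : z ∈ G.O.dom :=
  G.mem (by linarith [G.zl_lt, G.zs_lt])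

lemma gt_of_mem (hz : z ∈ G.O.dom) : G.zl < z := by rwa [G.dom_eq] at hz

lemma del_pos_mem (hz : z ∈ G.O.dom) : 0 < G.O.del z := G.del_pos z (G.gt_of_mem hz)

lemma lam_pos (hz : z ∈ G.O.dom) : 0 < G.O.lam z :=
  Orb.lam_pos (fun _ hy => G.del_pos_mem hy) hz

lemma psi_gt (hz : z ∈ G.O.dom) : P.be < P.al * G.O.psi z :=
  Orb.psi_gt hz (G.del_pos_mem hz)

lemma crv_gt (hz : z ∈ G.O.dom) :
    P.dim * G.O.psi z / (P.be + P.al * G.O.psi z) < G.O.crv z := by
  have h := G.lam_pos hz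
  rw [Orb.lam, div_pos_iff_of_pos_right P.al_pos] at h
  rw [div_lt_iff₀ (Orb.den_pos hz)]
  linarith

lemma aa_nonneg (hz : 0 ≤ z) : 0 ≤ G.O.aa z :=
  mul_nonneg (mul_nonneg zero_le_two hz) (Orb.a_pos (G.mem_nonneg hz)).le

lemma aa_le (hz : 0 ≤ z) : P.be * G.O.aa z ≤ P.al * (P.dim - 2) := by
  have h1 := mul_nonneg (mul_nonneg zero_le_two hz) (G.del_pos_mem (G.mem_nonneg hz)).le
  have h2 := mul_le_mul_of_nonneg_left (G.bb_le z hz) P.al_pos.le
  simp only [Orb.aa, Orb.bb, Orb.del] at *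
  linarith

lemma antitoneOn_U : StrictAntiOn G.O.U (Ici 0) :=
  strictAntiOn_of_hasDerivWithinAt_neg (convex_Ici 0)
    (fun y hy => (G.O.hU y (G.mem_nonneg hy)).continuousAt.continuousWithinAt)
    (fun y hy => (G.O.hU y (G.mem_nonneg (interior_subset (s := Ici (0 : ℝ)) hy))).hasDerivWithinAt)
    fun y hy => G.O.negU y (G.mem_nonneg (interior_subset (s := Ici (0 : ℝ)) hy))

lemma antitoneOn_V : StrictAntiOn G.O.V (Ici 0) :=
  strictAntiOn_of_hasDerivWithinAt_neg (convex_Ici 0)
    (fun y hy => (G.O.hV y (G.mem_nonneg hy)).continuousAt.continuousWithinAt)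
    (fun y hy => (G.O.hV y (G.mem_nonneg (interior_subset (s := Ici (0 : ℝ)) hy))).hasDerivWithinAt)
    fun y hy => G.O.negV y (G.mem_nonneg (interior_subset (s := Ici (0 : ℝ)) hy))

theorem tendsto_U : Tendsto G.O.U atTop (𝓝 0) := by
  have hal := P.al_pos
  have hN := zero_lt_two.trans P.two_lt_dim
  set L := ⨅ y : Ici (0 : ℝ), G.O.U y with hL
  have hbdd : BddBelow (range fun y : Ici (0 : ℝ) => G.O.U y) :=
    ⟨0, by rintro _ ⟨y, rfl⟩; exact (G.O.posU y (G.mem_nonneg y.2)).le⟩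
  have hlim : Tendsto G.O.U atTop (𝓝 L) :=
    (tendsto_comp_val_Ici_atTop (a := (0 : ℝ))).1
      (tendsto_atTop_ciInf (fun a b hab => G.antitoneOn_U.antitoneOn a.2 b.2 hab) hbdd)
  have hL0 : 0 ≤ L := le_ciInf fun y => (G.O.posU y (G.mem_nonneg y.2)).le
  rcases hL0.eq_or_lt with h | hLpos
  · rwa [h]
  exfalso
  have hV0 := G.O.posV 0 G.O.zero_mem
  have hc : 0 < P.al / P.dim * (L ^ P.q / G.O.V 0) := by positivity
  obtain ⟨T, hT⟩ : ∃ T : ℝ, 2 * P.al * (P.dim - 2) / (P.al / P.dim * (L ^ P.q / G.O.V 0)) < T :=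
    exists_gt _
  have hT0 : 0 ≤ T := le_trans (div_nonneg (mul_nonneg (by linarith) (by linarith [P.two_lt_dim])) hc.le) hT.le
  have hd := G.mem_nonneg hT0
  have hq : L ^ P.q / G.O.V 0 ≤ G.O.qt T := by
    refine div_le_div₀ (Real.rpow_nonneg (G.O.posU T hd).le _) ?_ (G.O.posV T hd)
      (G.antitoneOn_V.antitoneOn self_mem_Ici hT0 hT0)
    exact Real.rpow_le_rpow hL0 (ciInf_le hbdd ⟨T, hT0⟩) P.q_pos.le
  have hp := Orb.poh_rates hd
  have h1 : P.al / P.dim * (L ^ P.q / G.O.V 0) * T ≤ 2 * P.al * (P.dim - 2) := by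
    have h2 : P.al / P.dim * (L ^ P.q / G.O.V 0) ≤ (P.be * G.O.pt T + P.al * G.O.qt T) / P.dim := by
      rw [div_mul_eq_mul_div]
      gcongr
      have := mul_pos P.be_pos (Orb.pt_pos hd)
      have := mul_le_mul_of_nonneg_left hq hal.le
      linarith
    have h3 := mul_le_mul_of_nonneg_right h2 hT0
    have h4 := G.aa_le hT0
    have h5 := mul_le_mul_of_nonneg_left (G.bb_le T hT0) hal.le
    have h6 := mul_nonneg (mul_nonneg hT0 hT0)
      (mul_nonneg (Orb.a_pos hd).le (Orb.b_pos hd).le)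
    simp only [Orb.aa, Orb.bb] at h4 h5
    linear_combination h3 + h4 + h5 + 4 * h6 + T * hp
  rw [div_lt_iff₀ hc] at hT
  linarith

theorem tendsto_V : Tendsto G.O.V atTop (𝓝 0) := by
  have hp : 0 < P.p + 1 := by linarith [P.p_pos]
  have hq : 0 < P.q + 1 := by linarith [P.q_pos]
  have h1 : Tendsto (fun y => (G.O.theta y * G.O.U y ^ (P.q + 1)) ^ (1 / (P.p + 1))) atTop (𝓝 0) := by
    have hu := (Real.continuousAt_rpow_const 0 (P.q + 1) (Or.inr hq.le)).tendsto.comp G.tendsto_U
    rw [Real.zero_rpow hq.ne'] at hu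
    have h := G.theta_lim.mul hu
    rw [mul_zero] at h
    have h' := (Real.continuousAt_rpow_const 0 (1 / (P.p + 1)) (Or.inr (by positivity))).tendsto.comp h
    rwa [Real.zero_rpow (by positivity)] at h'
  refine h1.congr' ((eventually_ge_atTop 0).mono fun y hy => ?_)
  have hd := G.mem_nonneg hy
  have hU := Real.rpow_pos_of_pos (G.O.posU y hd) (P.q + 1)
  rw [Orb.theta_eq hd, div_mul_cancel₀ _ hU.ne', ← Real.rpow_mul (G.O.posV y hd).le,
    mul_one_div, div_self hp.ne', Real.rpow_one]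

/-- `2 z a < N - 2` for `z ≥ 0`. -/
theorem aa_lt (hz : 0 ≤ z) : G.O.aa z < P.dim - 2 := by
  set F := fun y => (G.O.aa y - (P.dim - 2)) * G.O.U y with hF
  have hder : ∀ y, 0 ≤ y → HasDerivAt F (G.O.U y * (G.O.pt y / 2)) y := fun y hy => by
    have hd := G.mem_nonneg hy
    refine (((Orb.hasDerivAt_aa hd).sub_const (P.dim - 2)).mul (G.O.hU y hd)).congr_deriv ?_
    have ha := (Orb.a_pos hd).ne'
    have hu := (G.O.posU y hd).ne'
    have hc := Orb.crv_eq hd
    have h1 : G.O.U1 y = -(G.O.a y * G.O.U y) := by simp only [Orb.a]; field_simp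
    rw [h1]
    field_simp at hc
    linear_combination (-G.O.U y / 2) * hc
  have hmono : StrictMonoOn F (Ici 0) := strictMonoOn_of_hasDerivWithinAt_pos (convex_Ici 0)
    (fun y hy => (hder y hy).continuousAt.continuousWithinAt)
    (fun y hy => (hder y (interior_subset (s := Ici (0 : ℝ)) hy)).hasDerivWithinAt)
    (fun y hy => mul_pos (G.O.posU y (G.mem_nonneg (interior_subset (s := Ici (0 : ℝ)) hy)))
      (half_pos (Orb.pt_pos (G.mem_nonneg (interior_subset (s := Ici (0 : ℝ)) hy)))))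
  have hlim : Tendsto F atTop (𝓝 0) := by
    refine squeeze_zero_norm' (a := fun y => (P.al * (P.dim - 2) / P.be + (P.dim - 2)) * G.O.U y)
      ((eventually_ge_atTop 0).mono fun y hy => ?_) (by simpa using G.tendsto_U.const_mul _)
    rw [hF, Real.norm_eq_abs, abs_mul, abs_of_pos (G.O.posU y (G.mem_nonneg hy))]
    refine mul_le_mul_of_nonneg_right ?_ (G.O.posU y (G.mem_nonneg hy)).le
    have h1 : G.O.aa y ≤ P.al * (P.dim - 2) / P.be := by
      rw [le_div_iff₀ P.be_pos]; linarith [G.aa_le hy]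
    have h2 := G.aa_nonneg hy
    exact abs_le.2 ⟨by linarith [P.two_lt_dim], by linarith [P.two_lt_dim]⟩
  by_contra hge
  have h0 : 0 ≤ F z := mul_nonneg (sub_nonneg.2 (not_lt.1 hge)) (G.O.posU z (G.mem_nonneg hz)).le
  have h1 : F (z + 1) ≤ 0 := ge_of_tendsto hlim ((eventually_ge_atTop (z + 1)).mono fun y hy =>
    hmono.monotoneOn (show 0 ≤ z + 1 by linarith) (show 0 ≤ y by linarith) hy)
  have h2 := hmono (show z ∈ Ici 0 from hz) (show 0 ≤ z + 1 by linarith) (lt_add_one z)
  linarith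

/-- The defect of the origin relation `crv = N p psi / (N + 2)`. -/
def yv (z : ℝ) : ℝ := P.dim * P.p * G.O.psi z / (P.dim + 2) - G.O.crv z

/-- Its forcing. -/
def yS (z : ℝ) : ℝ :=
  P.dim * P.p / (P.dim + 2) * (G.O.psi z ^ 2 - G.O.psi z + G.O.lam z)
    - G.O.crv z * (2 * G.O.crv z - 1 - P.p * G.O.psi z)

lemma hasDerivAt_yv (hz : z ∈ G.O.dom) :
    HasDerivAt G.yv (P.dim * P.p * (G.O.a z * (G.O.psi z ^ 2 - G.O.psi z + G.O.lam z)) / (P.dim + 2)
      - G.O.crv1 z) z :=
  (((Orb.hasDerivAt_psi hz).const_mul (P.dim * P.p)).div_const _).sub (Orb.hasDerivAt_crv hz)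

lemma eq_yv (hz : z ∈ G.O.dom) :
    2 * z * (P.dim * P.p * (G.O.a z * (G.O.psi z ^ 2 - G.O.psi z + G.O.lam z)) / (P.dim + 2)
      - G.O.crv1 z) + (P.dim + 2) * G.yv z = G.O.aa z * G.yS z := by
  have h := Orb.eq_crv hz
  have : P.dim + 2 ≠ 0 := by linarith [P.two_lt_dim]
  simp only [yv, yS, Orb.aa] at *
  field_simp
  linear_combination -(P.dim + 2) * h

lemma yS_pos (hz : z ∈ G.O.dom) (h : G.yv z = 0) : 0 < G.yS z := by
  have hN := zero_lt_two.trans P.two_lt_dim
  have hne : P.dim + 2 ≠ 0 := by linarith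
  have hal := P.al_pos
  have hc : G.O.crv z = P.dim * P.p * G.O.psi z / (P.dim + 2) := by simp only [yv] at h; linarith
  have e : G.yS z = G.O.crv z / (P.al * (P.dim + 2)) *
      (P.al * G.O.psi z * (P.dim + 2 + 2 * P.p) - P.dim * (P.be + 2)) := by
    simp only [yS, Orb.lam, hc]
    have hp2 : P.p * P.be = P.al + 2 := div_mul_cancel₀ _ P.be_pos.ne'
    have hdim : P.dim = P.al + P.be + 2 := rfl
    field_simp
    linear_combination P.dim * P.p * G.O.psi z * (hp2 - hdim)
  rw [e]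
  refine mul_pos (div_pos ?_ (mul_pos hal (by linarith))) ?_
  · exact lt_of_le_of_lt (div_nonneg (mul_nonneg hN.le (Orb.psi_pos hz).le) (Orb.den_pos hz).le)
      (G.crv_gt hz)
  · have h1 := mul_lt_mul_of_pos_right (G.psi_gt hz)
      (show 0 < P.dim + 2 + 2 * P.p by linarith [P.p_pos])
    have hp2 : P.p * P.be = P.al + 2 := div_mul_cancel₀ _ P.be_pos.ne'
    have hdim : P.dim = P.al + P.be + 2 := rfl
    linarith

/-- The invariant `crv < N p psi / (N + 2)`. -/
theorem yv_pos (hz : 0 < z) : 0 < G.yv z := by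
  have hN := zero_lt_two.trans P.two_lt_dim
  have h00 : G.yv 0 = 0 := by simp only [yv, Orb.crv_zero, sub_self]
  have hS0 : 0 < G.yS 0 := G.yS_pos G.O.zero_mem h00
  have hcS : ContinuousAt G.yS 0 := by
    have h1 := (Orb.hasDerivAt_psi (O := G.O) G.O.zero_mem).continuousAt
    have h2 := (Orb.hasDerivAt_crv (O := G.O) G.O.zero_mem).continuousAt
    have h3 := (Orb.hasDerivAt_lam (O := G.O) G.O.zero_mem).continuousAt
    exact (((h1.pow 2).sub h1).add h3 |>.const_mul _).sub
      (h2.mul (((h2.const_mul 2).sub_const 1).sub (h1.const_mul P.p)))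
  obtain ⟨e, he, hball⟩ := Metric.eventually_nhds_iff.1 (hcS.eventually_const_lt hS0)
  set k := (P.dim + 2) / 2 with hk
  have hsmall : ∀ x, 0 < x → x < e → 0 < G.yv x := by
    intro x hx hxe
    have hmono := strictMonoOn_of_hasDerivWithinAt_pos (convex_Icc 0 x)
      (f := fun y => y ^ k * G.yv y) (f' := fun y => y ^ (k - 1) * (G.O.aa y * G.yS y / 2))
      (fun y hy => ((Real.continuousAt_rpow_const y k (Or.inr (by linarith))).mul
        (G.hasDerivAt_yv (G.mem_nonneg hy.1)).continuousAt).continuousWithinAt)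
      (fun y hy => by
        rw [interior_Icc] at hy ⊢
        refine ((Real.hasDerivAt_rpow_const (p := k) (Or.inl hy.1.ne')).mul
          (G.hasDerivAt_yv (G.mem_nonneg hy.1.le))).hasDerivWithinAt.congr_deriv ?_
        rw [← G.eq_yv (G.mem_nonneg hy.1.le), Real.rpow_sub_one hy.1.ne']
        have := hy.1.ne'
        simp only [hk]
        field_simp
        ring)
      (fun y hy => by
        rw [interior_Icc] at hy
        refine mul_pos (Real.rpow_pos_of_pos hy.1 _) (half_pos (mul_pos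
          (mul_pos (mul_pos two_pos hy.1) (Orb.a_pos (G.mem_nonneg hy.1.le))) (hball ?_)))
        rw [Real.dist_eq, sub_zero, abs_of_pos hy.1]
        linarith [hy.2])
      (left_mem_Icc.2 hx.le) (right_mem_Icc.2 hx.le) hx
    simp only [h00, mul_zero] at hmono
    exact pos_of_mul_pos_right hmono (Real.rpow_nonneg hx.le _)
  obtain ⟨x0, hx0, hx0'⟩ := exists_between (lt_min he hz)
  simp only [lt_min_iff] at hx0'
  refine pos_of_deriv_pos_at_zeros (fun x hx => G.hasDerivAt_yv (G.mem_nonneg (hx0.le.trans hx.1)))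
    (hsmall x0 hx0 hx0'.1) (fun x hx h => ?_) z ⟨hx0'.2.le, le_rfl⟩
  have hx0'' : 0 < x := hx0.trans hx.1
  have hd := G.mem_nonneg hx0''.le
  have he := G.eq_yv hd
  rw [h, mul_zero, add_zero] at he
  have : 0 < G.O.aa x * G.yS x :=
    mul_pos (mul_pos (mul_pos two_pos hx0'') (Orb.a_pos hd)) (G.yS_pos hd h)
  rw [← he] at this
  exact pos_of_mul_pos_right this (by linarith)

lemma crv1_lower (hz : 0 < z) :
    G.O.a z * G.O.crv z * ((P.dim - 2) * G.O.crv z - P.dim) / P.dim < G.O.crv1 z := by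
  have hd := G.mem_nonneg hz.le
  have ha := Orb.a_pos hd
  have hN := zero_lt_two.trans P.two_lt_dim
  have h1 : G.O.crv z * (P.dim + 2) < P.dim * P.p * G.O.psi z := by
    have := G.yv_pos hz
    simp only [yv] at this
    rwa [sub_pos, lt_div_iff₀ (by linarith)] at this
  have h2 : 0 < P.dim - G.O.crv z * G.O.aa z := by
    rw [Orb.crv_eq hd, sub_sub_cancel]; have := Orb.pt_pos hd; positivity
  have h3 := mul_pos (sub_pos.2 h1) h2
  have h4 := Orb.eq_crv hd
  rw [div_lt_iff₀ hN]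
  refine lt_of_mul_lt_mul_left ?_ (show 0 ≤ 2 * z by linarith)
  simp only [Orb.aa] at *
  linear_combination h3 - P.dim * h4

/-- The invariant `crv < N / (N - 2)`. -/
theorem crv_lt (hz : 0 < z) : G.O.crv z < P.dim / (P.dim - 2) := by
  have hN := P.two_lt_dim
  set k := (P.dim - 2) / P.dim with hk
  have hk0 : 0 < k := div_pos (by linarith) (by linarith)
  set h := fun y => G.O.crv y - P.dim / (P.dim - 2) with hh
  have hfac : ∀ y, (P.dim - 2) * G.O.crv y - P.dim = (P.dim - 2) * h y := fun y => by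
    simp only [hh]; rw [mul_sub, mul_div_cancel₀ _ (show P.dim - 2 ≠ 0 by linarith)]
  have hder : ∀ y, 0 ≤ y → HasDerivAt h (G.O.crv1 y) y := fun y hy =>
    (Orb.hasDerivAt_crv (G.mem_nonneg hy)).sub_const _
  have hlower : ∀ y, 0 < y → G.O.a y * G.O.crv y * k * h y < G.O.crv1 y := fun y hy => by
    refine lt_of_eq_of_lt ?_ (G.crv1_lower hy)
    rw [hfac, hk]; ring
  -- no point strictly above
  have hno : ∀ z1, 0 < z1 → h z1 ≤ 0 := by
    intro z1 hz1
    by_contra hgt
    rw [not_le] at hgt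
    have habove : ∀ y, z1 ≤ y → 0 < h y := fun y hy =>
      pos_of_deriv_pos_at_zeros (fun x hx => hder x (hz1.le.trans hx.1)) hgt
        (fun x hx hx0 => by
          have := hlower x (hz1.trans hx.1)
          rwa [hx0, mul_zero] at this) y ⟨hy, le_rfl⟩
    have hmono : AntitoneOn (fun y => (h y)⁻¹ - k * Real.log (G.O.U y)) (Ici z1) := by
      have hd' : ∀ y, z1 ≤ y → HasDerivAt (fun y => (h y)⁻¹ - k * Real.log (G.O.U y))
          (-G.O.crv1 y / h y ^ 2 + k * G.O.a y) y := fun y hy => by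
        refine (((hder y (hz1.le.trans hy)).inv (habove y hy).ne').sub
          (((G.O.hU y (G.mem_nonneg (hz1.le.trans hy))).log
            (G.O.posU y (G.mem_nonneg (hz1.le.trans hy))).ne').const_mul k)).congr_deriv ?_
        simp only [Orb.a]; ring
      refine antitoneOn_of_hasDerivWithinAt_nonpos (convex_Ici z1)
        (fun y hy => (hd' y hy).continuousAt.continuousWithinAt)
        (fun y hy => (hd' y (interior_subset (s := Ici z1) hy)).hasDerivWithinAt) fun y hy => ?_
      have hy' : z1 ≤ y := interior_subset (s := Ici z1) hy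
      have hp := habove y hy'
      have hpos : 0 < y := hz1.trans_le hy'
      have ha := Orb.a_pos (G.mem_nonneg hpos.le)
      have hc : h y ≤ G.O.crv y := sub_le_self _ (div_nonneg (by linarith) (by linarith))
      have h1 : k * G.O.a y * h y ^ 2 ≤ G.O.crv1 y := by
        have h2 : k * G.O.a y * h y ^ 2 ≤ G.O.a y * G.O.crv y * k * h y := by
          have := mul_le_mul_of_nonneg_left hc (mul_pos (mul_pos hk0 ha) hp).le
          linarith
        linarith [hlower y hpos]
      rw [neg_div, neg_add_nonpos_iff, le_div_iff₀ (pow_pos hp 2)]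
      exact h1
    have hlog : Tendsto (fun y => Real.log (G.O.U y)) atTop atBot :=
      Real.tendsto_log_nhdsGT_zero.comp (tendsto_nhdsWithin_iff.2 ⟨G.tendsto_U,
        (eventually_ge_atTop 0).mono fun y hy => G.O.posU y (G.mem_nonneg hy)⟩)
    obtain ⟨y, hy1, hy2⟩ := ((eventually_ge_atTop z1).and ((hlog.const_mul_atBot hk0).eventually
      (eventually_lt_atBot (-((h z1)⁻¹ - k * Real.log (G.O.U z1)))))).exists
    have h1 : (h y)⁻¹ - k * Real.log (G.O.U y) ≤ (h z1)⁻¹ - k * Real.log (G.O.U z1) :=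
      hmono self_mem_Ici hy1 hy1
    have h2 := inv_pos.2 (habove y hy1)
    linarith
  refine sub_neg.1 (lt_of_le_of_ne (hno z hz) fun heq => ?_)
  have hd := hlower z hz
  rw [show h z = 0 from heq, mul_zero] at hd
  have := ((hasDerivAt_iff_tendsto_slope.1 (hder z hz.le)).mono_left
    (nhdsWithin_mono (s := Ioi z) z fun y (hy : z < y) => hy.ne')).eventually_const_lt hd
  obtain ⟨y, hy, hy'⟩ := (this.and self_mem_nhdsWithin).exists
  rw [slope_def_field, show h z = 0 from heq, sub_zero] at hy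
  exact absurd (hno y (hz.trans hy')) (not_le.2 (pos_of_mul_pos_left
    (show 0 < h y * (y - z)⁻¹ by rwa [← div_eq_mul_inv]) (inv_nonneg.2 (sub_nonneg.2 (le_of_lt hy')))))

theorem crv_le (hz : 0 ≤ z) : G.O.crv z ≤ P.dim / (P.dim - 2) := by
  rcases hz.eq_or_lt with rfl | h
  · exact le_of_tendsto ((Orb.hasDerivAt_crv (O := G.O) G.O.zero_mem).continuousAt.mono_left
      (nhdsWithin_le_nhds (s := Ioi 0))) (eventually_nhdsWithin_of_forall fun y hy => (G.crv_lt hy).le)
  · exact (G.crv_lt h).le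

/-- `psi < 1` on the whole domain. -/
theorem psi_lt_one (hz : z ∈ G.O.dom) : G.O.psi z < 1 := by
  have hpos : ∀ y, 0 ≤ y → G.O.psi y < 1 := by
    intro y hy
    have hd := G.mem_nonneg hy
    have h1 := (G.crv_gt hd).trans_le (G.crv_le hy)
    rw [div_lt_div_iff₀ (Orb.den_pos hd) (by linarith [P.two_lt_dim])] at h1
    have hdim : P.dim = P.al + P.be + 2 := rfl
    have h2 : P.dim * (G.O.psi y * (P.al + P.be)) < P.dim * (P.be + P.al * G.O.psi y) := by
      rw [show P.dim - 2 = P.al + P.be by linarith] at h1; linarith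
    have h3 := lt_of_mul_lt_mul_left h2 (zero_lt_two.trans P.two_lt_dim).le
    by_contra hge
    have := mul_le_mul_of_nonneg_left (not_lt.1 hge) P.be_pos.le
    linarith
  rcases le_total 0 z with h | h
  · exact hpos z h
  · have hsub : Icc z 0 ⊆ G.O.dom := G.O.conn.out hz G.O.zero_mem
    refine sub_pos.1 (pos_of_deriv_neg_at_zeros
      (fun x hx => (Orb.hasDerivAt_psi (hsub hx)).const_sub 1) (sub_pos.2 (hpos 0 le_rfl))
      (fun x hx he => ?_) z ⟨le_rfl, h⟩)
    have hd := hsub (Ico_subset_Icc_self hx)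
    rw [sub_eq_zero] at he
    rw [← he]
    have := mul_pos (Orb.a_pos hd) (G.lam_pos hd)
    linarith

/-- A lower bound for `crv` on the whole domain. -/
theorem crv_ge (hz : z ∈ G.O.dom) : P.dim / (2 * P.al) < G.O.crv z := by
  refine lt_trans ?_ (G.crv_gt hz)
  have hal := P.al_pos
  have hp := Orb.psi_pos hz
  have hN := zero_lt_two.trans P.two_lt_dim
  rw [div_lt_div_iff₀ (by linarith) (Orb.den_pos hz)]
  have := mul_lt_mul_of_pos_left (G.psi_gt hz) hN
  linarith

end GroundState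

end

end Vale.Agent.P100.Ground
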