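import Vale.Agent.P100.Ground.Bounds

/-! P100, critical ground state: `psi` increases for `z ≥ 0`, that is `crv ≥ G (psi)`. At a point with
`crv = G (psi)` the sign of `crv'` is that of a combination of a quadratic and of a cubic with roots
`al`, `N be / (N - 2)`, `root3`; it cannot change back once negative. -/

namespace Vale.Agent.P100.Ground

noncomputable section

open Set Filter Topology

namespace Par

variable (P : Par)

/-- `psi (N + al - al psi) / den`. -/
def gfun (x : ℝ) : ℝ := x * (P.dim + P.al - P.al * x) / (P.be + P.al * x)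

/-- The sign of `crv'` at `crv = G (psi)`, in `y = al psi`, at `aa = 0`. -/
def sgn0 (y : ℝ) : ℝ :=
  P.al * (P.be + y) * (P.dim * P.p * (P.be + y) - (P.dim + 2) * (P.dim + P.al - y))

/-- The third root of `sgnD`. -/
def root3 : ℝ := (2 * P.dim + P.al - 2) / (P.p + 2)

/-- The negated sign of `crv'` at `crv = G (psi)`, at `aa = N - 2`. -/
def sgnD (y : ℝ) : ℝ :=
  (P.p + 2) * (P.al - y) * (P.dim * P.be - (P.dim - 2) * y) * (P.root3 - y)

/-- The sign of `crv'` at `crv = G (psi)`. -/
def sgn (y A : ℝ) : ℝ := (1 - A / (P.dim - 2)) * P.sgn0 y - A / (P.dim - 2) * P.sgnD y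

variable {P}

lemma sgnD_eq (y : ℝ) : P.sgnD y = (P.al - y) * (P.dim * P.be - (P.dim - 2) * y) *
    (2 * P.dim + P.al - 2 - (P.p + 2) * y) := by
  have hp : P.p + 2 ≠ 0 := by linarith [P.p_pos]
  have h : P.root3 * (P.p + 2) = 2 * P.dim + P.al - 2 := div_mul_cancel₀ _ hp
  simp only [sgnD]
  linear_combination (P.al - y) * (P.dim * P.be - (P.dim - 2) * y) * h

lemma sgn_spec (x c A : ℝ) (hd : P.be + P.al * x ≠ 0) (hc : c = P.gfun x) :
    P.dim * P.p * x - (P.dim + 2) * c + A * c * (2 * c - 1 - P.p * x) =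
      x * P.sgn (P.al * x) A / (P.al * (P.be + P.al * x) ^ 2) := by
  subst hc
  have hal := P.al_pos.ne'
  have hbe := P.be_pos.ne'
  have hD : P.al + P.be ≠ 0 := (add_pos P.al_pos P.be_pos).ne'
  simp only [sgn, sgnD_eq]
  simp only [sgn0, gfun, dim, p, add_sub_cancel_right]
  field_simp
  ring

lemma gfun_gap (x : ℝ) (hd : P.be + P.al * x ≠ 0) :
    P.dim / (P.dim - 2) - P.gfun x = (P.al - P.al * x) * (P.dim * P.be - (P.dim - 2) * (P.al * x)) /
      (P.al * (P.dim - 2) * (P.be + P.al * x)) := by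
  have hal := P.al_pos.ne'
  have hD : P.al + P.be ≠ 0 := (add_pos P.al_pos P.be_pos).ne'
  simp only [gfun, dim, add_sub_cancel_right]
  field_simp
  ring

/-- `sgn0` is nonnegative exactly to the right of this point. -/
def low (P : Par) : ℝ := P.be * (P.dim ^ 2 + 2 * P.al) / (P.dim ^ 2 + 2 * P.be)

lemma sgn0_eq (y : ℝ) :
    P.sgn0 y = P.al * (P.be + y) * ((P.dim * P.p + P.dim + 2) * (y - P.low)) := by
  have hbe := P.be_pos.ne'
  have hden : P.dim ^ 2 + 2 * P.be ≠ 0 := (add_pos_of_nonneg_of_pos (sq_nonneg _)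
    (mul_pos two_pos P.be_pos)).ne'
  have hL : P.low * (P.dim ^ 2 + 2 * P.be) = P.be * (P.dim ^ 2 + 2 * P.al) :=
    div_mul_cancel₀ _ hden
  have hp2 : P.p * P.be = P.al + 2 := div_mul_cancel₀ _ hbe
  have hdim : P.dim = P.al + P.be + 2 := rfl
  simp only [sgn0]
  refine mul_left_cancel₀ hbe ?_
  linear_combination P.al * (P.be + y) * P.dim * (P.be + P.low) * hp2
    + P.al * (P.be + y) * hL - P.al * (P.be + y) * P.dim * P.low * hdim

lemma low_lt : P.low < P.al ∧ (P.dim - 2) * P.low < P.dim * P.be ∧ P.low < P.root3 := by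
  have hal := P.al_pos
  have hbe := P.be_pos
  have hgap := sub_pos.2 P.be_lt
  have hN := P.two_lt_dim
  have hden : 0 < P.dim ^ 2 + 2 * P.be := by positivity
  have hdim : P.dim = P.al + P.be + 2 := rfl
  refine ⟨?_, ?_, ?_⟩
  · rw [low, div_lt_iff₀ hden]
    have := mul_pos hgap (pow_pos (zero_lt_two.trans hN) 2)
    linarith
  · rw [low, mul_div_assoc', div_lt_iff₀ hden]
    have h1 : 0 < P.be * (2 * P.dim * (P.al + P.be + 2) + 2 * P.dim * P.be
        - 2 * (P.al + P.be) * P.al) := by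
      refine mul_pos hbe ?_
      rw [hdim]
      have := mul_pos hal hbe
      have := mul_pos hbe hbe
      nlinarith
    rw [hdim] at h1 ⊢
    linarith
  · have hk : 0 < P.al + 2 * P.be + 2 := by linarith
    have e : P.root3 = P.be * (2 * P.dim + P.al - 2) / (P.al + 2 * P.be + 2) := by
      have := hbe.ne'
      simp only [root3, p]
      field_simp
      ring
    rw [e, low, div_lt_div_iff₀ hden hk]
    have h1 : P.be * ((P.dim ^ 2 + 2 * P.al) * (P.al + 2 * P.be + 2)) <
        P.be * ((2 * P.dim + P.al - 2) * (P.dim ^ 2 + 2 * P.be)) := by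
      refine mul_lt_mul_of_pos_left ?_ hbe
      rw [hdim]
      nlinarith [mul_pos hal hbe, mul_pos hgap (add_pos hal hbe), mul_pos hal hal, mul_pos hbe hbe,
        mul_pos (mul_pos hal hal) hbe, mul_pos (mul_pos hal hbe) hbe,
        mul_pos (mul_pos hal hal) hal, mul_pos (mul_pos hbe hbe) hbe]
    linarith

lemma sgnD_pos {y : ℝ} (h1 : y < P.al) (h2 : (P.dim - 2) * y < P.dim * P.be) (h3 : y < P.root3) :
    0 < P.sgnD y :=
  mul_pos (mul_pos (mul_pos (by linarith [P.p_pos]) (sub_pos.2 h1)) (sub_pos.2 h2)) (sub_pos.2 h3)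

lemma sgn_neg {y1 y2 A1 A2 : ℝ} (hy : y2 < y1) (hy2 : P.be < y2) (hy1 : y1 < P.al)
    (hyb : (P.dim - 2) * y1 < P.dim * P.be) (hA1 : 0 ≤ A1) (hA : A1 ≤ A2) (hA2 : 0 < A2)
    (hA2' : A2 < P.dim - 2) (h : P.sgn y1 A1 ≤ 0) : P.sgn y2 A2 < 0 := by
  obtain ⟨l1, l2, l3⟩ := P.low_lt
  have hN := P.two_lt_dim
  have hD : 0 < P.dim - 2 := by linarith
  have hk : 0 < P.dim * P.p + P.dim + 2 := by
    have := mul_pos (zero_lt_two.trans hN) P.p_pos; linarith
  have hbe := P.be_pos
  have hal := P.al_pos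
  have ht1 : A1 / (P.dim - 2) < 1 := (div_lt_one hD).2 (hA.trans_lt hA2')
  have ht2 : A2 / (P.dim - 2) < 1 := (div_lt_one hD).2 hA2'
  have ht2' : 0 < A2 / (P.dim - 2) := div_pos hA2 hD
  have htt : A1 / (P.dim - 2) ≤ A2 / (P.dim - 2) := by gcongr
  have ht0 : 0 ≤ A1 / (P.dim - 2) := div_nonneg hA1 hD.le
  -- the first point lies left of the third root
  have h3 : y1 < P.root3 := by
    by_contra hge
    rw [not_lt] at hge
    have hs0 : 0 < P.sgn0 y1 := by
      rw [sgn0_eq]
      exact mul_pos (mul_pos hal (by linarith)) (mul_pos hk (by linarith))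
    have hsD : P.sgnD y1 ≤ 0 :=
      mul_nonpos_of_nonneg_of_nonpos (mul_nonneg (mul_nonneg (by linarith [P.p_pos])
        (by linarith)) (by linarith)) (by linarith)
    have := mul_pos (sub_pos.2 ht1) hs0
    have := mul_nonpos_of_nonneg_of_nonpos ht0 hsD
    simp only [sgn] at h
    linarith
  have hD1 := sgnD_pos hy1 hyb h3
  have hyb2 : (P.dim - 2) * y2 < P.dim * P.be := (mul_lt_mul_of_pos_left hy hD).trans hyb
  have hD2 := sgnD_pos (hy.trans hy1) hyb2 (hy.trans h3)
  have hmonoD : P.sgnD y1 ≤ P.sgnD y2 := by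
    have h0 : 0 ≤ P.p + 2 := by linarith [P.p_pos]
    have h1 : (P.dim - 2) * y2 ≤ (P.dim - 2) * y1 := mul_le_mul_of_nonneg_left hy.le hD.le
    exact mul_le_mul (mul_le_mul (mul_le_mul_of_nonneg_left (by linarith) h0) (by linarith)
      (by linarith) (mul_nonneg h0 (by linarith))) (by linarith) (by linarith)
      (mul_nonneg (mul_nonneg h0 (by linarith)) (by linarith))
  simp only [sgn] at h ⊢
  rcases le_or_gt (P.sgn0 y2) 0 with hn | hpos
  · have := mul_nonpos_of_nonneg_of_nonpos (sub_pos.2 ht2).le hn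
    have := mul_pos ht2' hD2
    linarith
  · have hlow : P.low < y2 := by
      rw [sgn0_eq] at hpos
      have := pos_of_mul_pos_right hpos (mul_nonneg hal.le (by linarith))
      linarith [pos_of_mul_pos_right this hk.le]
    have hmono0 : P.sgn0 y2 < P.sgn0 y1 := by
      rw [sgn0_eq, sgn0_eq]
      refine mul_lt_mul'' ?_ ?_ (mul_nonneg hal.le (by linarith)) (mul_nonneg hk.le (by linarith))
      · exact mul_lt_mul_of_pos_left (by linarith) hal
      · exact mul_lt_mul_of_pos_left (by linarith) hk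
    have h4 : (1 - A2 / (P.dim - 2)) * P.sgn0 y2 < (1 - A1 / (P.dim - 2)) * P.sgn0 y1 :=
      mul_lt_mul' (by linarith) hmono0 hpos.le (sub_pos.2 ht1)
    have h5 : A1 / (P.dim - 2) * P.sgnD y1 ≤ A2 / (P.dim - 2) * P.sgnD y2 :=
      mul_le_mul htt hmonoD hD1.le ht2'.le
    linarith

end Par

namespace Orb

variable {P : Par} {O : Orb P} {z : ℝ}

/-- The excess of `crv` over `G (psi)`. -/
def sg (O : Orb P) (z : ℝ) : ℝ := O.crv z - P.gfun (O.psi z)

lemma psi_deriv_eq (hz : z ∈ O.dom) :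
    O.psi z ^ 2 - O.psi z + O.lam z = (P.be + P.al * O.psi z) * O.sg z / P.al := by
  have := P.al_pos.ne'
  rw [sg, Par.gfun, mul_sub, mul_div_cancel₀ _ (den_pos hz).ne', lam]
  field_simp
  ring

lemma contAt_sg (hz : z ∈ O.dom) : ContinuousAt O.sg z := by
  have h := (hasDerivAt_psi hz).continuousAt
  exact (hasDerivAt_crv hz).continuousAt.sub
    ((h.mul (continuousAt_const.sub (h.const_mul P.al))).div ((h.const_mul P.al).const_add P.be)
      (den_pos hz).ne')

/-- At a zero of the excess only `crv'` contributes to its derivative. -/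
lemma hasDerivAt_sg (hz : z ∈ O.dom) (h : O.sg z = 0) : HasDerivAt O.sg (O.crv1 z) z := by
  have hp := hasDerivAt_psi hz
  rw [psi_deriv_eq hz, h, mul_zero, zero_div, mul_zero] at hp
  refine ((hasDerivAt_crv hz).sub ((hp.mul ((hp.const_mul P.al).const_sub (P.dim + P.al))).div
    ((hp.const_mul P.al).const_add P.be) (den_pos hz).ne')).congr_deriv ?_
  simp

lemma sgn_at_zero (hz : z ∈ O.dom) (h : O.sg z = 0) :
    2 * z * O.crv1 z = O.psi z * P.sgn (P.al * O.psi z) (O.aa z) /
      (P.al * (P.be + P.al * O.psi z) ^ 2) := by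
  rw [eq_crv hz]
  exact P.sgn_spec _ _ _ (den_pos hz).ne' (sub_eq_zero.1 h)

end Orb

namespace GroundState

variable {P : Par} (G : GroundState P) {z : ℝ}

lemma aa_mono : MonotoneOn G.O.aa (Ici 0) := by
  have hN := P.two_lt_dim
  refine monotoneOn_of_hasDerivWithinAt_nonneg (convex_Ici 0)
    (fun y hy => (Orb.hasDerivAt_aa (G.mem_nonneg hy)).continuousAt.continuousWithinAt)
    (fun y hy => (Orb.hasDerivAt_aa (G.mem_nonneg (interior_subset (s := Ici (0 : ℝ)) hy))).hasDerivWithinAt)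
    fun y hy => ?_
  have hy' : 0 ≤ y := interior_subset (s := Ici (0 : ℝ)) hy
  refine mul_nonneg (Orb.a_pos (G.mem_nonneg hy')).le ?_
  have h1 := G.crv_le hy'
  rw [le_div_iff₀ (by linarith)] at h1
  rcases le_or_gt (G.O.crv y) 1 with h | h
  · have := mul_nonpos_of_nonpos_of_nonneg (sub_nonpos.2 h) (G.aa_nonneg hy')
    linarith
  · have := mul_le_mul_of_nonneg_left (G.aa_lt hy').le (sub_pos.2 h).le
    linarith

/-- `psi` increases for `z ≥ 0`. -/
theorem sg_nonneg (hz : 0 ≤ z) : 0 ≤ G.O.sg z := by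
  by_contra hneg
  rw [not_le] at hneg
  -- move slightly to the right
  obtain ⟨z', hneg', hzz'⟩ := ((((Orb.contAt_sg (G.mem_nonneg hz)).mono_left
    (nhdsWithin_le_nhds (s := Ioi z))).eventually_lt_const hneg).and self_mem_nhdsWithin).exists
  have hzpos : 0 < z' := hz.trans_lt hzz'
  clear hneg hzz' hz
  rename' z' => z, hneg' => hneg
  have hz := hzpos.le
  have hN := P.two_lt_dim
  have hD : 0 < P.dim - 2 := by linarith
  have hal := P.al_pos
  have hbe := P.be_pos
  -- the last point before `z` where the excess is not negative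
  obtain ⟨z0, hz0, hlt, hstart, hafter⟩ : ∃ z0, z0 ∈ Icc 0 z ∧ z0 < z ∧
      (P.sgn (P.al * G.O.psi z0) (G.O.aa z0) ≤ 0 ∧
        (P.dim - 2) * (P.al * G.O.psi z0) < P.dim * P.be) ∧ ∀ x ∈ Ioc z0 z, G.O.sg x < 0 := by
    have hc : ContinuousOn G.O.sg (Icc 0 z) := fun x hx =>
      (Orb.contAt_sg (G.mem_nonneg hx.1)).continuousWithinAt
    by_cases hall : ∀ x ∈ Icc 0 z, G.O.sg x < 0
    · refine ⟨0, ⟨le_rfl, hz⟩, hzpos, ?_, fun x hx => hall x (Ioc_subset_Icc_self hx)⟩
      have h0 := hall 0 ⟨le_rfl, hz⟩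
      have hy : P.al * G.O.psi 0 < P.low := by
        have hd := Orb.den_pos (O := G.O) G.O.zero_mem
        have hx := Orb.psi_pos (O := G.O) G.O.zero_mem
        simp only [Orb.sg, Orb.crv_zero, Par.gfun, sub_neg] at h0
        rw [div_lt_div_iff₀ (by linarith) hd] at h0
        have h2 : P.dim * P.p * (P.be + P.al * G.O.psi 0)
            < (P.dim + 2) * (P.dim + P.al - P.al * G.O.psi 0) := by
          refine lt_of_mul_lt_mul_left ?_ hx.le
          linarith
        have h1 : P.sgn0 (P.al * G.O.psi 0) < 0 :=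
          mul_neg_of_pos_of_neg (mul_pos hal hd) (sub_neg.2 h2)
        rw [P.sgn0_eq] at h1
        by_contra hge
        have hk : 0 ≤ P.dim * P.p + P.dim + 2 := by
          have := mul_pos (zero_lt_two.trans hN) P.p_pos; linarith
        have := mul_nonneg (mul_nonneg hal.le hd.le) (mul_nonneg hk (sub_nonneg.2 (not_lt.1 hge)))
        linarith
      obtain ⟨-, l2, -⟩ := P.low_lt
      refine ⟨?_, (mul_lt_mul_of_pos_left hy hD).trans l2⟩
      have hd := Orb.den_pos (O := G.O) G.O.zero_mem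
      have hk : 0 < P.dim * P.p + P.dim + 2 := by
        have := mul_pos (zero_lt_two.trans hN) P.p_pos; linarith
      simp only [Par.sgn, Orb.aa, mul_zero, zero_mul, zero_div, sub_zero, one_mul, P.sgn0_eq]
      exact (mul_neg_of_pos_of_neg (mul_pos hal hd) (mul_neg_of_pos_of_neg hk (sub_neg.2 hy))).le
    · push Not at hall
      obtain ⟨x0, hx0, hx0'⟩ := hall
      obtain ⟨z0, ⟨hz0, (hz0' : 0 ≤ G.O.sg z0)⟩, hgr⟩ := (isCompact_Icc.of_isClosed_subset
        (hc.preimage_isClosed_of_isClosed isClosed_Icc isClosed_Ici)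
        inter_subset_left).exists_isGreatest (s := Icc 0 z ∩ G.O.sg ⁻¹' Ici 0) ⟨x0, hx0, hx0'⟩
      have hlt : z0 < z := lt_of_le_of_ne hz0.2 fun e => (not_le.2 hneg) (e ▸ hz0')
      have hafter : ∀ x ∈ Ioc z0 z, G.O.sg x < 0 := fun x hx => by
        by_contra hge
        exact absurd (hgr ⟨⟨hz0.1.trans hx.1.le, hx.2⟩, not_lt.1 hge⟩) (not_le.2 hx.1)
      have hd := G.mem_nonneg hz0.1
      have heq : G.O.sg z0 = 0 := by
        refine le_antisymm ?_ hz0'
        exact le_of_tendsto ((Orb.contAt_sg hd).mono_left (nhdsWithin_le_nhds (s := Ioi z0)))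
          (by filter_upwards [Ioc_mem_nhdsGT hlt] with x hx using (hafter x hx).le)
      have hle : G.O.crv1 z0 ≤ 0 := by
        refine le_of_tendsto ((hasDerivAt_iff_tendsto_slope.1 (Orb.hasDerivAt_sg hd heq)).mono_left
          (nhdsWithin_mono (s := Ioi z0) z0 fun y (hy : z0 < y) => hy.ne')) ?_
        filter_upwards [Ioc_mem_nhdsGT hlt] with x hx
        rw [slope_def_field, heq, sub_zero]
        exact div_nonpos_of_nonpos_of_nonneg (hafter x hx).le (sub_nonneg.2 hx.1.le)
      refine ⟨z0, hz0, hlt, ⟨?_, ?_⟩, hafter⟩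
      · have h := Orb.sgn_at_zero hd heq
        have h1 : 2 * z0 * G.O.crv1 z0 ≤ 0 :=
          mul_nonpos_of_nonneg_of_nonpos (by linarith [hz0.1]) hle
        rw [h, div_le_iff₀ (mul_pos hal (pow_pos (Orb.den_pos hd) 2)), zero_mul] at h1
        exact nonpos_of_mul_nonpos_right (by linarith) (Orb.psi_pos hd)
      · rcases hz0.1.eq_or_lt with h | h
        · have h2 := Orb.sgn_at_zero hd heq
          subst h
          obtain ⟨-, l2, -⟩ := P.low_lt
          have hxp := Orb.psi_pos (O := G.O) G.O.zero_mem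
          have hd' := Orb.den_pos (O := G.O) G.O.zero_mem
          simp only [mul_zero, zero_mul, Par.sgn, Orb.aa, zero_div, sub_zero, one_mul, P.sgn0_eq,
            eq_comm (a := (0 : ℝ)), div_eq_zero_iff, mul_eq_zero, hxp.ne', hal.ne', hd'.ne',
            pow_eq_zero_iff, false_or, or_false, ne_eq, OfNat.ofNat_ne_zero, not_false_eq_true] at h2
          have hk : P.dim * P.p + P.dim + 2 ≠ 0 := by
            have := mul_pos (zero_lt_two.trans hN) P.p_pos; linarith
          have h3 : P.al * G.O.psi 0 - P.low = 0 := h2.resolve_left hk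
          rw [sub_eq_zero] at h3
          rwa [h3]
        · have hlt1 := G.crv_lt h
          rw [show G.O.crv z0 = P.gfun (G.O.psi z0) from sub_eq_zero.1 heq, ← sub_pos,
            P.gfun_gap _ (Orb.den_pos hd).ne', div_pos_iff_of_pos_right
              (mul_pos (mul_pos hal hD) (Orb.den_pos hd))] at hlt1
          have := G.psi_lt_one hd
          have hy : 0 ≤ P.al - P.al * G.O.psi z0 := by
            have := mul_lt_mul_of_pos_left this hal; linarith
          linarith [pos_of_mul_pos_right hlt1 hy]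
  obtain ⟨hsgn, hyb⟩ := hstart
  have hd0 := G.mem_nonneg hz0.1
  have hy0 : P.al * G.O.psi z0 < P.al := mul_lt_of_lt_one_right hal (G.psi_lt_one hd0)
  -- `psi` decreases as long as the excess is negative
  have hanti : ∀ x, z0 < x → (∀ y ∈ Ioo z0 x, G.O.sg y < 0) → G.O.psi x < G.O.psi z0 := by
    intro x hx hneg
    refine strictAntiOn_of_hasDerivWithinAt_neg (convex_Icc z0 x)
      (fun y hy => (Orb.hasDerivAt_psi
        (G.mem_nonneg (hz0.1.trans hy.1))).continuousAt.continuousWithinAt)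
      (fun y hy => (Orb.hasDerivAt_psi (G.mem_nonneg (hz0.1.trans
        (interior_subset (s := Icc z0 x) hy).1))).hasDerivWithinAt) (fun y hy => ?_)
      (left_mem_Icc.2 hx.le) (right_mem_Icc.2 hx.le) hx
    rw [interior_Icc] at hy
    have hd := G.mem_nonneg (hz0.1.trans hy.1.le)
    rw [Orb.psi_deriv_eq hd]
    exact mul_neg_of_pos_of_neg (Orb.a_pos hd)
      (div_neg_of_neg_of_pos (mul_neg_of_pos_of_neg (Orb.den_pos hd) (hneg y hy)) hal)
  -- the excess stays negative
  have hstay : ∀ x, z ≤ x → G.O.sg x < 0 := by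
    intro x hx
    by_contra hge
    obtain ⟨x2, ⟨hx2, (hx2' : 0 ≤ G.O.sg x2)⟩, hle⟩ := (isCompact_Icc.of_isClosed_subset
      (ContinuousOn.preimage_isClosed_of_isClosed
        (fun y hy => (Orb.contAt_sg (G.mem_nonneg (hz.trans hy.1))).continuousWithinAt)
        isClosed_Icc isClosed_Ici) inter_subset_left).exists_isLeast
        (s := Icc z x ∩ G.O.sg ⁻¹' Ici 0) ⟨x, ⟨hx, le_rfl⟩, not_lt.1 hge⟩
    have hbef : ∀ y ∈ Ioo z0 x2, G.O.sg y < 0 := fun y hy => by
      rcases le_or_gt y z with h | h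
      · exact hafter y ⟨hy.1, h⟩
      · by_contra hge'
        exact absurd (hle ⟨⟨h.le, hy.2.le.trans hx2.2⟩, not_lt.1 hge'⟩) (not_le.2 hy.2)
    have hzx : z0 < x2 := hlt.trans_le hx2.1
    have hpos : 0 < x2 := hzpos.trans_le hx2.1
    have hd := G.mem_nonneg hpos.le
    have heq : G.O.sg x2 = 0 := le_antisymm
      (le_of_tendsto ((Orb.contAt_sg hd).mono_left (nhdsWithin_le_nhds (s := Iio x2)))
        (by filter_upwards [Ioo_mem_nhdsLT hzx] with y hy using (hbef y hy).le)) hx2'
    have hge1 : 0 ≤ G.O.crv1 x2 := by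
      refine ge_of_tendsto ((hasDerivAt_iff_tendsto_slope.1 (Orb.hasDerivAt_sg hd heq)).mono_left
        (nhdsWithin_mono (s := Iio x2) x2 fun y (hy : y < x2) => hy.ne)) ?_
      filter_upwards [Ioo_mem_nhdsLT hzx] with y hy
      rw [slope_def_field, heq, sub_zero]
      exact (div_pos_of_neg_of_neg (hbef y hy) (sub_neg.2 hy.2)).le
    have h1 : P.sgn (P.al * G.O.psi x2) (G.O.aa x2) < 0 :=
      Par.sgn_neg (mul_lt_mul_of_pos_left (hanti x2 hzx hbef) hal) (G.psi_gt hd) hy0 hyb
        (G.aa_nonneg hz0.1) (G.aa_mono hz0.1 hpos.le hzx.le)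
        (mul_pos (mul_pos two_pos hpos) (Orb.a_pos hd)) (G.aa_lt hpos.le) hsgn
    have h2 : G.O.psi x2 * P.sgn (P.al * G.O.psi x2) (G.O.aa x2) /
        (P.al * (P.be + P.al * G.O.psi x2) ^ 2) < 0 :=
      div_neg_of_neg_of_pos (mul_neg_of_pos_of_neg (Orb.psi_pos hd) h1)
        (mul_pos hal (pow_pos (Orb.den_pos hd) 2))
    rw [← Orb.sgn_at_zero hd heq] at h2
    linarith [mul_nonneg (mul_nonneg zero_le_two hpos.le) hge1]
  -- hence `crv` stays away from `N / (N - 2)` and `aa` is unbounded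
  have hdy0 := Orb.den_pos hd0
  set η := (P.al - P.al * G.O.psi z0) * (P.dim * P.be - (P.dim - 2) * (P.al * G.O.psi z0)) /
    (P.al * (P.dim - 2) * (P.be + P.al * G.O.psi z0)) with hη
  have hη0 : 0 < η := div_pos (mul_pos (sub_pos.2 hy0) (sub_pos.2 hyb))
    (mul_pos (mul_pos hal hD) hdy0)
  have hcrv : ∀ x, z ≤ x → G.O.crv x ≤ P.dim / (P.dim - 2) - η := by
    intro x hx
    have hd := G.mem_nonneg (hz.trans hx)
    have hzx : z0 < x := hlt.trans_le hx
    have hy := mul_le_mul_of_nonneg_left (hanti x hzx fun y hy =>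
      (le_or_gt y z).elim (fun h => hafter y ⟨hy.1, h⟩) (fun h => hstay y h.le)).le hal.le
    have hy' := mul_le_mul_of_nonneg_left hy hD.le
    have h1 : η ≤ P.dim / (P.dim - 2) - P.gfun (G.O.psi x) := by
      rw [P.gfun_gap _ (Orb.den_pos hd).ne', hη]
      refine div_le_div₀ (mul_nonneg (by linarith) (by linarith))
        (mul_le_mul (by linarith) (by linarith) (by linarith) (by linarith))
        (mul_pos (mul_pos hal hD) (Orb.den_pos hd)) ?_
      exact mul_le_mul_of_nonneg_left (by linarith) (mul_pos hal hD).le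
    have h2 := hstay x hx
    simp only [Orb.sg] at h2
    linarith
  set k := η * G.O.aa z ^ 2 / 2 with hk
  have haz : 0 < G.O.aa z := mul_pos (mul_pos two_pos hzpos) (Orb.a_pos (G.mem_nonneg hz))
  have hk0 : 0 < k := by positivity
  have hder : ∀ x, z ≤ x → HasDerivAt (fun x => G.O.aa x - k * Real.log x)
      (G.O.a x * (2 - (G.O.crv x - 1) * G.O.aa x) - k * x⁻¹) x := fun x hx =>
    (Orb.hasDerivAt_aa (G.mem_nonneg (hz.trans hx))).sub
      ((Real.hasDerivAt_log (hzpos.trans_le hx).ne').const_mul k)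
  have hmono := monotoneOn_of_hasDerivWithinAt_nonneg (convex_Ici z)
    (fun x hx => (hder x hx).continuousAt.continuousWithinAt)
    (fun x hx => (hder x (interior_subset (s := Ici z) hx)).hasDerivWithinAt) fun x hx => by
      have hx' : z ≤ x := interior_subset (s := Ici z) hx
      have hxp : 0 < x := hzpos.trans_le hx'
      have ha := Orb.a_pos (G.mem_nonneg hxp.le)
      have h1 := G.aa_mono hz hxp.le hx'
      have h2 := mul_le_mul_of_nonneg_right (hcrv x hx') (G.aa_nonneg hxp.le)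
      have h3 : P.dim / (P.dim - 2) * G.O.aa x - G.O.aa x ≤ 2 := by
        rw [div_mul_eq_mul_div, sub_le_iff_le_add, div_le_iff₀ hD]
        linarith [G.aa_lt hxp.le]
      have h4 : η * G.O.aa x ≤ 2 - (G.O.crv x - 1) * G.O.aa x := by linarith
      have h5 := mul_le_mul_of_nonneg_left h4 ha.le
      have h6 : k * x⁻¹ ≤ G.O.a x * (η * G.O.aa x) := by
        rw [← div_eq_mul_inv, div_le_iff₀ hxp, hk]
        have h7 := mul_le_mul_of_nonneg_left
          (pow_le_pow_left₀ haz.le h1 2) (half_pos hη0).le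
        have h8 : G.O.a x * (η * G.O.aa x) * x = η / 2 * G.O.aa x ^ 2 := by
          simp only [Orb.aa]; ring
        linarith
      linarith
  obtain ⟨x, hx, hxl⟩ := ((eventually_ge_atTop z).and ((Real.tendsto_log_atTop.const_mul_atTop
    hk0).eventually_gt_atTop (P.dim - 2 - G.O.aa z + k * Real.log z))).exists
  have := hmono self_mem_Ici hx hx
  have := G.aa_lt (hz.trans hx)
  linarith

end GroundState

end

end Vale.Agent.P100.Ground
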