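import Vale.Agent.P100.Ground.Main

/-! P100, critical ground state: orbits are smooth, also at `z = 0`. -/

namespace Vale.Agent.P100.Ground

noncomputable section

open Set Filter Topology

/-- A solution of `2 z W' + N W = 0` which is differentiable through zero vanishes. -/
lemma eq_zero_of_euler {N : ℝ} (hN : 0 < N) {W W' : ℝ → ℝ} {s : Set ℝ} (hs : s.OrdConnected)
    (h0 : (0 : ℝ) ∈ s) (hW : ∀ x ∈ s, HasDerivAt W (W' x) x)
    (he : ∀ x ∈ s, 2 * x * W' x + N * W x = 0) {z : ℝ} (hz : z ∈ s) : W z = 0 := by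
  have hW0 : W 0 = 0 := by
    have := he 0 h0
    simp only [mul_zero, zero_mul, zero_add] at this
    exact (mul_eq_zero.1 this).resolve_left hN.ne'
  have hc : ContinuousOn W (uIcc 0 z) := fun x hx =>
    (hW x (hs.uIcc_subset h0 hz hx)).continuousAt.continuousWithinAt
  have hsub := hs.uIcc_subset h0 hz
  rcases lt_trichotomy z 0 with hneg | rfl | hpos
  · rw [uIcc_of_ge hneg.le] at hc hsub
    obtain ⟨c, -, hceq⟩ := exists_hasDerivAt_eq_slope (fun x => (-x) ^ (N / 2) * W x) (fun _ => 0)
      hneg ((continuous_neg.rpow_const fun _ => Or.inr (by linarith)).continuousOn.mul hc) fun x hx => by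
        have hx0 : (0 : ℝ) < -x := neg_pos.2 hx.2
        have hxne : x ≠ 0 := hx.2.ne
        refine (((hasDerivAt_id x).neg.rpow_const (p := N / 2) (Or.inl hx0.ne')).mul
          (hW x (hsub ⟨hx.1.le, hx.2.le⟩))).congr_deriv ?_
        simp only [id_eq, Pi.neg_apply]
        rw [Real.rpow_sub_one hx0.ne', div_neg]
        field_simp
        linear_combination (-x) ^ (N / 2) * he x (hsub ⟨hx.1.le, hx.2.le⟩)
    rw [hW0, mul_zero, eq_comm, div_eq_zero_iff] at hceq
    rcases hceq with h | h
    · have : (-z) ^ (N / 2) ≠ 0 := (Real.rpow_pos_of_pos (neg_pos.2 hneg) _).ne'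
      simpa [this] using h
    · linarith
  · exact hW0
  · rw [uIcc_of_le hpos.le] at hc hsub
    obtain ⟨c, -, hceq⟩ := exists_hasDerivAt_eq_slope (fun x => x ^ (N / 2) * W x) (fun _ => 0)
      hpos ((continuous_id.rpow_const fun _ => Or.inr (by linarith)).continuousOn.mul hc) fun x hx => by
        refine ((Real.hasDerivAt_rpow_const (p := N / 2) (Or.inl hx.1.ne')).mul
          (hW x (hsub ⟨hx.1.le, hx.2.le⟩))).congr_deriv ?_
        rw [Real.rpow_sub_one hx.1.ne']
        have := hx.1.ne'
        field_simp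
        linear_combination x ^ (N / 2) * he x (hsub ⟨hx.1.le, hx.2.le⟩)
    rw [hW0, mul_zero, eq_comm, div_eq_zero_iff] at hceq
    rcases hceq with h | h
    · have : z ^ (N / 2) ≠ 0 := (Real.rpow_pos_of_pos hpos _).ne'
      simpa [this] using h
    · linarith

/-- The derivative of the average on an open interval around zero. -/
lemma hasDerivAt_av_on {N : ℝ} (hN : 2 < N) {s : Set ℝ} (hs : s.OrdConnected) (ho : IsOpen s)
    (h0 : (0 : ℝ) ∈ s) {h h' : ℝ → ℝ} (hd : ∀ x ∈ s, HasDerivAt h (h' x) x)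
    (hc : ContinuousOn h' s) {z : ℝ} (hz : z ∈ s) :
    HasDerivAt (av N h) (av (N + 2) h' z) z ∧
      N * av N h z + 2 * z * av (N + 2) h' z = h z := by
  obtain ⟨l, hl, hls⟩ := Metric.isOpen_iff.1 ho (min 0 z) (by
    rcases min_choice 0 z with h | h <;> rwa [h])
  obtain ⟨r, hr, hrs⟩ := Metric.isOpen_iff.1 ho (max 0 z) (by
    rcases max_choice 0 z with h | h <;> rwa [h])
  have hlo : min 0 z - l / 2 ∈ s := hls (by
    rw [Metric.mem_ball, Real.dist_eq, sub_sub_cancel_left, abs_neg, abs_of_pos (by linarith)]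
    linarith)
  have hhi : max 0 z + r / 2 ∈ s := hrs (by
    rw [Metric.mem_ball, Real.dist_eq, add_sub_cancel_left, abs_of_pos (by linarith)]
    linarith)
  have hsub : Ioo (min 0 z - l / 2) (max 0 z + r / 2) ⊆ s :=
    fun x hx => hs.out hlo hhi ⟨hx.1.le, hx.2.le⟩
  exact hasDerivAt_av hN (fun x hx => hd x (hsub hx)) (hc.mono hsub)
    ⟨by linarith [min_le_left 0 z], by linarith [le_max_left 0 z]⟩
    ⟨by linarith [min_le_right 0 z], by linarith [le_max_right 0 z]⟩

/-- The average preserves smoothness. -/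
lemma contDiffOn_av {s : Set ℝ} (hs : s.OrdConnected) (ho : IsOpen s) (h0 : (0 : ℝ) ∈ s) :
    ∀ (k : ℕ) {N : ℝ} {h : ℝ → ℝ}, 2 < N → ContDiffOn ℝ k h s → ContDiffOn ℝ k (av N h) s := by
  intro k
  induction k with
  | zero =>
    intro N h hN hh
    refine contDiffOn_zero.2 fun z hz => ?_
    obtain ⟨l, hl, hls⟩ := Metric.isOpen_iff.1 ho z hz
    have hzl : z - l / 2 ∈ s := hls (by
      rw [Metric.mem_ball, Real.dist_eq, sub_sub_cancel_left, abs_neg, abs_of_pos (by linarith)]
      linarith)
    have hzr : z + l / 2 ∈ s := hls (by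
      rw [Metric.mem_ball, Real.dist_eq, add_sub_cancel_left, abs_of_pos (by linarith)]
      linarith)
    rcases le_total 0 z with h0z | h0z
    · have hc := continuousOn_av (z := z + l / 2) (by linarith : (1 : ℝ) ≤ N)
        (hh.continuousOn.mono (hs.uIcc_subset h0 hzr))
      rcases h0z.eq_or_lt with rfl | hzpos
      · have hc' := continuousOn_av (z := 0 - l / 2) (by linarith : (1 : ℝ) ≤ N)
          (hh.continuousOn.mono (hs.uIcc_subset h0 hzl))
        rw [uIcc_of_le (by linarith)] at hc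
        rw [uIcc_of_ge (by linarith)] at hc'
        refine ContinuousAt.continuousWithinAt ?_
        have := hc'.union_of_isClosed hc isClosed_Icc isClosed_Icc
        rw [Icc_union_Icc_eq_Icc (by linarith) (by linarith)] at this
        exact this.continuousAt (Icc_mem_nhds (by linarith) (by linarith))
      · rw [uIcc_of_le (by linarith)] at hc
        exact (hc.continuousAt (Icc_mem_nhds hzpos (by linarith))).continuousWithinAt
    · rcases h0z.eq_or_lt with rfl | hzneg
      · have hc := continuousOn_av (z := 0 + l / 2) (by linarith : (1 : ℝ) ≤ N)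
          (hh.continuousOn.mono (hs.uIcc_subset h0 hzr))
        have hc' := continuousOn_av (z := 0 - l / 2) (by linarith : (1 : ℝ) ≤ N)
          (hh.continuousOn.mono (hs.uIcc_subset h0 hzl))
        rw [uIcc_of_le (by linarith)] at hc
        rw [uIcc_of_ge (by linarith)] at hc'
        refine ContinuousAt.continuousWithinAt ?_
        have := hc'.union_of_isClosed hc isClosed_Icc isClosed_Icc
        rw [Icc_union_Icc_eq_Icc (by linarith) (by linarith)] at this
        exact this.continuousAt (Icc_mem_nhds (by linarith) (by linarith))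
      · have hc := continuousOn_av (z := z - l / 2) (by linarith : (1 : ℝ) ≤ N)
          (hh.continuousOn.mono (hs.uIcc_subset h0 hzl))
        rw [uIcc_of_ge (by linarith)] at hc
        exact (hc.continuousAt (Icc_mem_nhds (by linarith) hzneg)).continuousWithinAt
  | succ k ih =>
    intro N h hN hh
    rw [Nat.cast_succ] at hh ⊢
    rw [contDiffOn_succ_iff_deriv_of_isOpen ho] at hh ⊢
    obtain ⟨hdiff, -, hk⟩ := hh
    have hd : ∀ x ∈ s, HasDerivAt h (deriv h x) x := fun x hx =>
      (hdiff.differentiableAt (ho.mem_nhds hx)).hasDerivAt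
    refine ⟨fun z hz => ((hasDerivAt_av_on hN hs ho h0 hd hk.continuousOn hz).1.differentiableAt
      ).differentiableWithinAt, fun h => absurd h (by simp), ?_⟩
    exact (ih (by linarith) hk).congr fun z hz =>
      (hasDerivAt_av_on hN hs ho h0 hd hk.continuousOn hz).1.deriv

namespace Orb

variable {P : Par} (O : Orb P) {z : ℝ}

/-- The derivative of `U` is the average of the reaction. -/
lemma U1_eq (hz : z ∈ O.dom) : O.U1 z = -(av P.dim (fun x => O.V x ^ P.p) z) / 2 := by
  have hd : ∀ x ∈ O.dom, HasDerivAt (fun x => O.V x ^ P.p)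
      (O.V1 x * P.p * O.V x ^ (P.p - 1)) x := fun x hx =>
    (O.hV x hx).rpow_const (Or.inl (O.posV x hx).ne')
  have hc : ContinuousOn (fun x => O.V1 x * P.p * O.V x ^ (P.p - 1)) O.dom :=
    (ContinuousOn.mul (fun x hx => (O.hV1 x hx).continuousAt.continuousWithinAt : ContinuousOn O.V1 O.dom)
      continuousOn_const).mul (contV.rpow_const fun x hx => Or.inl (O.posV x hx).ne')
  have key := eq_zero_of_euler (zero_lt_two.trans P.two_lt_dim) O.conn O.zero_mem
    (W := fun x => O.U1 x + av P.dim (fun y => O.V y ^ P.p) x / 2)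
    (fun x hx => (O.hU1 x hx).add
      ((hasDerivAt_av_on P.two_lt_dim O.conn O.isOpen O.zero_mem hd hc hx).1.div_const 2))
    (fun x hx => by
      have h := (hasDerivAt_av_on P.two_lt_dim O.conn O.isOpen O.zero_mem hd hc hx).2
      linear_combination O.odeU x hx / 2 + h / 2) hz
  linarith

/-- The derivative of `V` is the average of the reaction. -/
lemma V1_eq (hz : z ∈ O.dom) : O.V1 z = -(av P.dim (fun x => O.U x ^ P.q) z) / 2 := by
  have hd : ∀ x ∈ O.dom, HasDerivAt (fun x => O.U x ^ P.q)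
      (O.U1 x * P.q * O.U x ^ (P.q - 1)) x := fun x hx =>
    (O.hU x hx).rpow_const (Or.inl (O.posU x hx).ne')
  have hc : ContinuousOn (fun x => O.U1 x * P.q * O.U x ^ (P.q - 1)) O.dom :=
    (ContinuousOn.mul (fun x hx => (O.hU1 x hx).continuousAt.continuousWithinAt : ContinuousOn O.U1 O.dom)
      continuousOn_const).mul (contU.rpow_const fun x hx => Or.inl (O.posU x hx).ne')
  have key := eq_zero_of_euler (zero_lt_two.trans P.two_lt_dim) O.conn O.zero_mem
    (W := fun x => O.V1 x + av P.dim (fun y => O.U y ^ P.q) x / 2)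
    (fun x hx => (O.hV1 x hx).add
      ((hasDerivAt_av_on P.two_lt_dim O.conn O.isOpen O.zero_mem hd hc hx).1.div_const 2))
    (fun x hx => by
      have h := (hasDerivAt_av_on P.two_lt_dim O.conn O.isOpen O.zero_mem hd hc hx).2
      linear_combination O.odeV x hx / 2 + h / 2) hz
  linarith

lemma contDiffOn_nat (k : ℕ) : ContDiffOn ℝ k O.U O.dom ∧ ContDiffOn ℝ k O.V O.dom := by
  induction k with
  | zero => exact ⟨contDiffOn_zero.2 contU, contDiffOn_zero.2 contV⟩
  | succ k ih =>
    have h1 : ContDiffOn ℝ k O.U1 O.dom :=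
      (((contDiffOn_av O.conn O.isOpen O.zero_mem k P.two_lt_dim
        (ih.2.rpow_const_of_ne fun x hx => (O.posV x hx).ne')).neg).div_const 2).congr
        fun x hx => O.U1_eq hx
    have h2 : ContDiffOn ℝ k O.V1 O.dom :=
      (((contDiffOn_av O.conn O.isOpen O.zero_mem k P.two_lt_dim
        (ih.1.rpow_const_of_ne fun x hx => (O.posU x hx).ne')).neg).div_const 2).congr
        fun x hx => O.V1_eq hx
    rw [Nat.cast_succ]
    constructor <;> rw [contDiffOn_succ_iff_deriv_of_isOpen O.isOpen]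
    · exact ⟨fun x hx => (O.hU x hx).differentiableAt.differentiableWithinAt,
        fun h => absurd h (by simp), h1.congr fun x hx => (O.hU x hx).deriv⟩
    · exact ⟨fun x hx => (O.hV x hx).differentiableAt.differentiableWithinAt,
        fun h => absurd h (by simp), h2.congr fun x hx => (O.hV x hx).deriv⟩

/-- Orbits are smooth. -/
theorem contDiffOn_UV (n : ℕ∞) :
    ContDiffOn ℝ n O.U O.dom ∧ ContDiffOn ℝ n O.V O.dom :=
  ⟨contDiffOn_all_iff_nat.2 (fun k => (O.contDiffOn_nat k).1) n,
    contDiffOn_all_iff_nat.2 (fun k => (O.contDiffOn_nat k).2) n⟩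

theorem contDiffOn_U1V1 (k : ℕ) : ContDiffOn ℝ k O.U1 O.dom ∧ ContDiffOn ℝ k O.V1 O.dom := by
  obtain ⟨hu, hv⟩ := O.contDiffOn_nat (k + 1)
  rw [Nat.cast_succ, contDiffOn_succ_iff_deriv_of_isOpen O.isOpen] at hu hv
  exact ⟨hu.2.2.congr fun x hx => (O.hU x hx).deriv.symm,
    hv.2.2.congr fun x hx => (O.hV x hx).deriv.symm⟩

theorem contDiffOn_U2V2 (k : ℕ) : ContDiffOn ℝ k O.U2 O.dom ∧ ContDiffOn ℝ k O.V2 O.dom := by
  obtain ⟨hu, hv⟩ := O.contDiffOn_U1V1 (k + 1)
  rw [Nat.cast_succ, contDiffOn_succ_iff_deriv_of_isOpen O.isOpen] at hu hv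
  exact ⟨hu.2.2.congr fun x hx => (O.hU1 x hx).deriv.symm,
    hv.2.2.congr fun x hx => (O.hV1 x hx).deriv.symm⟩

end Orb

end

end Vale.Agent.P100.Ground
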