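import Mathlib

/-! P100, critical ground state: the averaging operator `h ↦ ∫₀¹ s^(N-1) h (z s²) ds` and the
calculus facts used with it. -/

namespace Vale.Agent.P100.Ground

noncomputable section

open MeasureTheory Set intervalIntegral Filter Topology

/-- The average of `h` between `0` and `z`. -/
def av (N : ℝ) (h : ℝ → ℝ) (z : ℝ) : ℝ := ∫ s in (0 : ℝ)..1, s ^ (N - 1) * h (z * s ^ 2)

variable {N : ℝ}

lemma continuous_weight (hN : 1 ≤ N) : Continuous fun s : ℝ => s ^ (N - 1) :=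
  continuous_id.rpow_const fun _ => Or.inr (by linarith)

lemma integral_weight (hN : 1 ≤ N) : ∫ s in (0 : ℝ)..1, s ^ (N - 1) = 1 / N := by
  rw [integral_rpow (Or.inl (by linarith)), Real.one_rpow, Real.zero_rpow (by linarith)]
  simp

lemma mul_sq_mem_uIcc {z s : ℝ} (hs : s ∈ Icc (0 : ℝ) 1) : z * s ^ 2 ∈ uIcc 0 z := by
  have h0 : 0 ≤ s ^ 2 := sq_nonneg s
  have h1 : s ^ 2 ≤ 1 := pow_le_one₀ hs.1 hs.2
  rcases le_total 0 z with h | h
  · rw [uIcc_of_le h]; exact ⟨by positivity, mul_le_of_le_one_right h h1⟩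
  · rw [uIcc_of_ge h]; exact ⟨by nlinarith, by nlinarith⟩

lemma continuousOn_av_integrand (hN : 1 ≤ N) {h : ℝ → ℝ} {z : ℝ} (hh : ContinuousOn h (uIcc 0 z)) :
    ContinuousOn (fun s : ℝ => s ^ (N - 1) * h (z * s ^ 2)) (uIcc 0 1) := by
  refine (continuous_weight hN).continuousOn.mul (hh.comp (by fun_prop) ?_)
  rw [uIcc_of_le zero_le_one]
  exact fun s hs => mul_sq_mem_uIcc hs

lemma av_congr {h g : ℝ → ℝ} {z : ℝ} (e : EqOn h g (uIcc 0 z)) : av N h z = av N g z := by
  refine integral_congr fun s hs => ?_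
  rw [uIcc_of_le zero_le_one] at hs
  simp only [e (mul_sq_mem_uIcc hs)]

lemma le_av (hN : 1 ≤ N) {h : ℝ → ℝ} {z c : ℝ} (hh : ContinuousOn h (uIcc 0 z))
    (hc : ∀ x ∈ uIcc 0 z, c ≤ h x) : c / N ≤ av N h z := by
  have : c / N = ∫ s in (0 : ℝ)..1, s ^ (N - 1) * c := by
    rw [intervalIntegral.integral_mul_const, integral_weight hN]; ring
  rw [this]
  refine integral_mono_on zero_le_one (((continuous_weight hN).mul continuous_const).intervalIntegrable _ _)
    ((continuousOn_av_integrand hN hh).intervalIntegrable) fun s hs => ?_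
  exact mul_le_mul_of_nonneg_left (hc _ (mul_sq_mem_uIcc hs)) (Real.rpow_nonneg hs.1 _)

lemma av_le (hN : 1 ≤ N) {h : ℝ → ℝ} {z c : ℝ} (hh : ContinuousOn h (uIcc 0 z))
    (hc : ∀ x ∈ uIcc 0 z, h x ≤ c) : av N h z ≤ c / N := by
  have : c / N = ∫ s in (0 : ℝ)..1, s ^ (N - 1) * c := by
    rw [intervalIntegral.integral_mul_const, integral_weight hN]; ring
  rw [this]
  refine integral_mono_on zero_le_one ((continuousOn_av_integrand hN hh).intervalIntegrable)
    (((continuous_weight hN).mul continuous_const).intervalIntegrable _ _) fun s hs => ?_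
  exact mul_le_mul_of_nonneg_left (hc _ (mul_sq_mem_uIcc hs)) (Real.rpow_nonneg hs.1 _)

lemma abs_av_le (hN : 1 ≤ N) {h : ℝ → ℝ} {z c : ℝ} (hh : ContinuousOn h (uIcc 0 z))
    (hc : ∀ x ∈ uIcc 0 z, |h x| ≤ c) : |av N h z| ≤ c := by
  have h0 : 0 ≤ c := (abs_nonneg _).trans (hc 0 left_mem_uIcc)
  have hNc : c / N ≤ c := div_le_self h0 hN
  have h1 := le_av hN hh (c := -c) fun x hx => (abs_le.1 (hc x hx)).1
  have h2 := av_le hN hh fun x hx => (abs_le.1 (hc x hx)).2
  rw [neg_div] at h1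
  exact abs_le.2 ⟨by linarith, by linarith⟩

lemma av_sub (hN : 1 ≤ N) {h g : ℝ → ℝ} {z : ℝ} (hh : ContinuousOn h (uIcc 0 z))
    (hg : ContinuousOn g (uIcc 0 z)) : av N (fun x => h x - g x) z = av N h z - av N g z := by
  unfold av
  rw [← intervalIntegral.integral_sub (continuousOn_av_integrand hN hh).intervalIntegrable
    (continuousOn_av_integrand hN hg).intervalIntegrable]
  simp only [mul_sub]

lemma av_zero (hN : 1 ≤ N) (h : ℝ → ℝ) : av N h 0 = h 0 / N := by
  unfold av
  simp only [zero_mul]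
  rw [intervalIntegral.integral_mul_const, integral_weight hN]
  ring

/-- The average is continuous in parameters. -/
lemma continuous_av {X : Type*} [TopologicalSpace X] (hN : 1 ≤ N) {h : X → ℝ → ℝ}
    (hh : Continuous fun p : X × ℝ => h p.1 p.2) :
    Continuous fun p : X × ℝ => av N (h p.1) p.2 := by
  refine continuous_parametric_intervalIntegral_of_continuous' ?_ 0 1
  exact ((continuous_weight hN).comp continuous_snd).mul
    (hh.comp ((continuous_fst.fst).prodMk (continuous_fst.snd.mul (continuous_snd.pow 2))))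

/-- Primitive from zero, written as an average. -/
def prim (g : ℝ → ℝ) (z : ℝ) : ℝ := ∫ x in (0 : ℝ)..z, g x

lemma continuous_prim {X : Type*} [TopologicalSpace X] {g : X → ℝ → ℝ}
    (hg : Continuous fun p : X × ℝ => g p.1 p.2) :
    Continuous fun p : X × ℝ => prim (g p.1) p.2 := by
  have e : (fun p : X × ℝ => prim (g p.1) p.2) =
      fun p : X × ℝ => p.2 * ∫ s in (0 : ℝ)..1, g p.1 (p.2 * s) := by
    funext p
    simp [prim]
  rw [e]
  refine continuous_snd.mul (continuous_parametric_intervalIntegral_of_continuous' ?_ 0 1)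
  exact hg.comp ((continuous_fst.fst).prodMk (continuous_fst.snd.mul continuous_snd))

/-- A bound of order `n` integrates to a bound of order `n + 1`. -/
lemma abs_prim_le {g : ℝ → ℝ} {z c : ℝ} (n : ℕ) (hg : ContinuousOn g (uIcc 0 z))
    (hc : ∀ x ∈ uIcc 0 z, |g x| ≤ c * |x| ^ n) :
    |prim g z| ≤ c * |z| ^ (n + 1) / (n + 1) := by
  have e := (smul_integral_comp_mul_left (f := g) (a := 0) (b := 1) z).symm
  simp only [mul_zero, mul_one, smul_eq_mul] at e
  rw [prim, e, abs_mul]
  have hmem : ∀ s ∈ Icc (0 : ℝ) 1, z * s ∈ uIcc 0 z := by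
    intro s hs
    rcases le_total 0 z with h | h
    · rw [uIcc_of_le h]; exact ⟨mul_nonneg h hs.1, mul_le_of_le_one_right h hs.2⟩
    · rw [uIcc_of_ge h]; exact ⟨by nlinarith [hs.1, hs.2], by nlinarith [hs.1, hs.2]⟩
  have hgi : ContinuousOn (fun s => g (z * s)) (uIcc 0 1) :=
    hg.comp (by fun_prop) (by rw [uIcc_of_le zero_le_one]; exact hmem)
  have h1 : |∫ s in (0 : ℝ)..1, g (z * s)| ≤ ∫ s in (0 : ℝ)..1, c * |z| ^ n * s ^ n := by
    refine (abs_integral_le_integral_abs zero_le_one).trans ?_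
    refine integral_mono_on zero_le_one hgi.abs.intervalIntegrable
      ((continuous_const.mul (continuous_pow n)).intervalIntegrable _ _) fun s hs => ?_
    refine (hc _ (hmem s hs)).trans (le_of_eq ?_)
    rw [abs_mul, abs_of_nonneg hs.1, mul_pow]
    ring
  rw [intervalIntegral.integral_const_mul, integral_pow] at h1
  simp only [one_pow, zero_pow (Nat.succ_ne_zero n), sub_zero] at h1
  calc |z| * |∫ s in (0 : ℝ)..1, g (z * s)| ≤ |z| * (c * |z| ^ n * (1 / (n + 1))) :=
        mul_le_mul_of_nonneg_left h1 (abs_nonneg z)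
    _ = c * |z| ^ (n + 1) / (n + 1) := by rw [pow_succ]; ring

lemma hasDerivAt_prim {g : ℝ → ℝ} {z : ℝ} (hg : Continuous g) : HasDerivAt (prim g) (g z) z :=
  (hg.integral_hasStrictDerivAt 0 z).hasDerivAt

/-- For `h` of class `C¹` the average solves `N av + 2 z av' = h`. -/
lemma hasDerivAt_av (hN : 2 < N) {lo hi : ℝ} {h h' : ℝ → ℝ}
    (hd : ∀ x ∈ Ioo lo hi, HasDerivAt h (h' x) x) (hc : ContinuousOn h' (Ioo lo hi))
    (h0 : (0 : ℝ) ∈ Ioo lo hi) {z : ℝ} (hz : z ∈ Ioo lo hi) :
    HasDerivAt (av N h) (av (N + 2) h' z) z ∧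
      N * av N h z + 2 * z * av (N + 2) h' z = h z := by
  obtain ⟨a, ha⟩ := exists_between (lt_min hz.1 h0.1)
  obtain ⟨b, hb⟩ := exists_between (max_lt hz.2 h0.2)
  have ha0 : a < 0 := ha.2.trans_le (min_le_right _ _)
  have haz : a < z := ha.2.trans_le (min_le_left _ _)
  have hb0 : 0 < b := (le_max_right _ _).trans_lt hb.1
  have hbz : z < b := (le_max_left _ _).trans_lt hb.1
  have hsub : Icc a b ⊆ Ioo lo hi := Icc_subset_Ioo ha.1 hb.2
  have hseg : ∀ x ∈ Ioo a b, uIcc 0 x ⊆ Icc a b := fun x hx =>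
    uIcc_subset_Icc ⟨ha0.le, hb0.le⟩ ⟨hx.1.le, hx.2.le⟩
  have hcont : ∀ x ∈ Ioo a b, ContinuousOn h (uIcc 0 x) := fun x hx y hy =>
    (hd y (hsub (hseg x hx hy))).continuousAt.continuousWithinAt
  have hcont' : ∀ x ∈ Ioo a b, ContinuousOn h' (uIcc 0 x) := fun x hx =>
    hc.mono ((hseg x hx).trans hsub)
  obtain ⟨C, hC⟩ := isCompact_Icc.exists_bound_of_continuousOn (hc.mono hsub)
  have hpow : ∀ s ∈ Icc (0 : ℝ) 1, s ^ (N + 2 - 1) = s ^ (N - 1) * s ^ 2 := by
    intro s hs
    rw [← Real.rpow_natCast s 2, ← Real.rpow_add_of_nonneg hs.1 (by linarith) (by norm_num)]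
    congr 1
    push_cast
    ring
  have hmem : ∀ s ∈ Ioc (0 : ℝ) 1, s ∈ Icc (0 : ℝ) 1 := fun s hs => ⟨hs.1.le, hs.2⟩
  refine ⟨?_, ?_⟩
  · refine (hasDerivAt_integral_of_dominated_loc_of_deriv_le (μ := volume)
      (F := fun x s => s ^ (N - 1) * h (x * s ^ 2))
      (F' := fun x s => s ^ (N + 2 - 1) * h' (x * s ^ 2)) (bound := fun _ => C)
      (Ioo_mem_nhds haz hbz) ?_ ?_ ?_ ?_ intervalIntegrable_const ?_).2
    · filter_upwards [Ioo_mem_nhds haz hbz] with x hx
      exact ((continuousOn_av_integrand (by linarith) (hcont x hx)).intervalIntegrable).def'.1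
    · exact (continuousOn_av_integrand (by linarith) (hcont z ⟨haz, hbz⟩)).intervalIntegrable
    · exact ((continuousOn_av_integrand (by linarith) (hcont' z ⟨haz, hbz⟩)).intervalIntegrable).def'.1
    · refine Eventually.of_forall fun s hs x hx => ?_
      rw [uIoc_of_le zero_le_one] at hs
      have hb' := hC _ (hseg x hx (mul_sq_mem_uIcc (hmem s hs)))
      rw [norm_mul, Real.norm_of_nonneg (Real.rpow_nonneg hs.1.le _)]
      have h1 : s ^ (N + 2 - 1) ≤ 1 := Real.rpow_le_one hs.1.le hs.2 (by linarith)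
      exact (mul_le_of_le_one_left (norm_nonneg _) h1).trans hb'
    · refine Eventually.of_forall fun s hs x hx => ?_
      rw [uIoc_of_le zero_le_one] at hs
      have := ((hd _ (hsub (hseg x hx (mul_sq_mem_uIcc (hmem s hs))))).comp x
        ((hasDerivAt_id x).mul_const (s ^ 2))).const_mul (s ^ (N - 1))
      refine (this.congr_of_eventuallyEq (EventuallyEq.of_eq ?_)).congr_deriv ?_
      · funext y; simp
      · rw [hpow s (hmem s hs)]; ring
  · have hi1 := (continuousOn_av_integrand (N := N) (by linarith) (hcont z ⟨haz, hbz⟩)).intervalIntegrable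
      (μ := volume)
    have hi2 := (continuousOn_av_integrand (N := N + 2) (by linarith)
      (hcont' z ⟨haz, hbz⟩)).intervalIntegrable (μ := volume)
    have hder : ∀ s ∈ uIcc (0 : ℝ) 1, HasDerivAt (fun s => s ^ N * h (z * s ^ 2))
        (N * (s ^ (N - 1) * h (z * s ^ 2)) + 2 * z * (s ^ (N + 2 - 1) * h' (z * s ^ 2))) s := by
      intro s hs
      rw [uIcc_of_le zero_le_one] at hs
      have h1 := Real.hasDerivAt_rpow_const (p := N) (x := s) (Or.inr (by linarith))
      have h2 := (hd _ (hsub (hseg z ⟨haz, hbz⟩ (mul_sq_mem_uIcc hs)))).comp s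
        ((hasDerivAt_pow 2 s).const_mul z)
      refine (h1.mul h2).congr_deriv ?_
      simp only [Function.comp_apply]
      rw [hpow s hs, show N = (N - 1) + 1 by ring, Real.rpow_add_of_nonneg hs.1 (by linarith)
        (by norm_num), Real.rpow_one]
      ring_nf
    have := integral_eq_sub_of_hasDerivAt hder ((hi1.const_mul N).add (hi2.const_mul (2 * z)))
    rw [intervalIntegral.integral_add (hi1.const_mul N) (hi2.const_mul (2 * z)),
      intervalIntegral.integral_const_mul, intervalIntegral.integral_const_mul] at this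
    simpa [av, Real.zero_rpow (show N ≠ 0 by linarith)] using this

lemma continuous_av_const (hN : 1 ≤ N) {g : ℝ → ℝ} (hg : Continuous g) : Continuous (av N g) :=
  (continuous_av (X := Unit) (h := fun _ => g) hN (hg.comp continuous_snd)).comp
    (continuous_const (y := ()) |>.prodMk continuous_id)

lemma continuousOn_av (hN : 1 ≤ N) {w : ℝ → ℝ} {z : ℝ} (hw : ContinuousOn w (uIcc 0 z)) :
    ContinuousOn (av N w) (uIcc 0 z) := by
  obtain ⟨g, hg, hgw⟩ : ∃ g : ℝ → ℝ, Continuous g ∧ EqOn g w (uIcc 0 z) :=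
    ⟨IccExtend min_le_max ((uIcc 0 z).domRestrict w),
      (continuousOn_iff_continuous_domRestrict.1 hw).Icc_extend',
      fun x hx => IccExtend_of_mem _ _ hx⟩
  refine (continuous_av_const hN hg).continuousOn.congr fun x hx => ?_
  exact (av_congr fun a ha => hgw (uIcc_subset_uIcc left_mem_uIcc hx ha)).symm

lemma abs_le_abs_of_mem {x a : ℝ} (ha : a ∈ uIcc 0 x) : |a| ≤ |x| := by
  simpa using abs_sub_left_of_mem_uIcc ha

end

end Vale.Agent.P100.Ground
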