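import Mathlib

/-! P100, critical ground state: the inequalities used on `zs ≤ z ≤ 0`. The dimension is
`N = al + be + 2`, `c = crv`, `A = -aa`, `q = N p psi / (N + 2)`. -/

namespace Vale.Agent.P100.Ground.Alg

variable {N al be c q A y : ℝ}

/-- The quadratic behind `two_x_le`. -/
lemma key_quad (hbe : 0 < be) (h : be < al) (hD : 3 ≤ al + be) :
    2 * (al + be + 4) * be * al + 18 / 5 * al * (al + 2) ≤
      (al + be + 2) * (al + 2) * (al + be) := by
  obtain ⟨s, hs, rfl⟩ : ∃ s, 0 ≤ s ∧ al = be + s := ⟨al - be, by linarith, by ring⟩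
  nlinarith [sq_nonneg (s - 1), sq_nonneg (be - 1), sq_nonneg (2 * be + s - 3),
    mul_nonneg hbe.le hs, mul_nonneg (sq_nonneg s) hs, mul_nonneg (mul_nonneg hbe.le hs) hs,
    mul_nonneg (mul_nonneg hbe.le hbe.le) hs,
    mul_nonneg (mul_nonneg hbe.le hbe.le) (sub_nonneg.2 hD)]

/-- `2 psi - N / al` against `q`. -/
lemma two_x_le (hbe : 0 < be) (h : be < al) (hD : 3 ≤ al + be) (hq0 : 0 ≤ q)
    (hq : q ≤ (al + be + 2) / (al + be)) :
    2 * (q * (al + be + 4) * be / ((al + be + 2) * (al + 2))) - (al + be + 2) / al ≤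
      -((al + be + 2) / (al + be)) + q * (al + be + 2 - 18 / 5) / (al + be + 2) := by
  have hal : 0 < al := hbe.trans h
  have hNl : 0 < al + be + 2 := by linarith
  have hal2 : 0 < al + 2 := by linarith
  have hDp : 0 < al + be := by linarith
  rw [le_div_iff₀ hDp] at hq
  have hk := key_quad hbe h hD
  rw [← sub_nonpos]
  have e : 2 * (q * (al + be + 4) * be / ((al + be + 2) * (al + 2))) - (al + be + 2) / al -
      (-((al + be + 2) / (al + be)) + q * (al + be + 2 - 18 / 5) / (al + be + 2)) =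
      (q * (al + be) * al * (2 * (al + be + 4) * be - (al + be + 2 - 18 / 5) * (al + 2))
        - be * (al + be + 2) ^ 2 * (al + 2)) /
        (al * (al + be) * (al + be + 2) * (al + 2)) := by
    field_simp
    ring
  rw [e]
  refine div_nonpos_of_nonpos_of_nonneg ?_ (by positivity)
  set k := 2 * (al + be + 4) * be - (al + be + 2 - 18 / 5) * (al + 2) with hk'
  rcases le_or_gt k 0 with hk0 | hk0
  · have h1 : q * (al + be) * al * k ≤ 0 :=
      mul_nonpos_of_nonneg_of_nonpos (by positivity) hk0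
    have h2 : 0 ≤ be * (al + be + 2) ^ 2 * (al + 2) := by positivity
    linarith
  · have h1 := mul_le_mul_of_nonneg_right hq (mul_nonneg hal.le hk0.le)
    have h2 := mul_le_mul_of_nonneg_left hk hNl.le
    rw [hk'] at h1 ⊢
    linarith

/-- The weight of `crv'`. -/
lemma weight_one (hN : 5 ≤ N) (hq : 1 ≤ q) (hqc : q ≤ c) (hc : c ≤ N / (N - 2)) (hA : 0 ≤ A)
    (hA2 : A ≤ 2) :
    A * ((2 + (c - 1) * A) / (4 * (N + 4 + A / 4)) - ((2 * N + 2) * c / N - 5 / 4) + (c - 1)
      - N / (N - 2) + q * (N - 18 / 5) / N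
      + (12 / 5 * q + 1 - 2 * c * (N - 2) / N) *
        ((N + 2) * (1 + c * A / N) / (N + 4 + A / 4))) < (N + 4 + A / 4) / 6 := by
  have hN0 : 0 < N := by linarith
  have hL : N + 4 ≤ N + 4 + A / 4 := by linarith
  have hc1 : 1 ≤ c := hq.trans hqc
  have h1 : (2 + (c - 1) * A) / (4 * (N + 4 + A / 4)) ≤ (2 * c) / (4 * (N + 4)) := by
    refine div_le_div₀ (by linarith) ?_ (by linarith) (by linarith)
    nlinarith [mul_le_mul_of_nonneg_left hA2 (sub_nonneg.2 hc1)]
  have h2 : q * (N - 18 / 5) / N ≤ c * (N - 18 / 5) / N :=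
    div_le_div_of_nonneg_right (mul_le_mul_of_nonneg_right hqc (by linarith)) hN0.le
  have hr : (N + 2) * (1 + c * A / N) / (N + 4 + A / 4) ≤ (N + 2) * (1 + c * 2 / N) / (N + 4) := by
    refine div_le_div₀ (by positivity) ?_ (by linarith) hL
    gcongr
  have hr0 : 0 ≤ (N + 2) * (1 + c * A / N) / (N + 4 + A / 4) := by positivity
  have hC : 12 / 5 * q + 1 - 2 * c * (N - 2) / N ≤ c * (2 / 5 + 4 / N) + 1 := by
    have : 2 * c * (N - 2) / N = 2 * c - c * (4 / N) := by field_simp; ring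
    rw [this, mul_add]; linarith
  have hC0 : 0 ≤ c * (2 / 5 + 4 / N) + 1 := by positivity
  have h3 := (mul_le_mul_of_nonneg_right hC hr0).trans (mul_le_mul_of_nonneg_left hr hC0)
  set S := 2 * c / (4 * (N + 4)) - ((2 * N + 2) * c / N - 5 / 4) + (c - 1) - N / (N - 2)
    + c * (N - 18 / 5) / N + (c * (2 / 5 + 4 / N) + 1) * ((N + 2) * (1 + c * 2 / N) / (N + 4))
    with hS
  have hb : S < (N + 4) / 12 := by
    obtain ⟨t, ht0, ht1, rfl⟩ : ∃ t, 0 ≤ t ∧ t ≤ 1 ∧ c = 1 + t * (2 / (N - 2)) := by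
      refine ⟨(c - 1) * ((N - 2) / 2), mul_nonneg (by linarith) (by linarith), ?_, ?_⟩
      · rw [le_div_iff₀ (by linarith)] at hc; linarith
      · have : N - 2 ≠ 0 := by linarith
        field_simp
        ring
    obtain ⟨m, hm, rfl⟩ : ∃ m, 0 ≤ m ∧ N = 5 + m := ⟨N - 5, by linarith, by ring⟩
    have : 0 < 5 + m - 2 := by linarith
    rw [hS, ← sub_pos]
    field_simp
    nlinarith [mul_nonneg ht0 hm, mul_nonneg (mul_nonneg ht0 hm) hm,
      mul_nonneg (sub_nonneg.2 ht1) hm, mul_nonneg (mul_nonneg (sub_nonneg.2 ht1) hm) hm,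
      mul_nonneg (mul_nonneg (mul_nonneg (sub_nonneg.2 ht1) hm) hm) hm,
      mul_nonneg ht0 (sub_nonneg.2 ht1), mul_nonneg (mul_nonneg ht0 (sub_nonneg.2 ht1)) hm,
      mul_nonneg (mul_nonneg (mul_nonneg ht0 hm) hm) hm, pow_nonneg hm 3, pow_nonneg hm 4,
      pow_nonneg hm 5]
  rcases le_or_gt S 0 with hS0 | hS0
  · refine lt_of_le_of_lt (mul_nonpos_of_nonneg_of_nonpos hA ?_) (by linarith)
    linarith
  · refine lt_of_le_of_lt ((mul_le_mul_of_nonneg_left ?_ hA).trans
      (mul_le_mul_of_nonneg_right hA2 hS0.le)) (by linarith)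
    linarith

/-- The weight of the gap to `N / (N - 2)`. -/
lemma weight_two {w : ℝ} (hN : 5 ≤ N) (hq : 1 ≤ q) (hqc : q ≤ c) (hc : c ≤ N / (N - 2))
    (hA : 0 ≤ A) (hA2 : A ≤ 2) (hw : 7 / 5 ≤ w) (hw' : w ≤ 12 / 5 * q + 1 - 2 * c * (N - 2) / N) :
    (2 + (c - 1) * A) / (4 * (N + 4 + A / 4)) - ((2 * N + 2) * c / N - 5 / 4)
      + w * ((N + 2) * (1 + c * A / N) / (N + 4 + A / 4) - 1) < 0 := by
  have hN0 : 0 < N := by linarith
  have hc1 : 1 ≤ c := hq.trans hqc
  have hc2 : c ≤ 5 / 3 := hc.trans (by rw [div_le_div_iff₀ (by linarith) (by norm_num)]; linarith)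
  have e : (2 * N + 2) * c / N = 2 * c + 2 * c / N := by field_simp
  have hcN : 0 ≤ 2 * c / N := by positivity
  have h1 : (2 + (c - 1) * A) / (4 * (N + 4 + A / 4)) ≤ 5 / 54 := by
    rw [div_le_iff₀ (by linarith)]
    nlinarith [mul_le_mul_of_nonneg_left hA2 (sub_nonneg.2 hc1)]
  have hr : (N + 2) * (1 + c * A / N) / (N + 4 + A / 4) - 1 ≤ 8 / 27 := by
    rw [sub_le_iff_le_add, div_le_iff₀ (by linarith)]
    have h2 : c * A ≤ N / (N - 2) * 2 := mul_le_mul hc hA2 hA (by linarith)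
    have h3 : (N + 2) * (1 + c * A / N) ≤ (N + 2) * (1 + 2 / (N - 2)) := by
      refine mul_le_mul_of_nonneg_left (add_le_add_right ?_ _) (by linarith)
      refine (div_le_div_of_nonneg_right h2 hN0.le).trans (le_of_eq ?_)
      field_simp
    refine h3.trans ?_
    rw [one_add_div (by linarith), mul_div_assoc', div_le_iff₀ (by linarith)]
    nlinarith [mul_nonneg (sub_nonneg.2 hN) (sub_nonneg.2 hN), mul_nonneg hA (sub_nonneg.2 hN)]
  rcases le_or_gt ((N + 2) * (1 + c * A / N) / (N + 4 + A / 4) - 1) 0 with hr0 | hr0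
  · have := mul_nonpos_of_nonneg_of_nonpos (show (0:ℝ) ≤ w by linarith) hr0
    rw [e]; linarith
  · have hw2 : w ≤ 11 / 5 * c := by
      refine hw'.trans ?_
      have e2 : 2 * c * (N - 2) / N = 2 * c - 4 * c / N := by field_simp; ring
      have : 4 * c / N ≤ 4 * c / 5 := div_le_div_of_nonneg_left (by linarith) (by norm_num) hN
      rw [e2]; linarith
    have := (mul_le_mul_of_nonneg_right hw2 hr0.le).trans
      (mul_le_mul_of_nonneg_left hr (show (0:ℝ) ≤ 11 / 5 * c by linarith))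
    rw [e]; linarith

/-- At a zero of `crv - G psi` left of the origin `crv'` is negative. -/
lemma zero_weight (hN : 5 ≤ al + be + 2) (hbe : 1 ≤ be) (h : be < al) (hy : be < y)
    (hlow : (y - be) * ((al + be + 2) ^ 2 + 2 * be) < 2 * be * (al - be)) (hA : 0 ≤ A)
    (hth : A * (y * (2 * be * (al - y) - (al + be + 2) * (y - be))) ≤
      (al + be + 2) * (y - be) * (al * (be + y)))
    (hc : c = y * (al + be + 2 + (al - y)) / (al * (be + y))) :
    A * ((al + be + 4) * c / (al + be + 2) - 1 / 4) ≤ 2 := by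
  have hbe0 : 0 < be := by linarith
  have hal : 0 < al := by linarith
  have hy0 : 0 < y := by linarith
  set N := al + be + 2 with hNdef
  have hN0 : 0 < N := by linarith
  have hden : 0 < al * (be + y) := by positivity
  have hN1 : 0 < N - 1 := by linarith
  -- `A ≤ al (be + y) / (y (N - 1))`
  have hAb : A * (y * (N - 1)) ≤ al * (be + y) := by
    have h1 : (y - be) * (N * (N - 1)) ≤ 2 * be * (al - y) - N * (y - be) := by
      rw [hNdef] at hlow ⊢; nlinarith
    have h2 := mul_le_mul_of_nonneg_left (mul_le_mul_of_nonneg_left h1 hy0.le) hA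
    have h3 : 0 < N * (y - be) := mul_pos hN0 (by linarith)
    refine le_of_mul_le_mul_left ?_ h3
    linarith
  rcases le_or_gt ((al + be + 4) * c / N - 1 / 4) 0 with hk | hk
  · have := mul_nonpos_of_nonneg_of_nonpos hA hk; linarith
  refine le_trans (mul_le_mul_of_nonneg_right
    ((le_div_iff₀ (mul_pos hy0 hN1)).2 hAb) hk.le) ?_
  have e : al * (be + y) / (y * (N - 1)) * ((al + be + 4) * c / N - 1 / 4) =
      ((al + be + 4) * (N + (al - y)) / N - al * (1 + be / y) / 4) / (N - 1) := by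
    rw [hc]; field_simp; ring
  rw [e, div_le_iff₀ hN1]
  have h4 : al * 1 ≤ al * (1 + be / y) :=
    mul_le_mul_of_nonneg_left (le_add_of_nonneg_right (by positivity)) hal.le
  have h5 : (al + be + 4) * (N + (al - y)) / N ≤ (al + be + 4) * (N + (al - be)) / N :=
    div_le_div_of_nonneg_right (mul_le_mul_of_nonneg_left (by linarith) (by linarith)) hN0.le
  have h6 : (al + be + 4) * (N + (al - be)) / N - al / 4 ≤ 2 * (N - 1) := by
    rw [sub_le_iff_le_add, div_le_iff₀ hN0, hNdef]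
    rw [hNdef] at hN
    obtain ⟨b, hb, rfl⟩ : ∃ b, 0 ≤ b ∧ be = 1 + b := ⟨be - 1, by linarith, by ring⟩
    nlinarith [sq_nonneg (al - 5), sq_nonneg (al + b - 3), sq_nonneg (al - 3),
      mul_nonneg hb (sub_nonneg.2 h.le), mul_nonneg hb hb, mul_nonneg hb hal.le]
  linarith

end Vale.Agent.P100.Ground.Alg
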