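import Vale.Agent.P100.Ground.Mono
import Vale.Agent.P100.Ground.BackAlg

/-! P100, critical ground state: the invariants on `zs ≤ z ≤ 0`. With `q = N p psi / (N + 2)` these
are `crv - G psi > 0`, `q ≤ crv < N / (N - 2)`, the bound on `-aa` from `theta ≤ al / be`, and
`crv - q ≤ (-aa) B` for an explicit `B`. -/

namespace Vale.Agent.P100.Ground

noncomputable section

open Set Filter Topology

/-- A function with value `0` at `0` and `2 z h' + k h = aa Phi`, `aa < 0` for `z < 0`, is positive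
for `z < 0` when `Phi` is negative at `0` and at its zeros. -/
lemma pos_left_of_forcing {h h' Phi w : ℝ → ℝ} {k zc : ℝ} (hk : 0 < k)
    (hh : ∀ x ∈ Icc zc 0, HasDerivAt h (h' x) x)
    (heq : ∀ x ∈ Icc zc 0, 2 * x * h' x + k * h x = w x * Phi x) (h0 : h 0 = 0)
    (hw : ∀ x ∈ Ico zc 0, w x < 0) (hc : ContinuousAt Phi 0) (hP0 : Phi 0 < 0)
    (hz : ∀ x ∈ Ico zc 0, h x = 0 → Phi x < 0) : ∀ x ∈ Ico zc 0, 0 < h x := by
  intro x0 hx0
  obtain ⟨e, he, hball⟩ := Metric.eventually_nhds_iff.1 (hc.eventually_lt_const hP0)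
  have hk2 : (0 : ℝ) ≤ k / 2 := by linarith
  have hsmall : ∀ x ∈ Ico zc 0, -e < x → 0 < h x := by
    intro x hx hxe
    have hsub : ∀ y ∈ Icc x 0, y ∈ Icc zc 0 := fun y hy => ⟨hx.1.trans hy.1, hy.2⟩
    have hanti := strictAntiOn_of_hasDerivWithinAt_neg (convex_Icc x 0)
      (f := fun y => (-y) ^ (k / 2) * h y)
      (f' := fun y => -((-y) ^ (k / 2 - 1) * (w y * Phi y / 2)))
      (fun y hy => ((((continuous_neg.rpow_const fun _ => Or.inr hk2)).continuousAt).mul
        (hh y (hsub y hy)).continuousAt).continuousWithinAt)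
      (fun y hy => by
        rw [interior_Icc] at hy
        have hy' := hsub y (Ioo_subset_Icc_self hy)
        have hy0 : (0 : ℝ) < -y := neg_pos.2 hy.2
        refine ((((hasDerivAt_id y).neg.rpow_const (p := k / 2) (Or.inl hy0.ne')).mul
          (hh y hy'))).hasDerivWithinAt.congr_deriv ?_
        simp only [id_eq, Pi.neg_apply]
        rw [← heq y hy', Real.rpow_sub_one hy0.ne']
        have := hy.2.ne
        field_simp
        ring)
      (fun y hy => by
        rw [interior_Icc] at hy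
        refine neg_neg_of_pos (mul_pos (Real.rpow_pos_of_pos (neg_pos.2 hy.2) _)
          (half_pos (mul_pos_of_neg_of_neg (hw y ⟨hx.1.trans hy.1.le, hy.2⟩) (hball ?_))))
        rw [Real.dist_eq, sub_zero, abs_of_neg hy.2]
        linarith [hy.1])
      (left_mem_Icc.2 hx.2.le) (right_mem_Icc.2 hx.2.le) hx.2
    simp only [h0, mul_zero] at hanti
    exact pos_of_mul_pos_right hanti (Real.rpow_nonneg (by linarith [hx.2]) _)
  obtain ⟨x1, hx1, hx1'⟩ := exists_between (show max x0 (-e) < 0 from max_lt hx0.2 (by linarith))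
  obtain ⟨hx1a, hx1b⟩ := max_lt_iff.1 hx1
  refine pos_of_deriv_neg_at_zeros (fun y hy => hh y ⟨hx0.1.trans hy.1, hy.2.trans hx1'.le⟩)
    (hsmall x1 ⟨hx0.1.trans hx1a.le, hx1'⟩ hx1b) (fun y hy h1 => ?_) x0 ⟨le_rfl, hx1a.le⟩
  have hy0 : y < 0 := hy.2.trans hx1'
  have hym : y ∈ Ico zc 0 := ⟨hx0.1.trans hy.1, hy0⟩
  have h2 := heq y (Ico_subset_Icc_self hym)
  have h3 := mul_pos_of_neg_of_neg (hw y hym) (hz y hym h1)
  rw [← h2, h1, mul_zero, add_zero] at h3
  exact neg_of_mul_pos_right h3 (by linarith)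

namespace Par

variable (P : Par)

/-- `N p / (N + 2)`. -/
def ec : ℝ := P.dim * P.p / (P.dim + 2)

lemma ec_pos : 0 < P.ec :=
  div_pos (mul_pos (zero_lt_two.trans P.two_lt_dim) P.p_pos) (by linarith [P.two_lt_dim])

/-- `2 be q - N psi = N psi (al - be) / (N + 2)`. -/
lemma ec_theta (x : ℝ) :
    2 * P.be * (P.ec * x) - P.dim * x = P.dim * x * (P.al - P.be) / (P.dim + 2) := by
  have := P.be_pos.ne'
  have : P.dim + 2 ≠ 0 := by linarith [P.two_lt_dim]
  simp only [ec, p]
  field_simp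
  simp only [dim]
  ring

/-- `q - G` in `y = al psi`. -/
lemma ec_sub_gfun {x : ℝ} (h : P.be + P.al * x ≠ 0) :
    P.be * (P.dim + 2) * P.al * (P.be + P.al * x) * (P.ec * x - P.gfun x) =
      P.al * x * (P.al * x * (P.dim ^ 2 + 2 * P.be) - P.be * (P.dim ^ 2 + 2 * P.al)) := by
  have := P.be_pos.ne'
  have : P.dim + 2 ≠ 0 := by linarith [P.two_lt_dim]
  simp only [ec, p, gfun]
  field_simp
  simp only [dim]
  ring

/-- The barrier for `crv - q`. -/
def barT (x : ℝ) : ℝ :=
  P.ec * (P.dim * (P.be + P.al * x) / (P.dim - 2) - x * (P.dim + P.al - P.al * x)) /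
    (P.al * (P.dim + 4))

end Par

namespace GroundState

variable {P : Par} (G : GroundState P) {z x : ℝ}

lemma mem_of_zs (hz : G.zs ≤ z) : z ∈ G.O.dom := G.mem (G.zl_lt.trans_le hz)

lemma aa_neg (hz : z ∈ G.O.dom) (h : z < 0) : G.O.aa z < 0 :=
  mul_neg_of_neg_of_pos (by linarith) (Orb.a_pos hz)

lemma aa_nonpos (hz : z ∈ G.O.dom) (h : z ≤ 0) : G.O.aa z ≤ 0 :=
  mul_nonpos_of_nonpos_of_nonneg (by linarith) (Orb.a_pos hz).le

lemma yv_eq : G.yv z = P.ec * G.O.psi z - G.O.crv z := by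
  simp only [yv, Par.ec]; ring

lemma crv_pos (hz : z ∈ G.O.dom) : 0 < G.O.crv z :=
  (div_pos (zero_lt_two.trans P.two_lt_dim) (by linarith [P.al_pos])).trans (G.crv_ge hz)

lemma eq_crv' (hz : z ∈ G.O.dom) :
    2 * z * G.O.crv1 z = (P.dim + 2) * (P.dim - G.O.crv z * G.O.aa z) * G.yv z / P.dim
      + G.O.aa z * G.O.crv z * ((P.dim - 2) * G.O.crv z - P.dim) / P.dim := by
  have h := Orb.eq_crv hz
  have : P.dim + 2 ≠ 0 := by linarith [P.two_lt_dim]
  have : P.dim ≠ 0 := by linarith [P.two_lt_dim]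
  rw [h]
  simp only [yv]
  field_simp
  ring

lemma continuousAt_crv1 (hz : z ∈ G.O.dom) : ContinuousAt G.O.crv1 z := by
  have h1 := G.O.contDiffOn_U2V2 (1 : ℕ)
  have h2 := G.O.contDiffOn_U1V1 (1 : ℕ)
  have h3 := G.O.contDiffOn_nat 1
  have hc : ContDiffOn ℝ 1 G.O.crv G.O.dom :=
    ((h1.1.mul h3.1).div (h2.1.pow 2) fun y hy => pow_ne_zero 2 (G.O.negU y hy).ne)
  exact (hc.continuousOn_deriv_of_isOpen G.O.isOpen le_rfl).continuousAt (G.O.isOpen.mem_nhds hz)

/-- The value of `crv'` at the origin. -/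
lemma crv1_zero :
    (P.dim + 4) * G.O.crv1 0 =
      P.dim * P.p * (G.O.a 0 * ((P.be + P.al * G.O.psi 0) * G.O.sg 0 / P.al)) +
        2 * G.O.a 0 * G.O.crv 0 * (2 * G.O.crv 0 - 1 - P.p * G.O.psi 0) := by
  have h0 := G.O.zero_mem
  have hL : HasDerivAt (fun y => 2 * y * G.O.crv1 y) (2 * G.O.crv1 0) 0 := by
    refine hasDerivAt_iff_tendsto_slope.2 ?_
    refine (((G.continuousAt_crv1 h0).const_mul 2).mono_left nhdsWithin_le_nhds).congr' ?_
    filter_upwards [self_mem_nhdsWithin] with y hy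
    rw [slope_def_field]
    have : y ≠ 0 := hy
    field_simp
    ring
  have hc := Orb.hasDerivAt_crv (O := G.O) h0
  have hp := Orb.hasDerivAt_psi (O := G.O) h0
  have hR := ((hp.const_mul (P.dim * P.p)).sub (hc.const_mul (P.dim + 2))).add
    (((Orb.hasDerivAt_aa (O := G.O) h0).mul hc).mul
      (((hc.const_mul 2).sub_const 1).sub (hp.const_mul P.p)))
  have h := (hR.congr_of_eventuallyEq
    ((G.O.isOpen.eventually_mem h0).mono fun y hy => Orb.eq_crv hy)).unique hL
  have ha : G.O.aa 0 = 0 := by simp [Orb.aa]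
  simp only [ha, Pi.mul_apply, Pi.sub_apply, mul_zero, zero_mul, add_zero, sub_zero, Orb.psi_deriv_eq h0] at h
  linear_combination -h

/-- The excess is positive at the origin. -/
theorem sg_zero_pos : 0 < G.O.sg 0 := by
  refine (G.sg_nonneg le_rfl).lt_of_ne fun h => ?_
  have h0 := G.O.zero_mem
  have hN := P.two_lt_dim
  have hd := Orb.den_pos (O := G.O) h0
  have hD : 0 < P.dim - 2 := by linarith
  have hg := P.gfun_gap (G.O.psi 0) hd.ne'
  have hc : G.O.crv 0 = P.gfun (G.O.psi 0) := sub_eq_zero.1 h.symm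
  have hp : P.p * G.O.psi 0 = (P.dim + 2) * G.O.crv 0 / P.dim := by
    rw [Orb.crv_zero]
    have : P.dim ≠ 0 := by linarith
    have : P.dim + 2 ≠ 0 := by linarith
    field_simp
  have hlt : G.O.crv 0 < P.dim / (P.dim - 2) := by
    rw [hc, ← sub_pos, hg]
    have hy := G.psi_lt_one h0
    have hy' : 0 < P.al - P.al * G.O.psi 0 := by
      have := mul_lt_mul_of_pos_left hy P.al_pos; linarith
    refine div_pos (mul_pos hy' ?_) (mul_pos (mul_pos P.al_pos hD) hd)
    -- `y = low` at the origin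
    have he := P.ec_sub_gfun hd.ne'
    have hq : P.ec * G.O.psi 0 - P.gfun (G.O.psi 0) = 0 := by
      rw [← hc, Orb.crv_zero, Par.ec]; ring
    rw [hq, mul_zero, eq_comm, mul_eq_zero, sub_eq_zero] at he
    have he' := he.resolve_left (mul_pos P.al_pos (Orb.psi_pos h0)).ne'
    have hQ : 0 < P.dim ^ 2 + 2 * P.be := by have := P.be_pos; positivity
    have hlow : P.al * G.O.psi 0 = P.low := by rw [Par.low, eq_div_iff hQ.ne']; exact he'
    rw [hlow]
    linarith [P.low_lt.2.1]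
  have hneg : G.O.crv1 0 < 0 := by
    have e := G.crv1_zero
    rw [← h, hp] at e
    simp only [mul_zero, zero_div, zero_add] at e
    have h1 : 2 * G.O.crv 0 - 1 - (P.dim + 2) * G.O.crv 0 / P.dim < 0 := by
      rw [lt_div_iff₀ hD] at hlt
      rw [sub_div' (by linarith), div_neg_iff]
      right
      constructor <;> linarith
    have h2 := mul_neg_of_pos_of_neg
      (mul_pos (mul_pos two_pos (Orb.a_pos h0)) (G.crv_pos h0)) h1
    rw [← e] at h2
    exact neg_of_mul_neg_right h2 (by linarith)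
  obtain ⟨y, hy, hy0⟩ := ((((Orb.hasDerivAt_sg h0 h.symm).tendsto_slope.mono_left
    (nhdsWithin_mono (s := Ioi (0 : ℝ)) 0 fun y (hy : 0 < y) => hy.ne')).eventually_lt_const
      hneg).and self_mem_nhdsWithin).exists
  rw [slope_def_field, ← h, sub_zero, sub_zero] at hy
  have hy0' : (0 : ℝ) < y := hy0
  exact absurd (div_nonneg (G.sg_nonneg hy0'.le) hy0'.le) (not_le.2 hy)

/-- `crv < N / (N - 2)` at the origin. -/
theorem crv_zero_lt : G.O.crv 0 < P.dim / (P.dim - 2) := by
  refine (G.crv_le le_rfl).lt_of_ne fun h => ?_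
  have h0 := G.O.zero_mem
  have hN := P.two_lt_dim
  have hD : P.dim - 2 ≠ 0 := by linarith
  have hp : P.p * G.O.psi 0 = (P.dim + 2) * G.O.crv 0 / P.dim := by
    rw [Orb.crv_zero]
    have : P.dim ≠ 0 := by linarith
    have : P.dim + 2 ≠ 0 := by linarith
    field_simp
  have h1 : 2 * G.O.crv 0 - 1 - P.p * G.O.psi 0 = 0 := by
    rw [hp, h]
    have : P.dim ≠ 0 := by linarith
    field_simp
    ring
  have e := G.crv1_zero
  rw [h1, mul_zero, add_zero] at e
  have hpos : 0 < G.O.crv1 0 := by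
    have : 0 < (P.dim + 4) * G.O.crv1 0 := by
      rw [e]
      exact mul_pos (mul_pos (by linarith) P.p_pos) (mul_pos (Orb.a_pos h0)
        (div_pos (mul_pos (Orb.den_pos h0) G.sg_zero_pos) P.al_pos))
    exact pos_of_mul_pos_right this (by linarith)
  obtain ⟨y, hy, hy0⟩ := ((((Orb.hasDerivAt_crv h0).tendsto_slope.mono_left
    (nhdsWithin_mono (s := Ioi (0 : ℝ)) 0 fun y (hy : 0 < y) => hy.ne')).eventually_const_lt
      hpos).and self_mem_nhdsWithin).exists
  rw [slope_def_field, sub_zero, h] at hy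
  have hy0' : (0 : ℝ) < y := hy0
  exact absurd (div_nonpos_of_nonpos_of_nonneg (sub_nonpos.2 (G.crv_le hy0'.le)) hy0'.le)
    (not_le.2 hy)

lemma contAt_yS (hz : z ∈ G.O.dom) : ContinuousAt G.yS z := by
  have h1 := (Orb.hasDerivAt_psi (O := G.O) hz).continuousAt
  have h2 := (Orb.hasDerivAt_crv (O := G.O) hz).continuousAt
  have h3 := (Orb.hasDerivAt_lam (O := G.O) hz).continuousAt
  exact (((h1.pow 2).sub h1).add h3 |>.const_mul _).sub
    (h2.mul (((h2.const_mul 2).sub_const 1).sub (h1.const_mul P.p)))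

lemma yv_zero : G.yv 0 = 0 := by simp only [yv, Orb.crv_zero, sub_self]

/-- `q < crv` for `z < 0`. -/
theorem yv_neg (hz : z ∈ G.O.dom) (h : z < 0) : G.yv z < 0 := by
  have hsub : Icc z 0 ⊆ G.O.dom := G.O.conn.out hz G.O.zero_mem
  have key := pos_left_of_forcing (h := fun y => -G.yv y) (Phi := fun y => -G.yS y)
    (k := P.dim + 2) (w := G.O.aa) (by linarith [P.two_lt_dim])
    (fun y hy => (G.hasDerivAt_yv (hsub hy)).neg)
    (fun y hy => by linear_combination -G.eq_yv (hsub hy))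
    (by simp [G.yv_zero])
    (fun y hy => G.aa_neg (hsub (Ico_subset_Icc_self hy)) hy.2)
    (G.contAt_yS G.O.zero_mem).neg (neg_lt_zero.2 (G.yS_pos G.O.zero_mem G.yv_zero))
    (fun y hy h => neg_lt_zero.2 (G.yS_pos (hsub (Ico_subset_Icc_self hy)) (neg_eq_zero.1 h)))
    z ⟨le_rfl, h⟩
  exact neg_pos.1 key

lemma yv_nonpos (hz : z ∈ G.O.dom) (h : z ≤ 0) : G.yv z ≤ 0 := by
  rcases h.eq_or_lt with rfl | h
  · exact G.yv_zero.le
  · exact (G.yv_neg hz h).le

/-- `crv < N / (N - 2)` for `z ≤ 0`. -/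
theorem crv_lt_left (hz : z ∈ G.O.dom) (h : z ≤ 0) : G.O.crv z < P.dim / (P.dim - 2) := by
  have hN := P.two_lt_dim
  have hD : P.dim - 2 ≠ 0 := by linarith
  have hsub : Icc z 0 ⊆ G.O.dom := G.O.conn.out hz G.O.zero_mem
  refine sub_pos.1 (pos_of_deriv_neg_at_zeros
    (fun y hy => (Orb.hasDerivAt_crv (hsub hy)).const_sub (P.dim / (P.dim - 2)))
    (sub_pos.2 G.crv_zero_lt) (fun y hy he => ?_) z ⟨le_rfl, h⟩)
  have hd := hsub (Ico_subset_Icc_self hy)
  rw [sub_eq_zero] at he
  have e := G.eq_crv' hd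
  rw [← he, mul_div_cancel₀ _ hD, sub_self, mul_zero, zero_div, add_zero, he] at e
  have huu : 0 < P.dim - G.O.crv y * G.O.aa y := by
    rw [Orb.crv_eq hd, sub_sub_cancel]; have := Orb.pt_pos hd; have := Orb.a_pos hd; positivity
  have : 2 * y * G.O.crv1 y < 0 := by
    rw [e]
    exact div_neg_of_neg_of_pos (mul_neg_of_pos_of_neg (mul_pos (by linarith) huu)
      (G.yv_neg hd hy.2)) (by linarith)
  exact neg_lt_zero.2 (pos_of_mul_neg_right this (by linarith [hy.2]))

/-- The Pohozaev identity and `theta ≤ al / be`. -/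
theorem theta_bound (hz : G.zs ≤ z) :
    -G.O.aa z * (2 * P.be * G.O.crv z - P.dim * G.O.psi z) ≤
      P.dim * (P.al * G.O.psi z - P.be) := by
  have hd := G.mem_of_zs hz
  have hth : G.O.theta z ≤ P.al / P.be := G.theta_zs ▸ G.theta_anti.antitoneOn
    (show G.zs ∈ Ioi G.zl from G.zl_lt) (show z ∈ Ioi G.zl from G.gt_of_mem hd) hz
  rw [Orb.theta, div_le_div_iff₀ (Orb.qt_pos hd) P.be_pos] at hth
  have hp := Orb.poh_rates hd
  rw [Orb.b_eq hd] at hp
  have hN : P.dim ≠ 0 := by linarith [P.two_lt_dim]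
  have ha := Orb.a_pos hd
  have hc := Orb.crv_eq hd
  field_simp at hc hp
  refine le_of_mul_le_mul_left ?_ (mul_pos two_pos ha)
  simp only [Orb.aa] at hc ⊢
  linear_combination hth + hp - 2 * P.be * hc

lemma one_lt_q (hz : z ∈ G.O.dom) : 1 < P.ec * G.O.psi z := by
  have h := mul_lt_mul_of_pos_left (G.psi_gt hz) (div_pos P.ec_pos P.al_pos)
  have e : P.ec / P.al * (P.al * G.O.psi z) = P.ec * G.O.psi z := by
    rw [← mul_assoc, div_mul_cancel₀ _ P.al_pos.ne']
  rw [e] at h
  refine lt_of_le_of_lt ?_ h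
  have := P.be_pos
  have := P.al_pos
  have hN := P.two_lt_dim
  have e2 : P.ec / P.al * P.be = P.dim * (P.al + 2) / ((P.dim + 2) * P.al) := by
    simp only [Par.ec, Par.p]; field_simp
  rw [e2, one_le_div (by positivity)]
  have : P.dim = P.al + P.be + 2 := rfl
  linarith

/-- The scalar facts at a point of `[zs, 0]`. -/
theorem left_facts (hz : G.zs ≤ z) (h : z ≤ 0) :
    P.ec * G.O.psi z ≤ G.O.crv z ∧ G.O.crv z < P.dim / (P.dim - 2) ∧ G.O.aa z ≤ 0 ∧
      -G.O.aa z * (G.O.psi z * (P.al - P.be)) ≤ (P.dim + 2) * (P.al * G.O.psi z - P.be) ∧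
      -G.O.aa z ≤ 2 := by
  have hd := G.mem_of_zs hz
  have hq : P.ec * G.O.psi z ≤ G.O.crv z := by
    have := G.yv_nonpos hd h; rw [G.yv_eq] at this; linarith
  have hc := G.crv_lt_left hd h
  have hA : 0 ≤ -G.O.aa z := neg_nonneg.2 (G.aa_nonpos hd h)
  have hN := P.two_lt_dim
  have hb := G.theta_bound hz
  have h1 : -G.O.aa z * (G.O.psi z * (P.al - P.be)) ≤ (P.dim + 2) * (P.al * G.O.psi z - P.be) := by
    have h2 : 2 * P.be * (P.ec * G.O.psi z) - P.dim * G.O.psi z ≤
        2 * P.be * G.O.crv z - P.dim * G.O.psi z := by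
      linarith [mul_le_mul_of_nonneg_left hq P.be_pos.le]
    rw [P.ec_theta] at h2
    have h3 := (mul_le_mul_of_nonneg_left h2 hA).trans hb
    rw [mul_div_assoc', div_le_iff₀ (by linarith)] at h3
    refine le_of_mul_le_mul_left ?_ (zero_lt_two.trans hN)
    linarith
  refine ⟨hq, hc, G.aa_nonpos hd h, h1, ?_⟩
  have hgap := sub_pos.2 P.be_lt
  have hy := G.psi_gt hd
  have hbe := P.be_pos
  have hal := P.al_pos
  have hdim : P.dim = P.al + P.be + 2 := rfl
  have h4 : P.al * G.O.psi z * ((P.dim + 2) * P.al - 2 * (P.al - P.be)) ≤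
      (P.dim + 2) * P.al * P.be := by
    have h5 := hq.trans hc.le
    rw [le_div_iff₀ (by linarith)] at h5
    simp only [Par.ec, Par.p] at h5
    field_simp at h5
    rw [hdim] at h5 ⊢
    nlinarith [mul_le_mul_of_nonneg_left h5 hal.le]
  refine le_of_mul_le_mul_left ?_ (mul_pos (mul_pos hal (Orb.psi_pos hd)) hgap)
  nlinarith [mul_le_mul_of_nonneg_left h1 hal.le]

/-- Forcing of `yv - aa B`. -/
def phiB (B B' : ℝ → ℝ) (z : ℝ) : ℝ :=
  G.yS z - B z * (P.dim + 4 - (G.O.crv z - 1) * G.O.aa z) - 2 * z * B' z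

lemma neg_barrier {B B' : ℝ → ℝ} {zc : ℝ} (hzc : zc ∈ G.O.dom)
    (hB : ∀ y ∈ Icc zc 0, HasDerivAt B (B' y) y) (hc : ContinuousAt B' 0)
    (h0 : G.phiB B B' 0 < 0)
    (hzero : ∀ y ∈ Ico zc 0, G.yv y = G.O.aa y * B y → G.phiB B B' y < 0) :
    ∀ y ∈ Ico zc 0, G.O.aa y * B y < G.yv y := by
  intro x hx
  have hsub : Icc zc 0 ⊆ G.O.dom := G.O.conn.out hzc G.O.zero_mem
  refine sub_pos.1 (pos_left_of_forcing (h := fun y => G.yv y - G.O.aa y * B y)
    (Phi := G.phiB B B') (k := P.dim + 2) (w := G.O.aa) (by linarith [P.two_lt_dim])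
    (fun y hy => (G.hasDerivAt_yv (hsub hy)).sub ((Orb.hasDerivAt_aa (hsub hy)).mul (hB y hy)))
    (fun y hy => ?_) ?_ (fun y hy => G.aa_neg (hsub (Ico_subset_Icc_self hy)) hy.2) ?_ h0
    (fun y hy h => hzero y hy (sub_eq_zero.1 h)) x hx)
  · have e := G.eq_yv (hsub hy)
    simp only [phiB]
    simp only [Orb.aa] at *
    linear_combination e
  · simp [G.yv_zero, Orb.aa]
  · have hz0 := G.O.zero_mem
    have hBc : ContinuousAt B 0 := (hB 0 ⟨(hx.1.trans_lt hx.2).le, le_rfl⟩).continuousAt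
    exact ((G.contAt_yS hz0).sub (hBc.mul (continuousAt_const.sub
      (((Orb.hasDerivAt_crv hz0).continuousAt.sub continuousAt_const).mul
        (Orb.hasDerivAt_aa hz0).continuousAt)))).sub
      ((continuousAt_id.const_mul 2).mul hc)

/-- `(N + 4 - aa / 4)` times the barrier used where the excess vanishes. -/
def bnum (z : ℝ) : ℝ :=
  6 / 5 * (P.ec / P.al) * ((P.be + P.al * G.O.psi z) * G.O.crv z
      - G.O.psi z * (P.dim + P.al - P.al * G.O.psi z))
    + G.O.crv z * (P.dim - (P.dim - 2) * G.O.crv z) / P.dim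

/-- The denominator of the barrier. -/
def bden (z : ℝ) : ℝ := P.dim + 4 - G.O.aa z / 4

/-- The barrier used where the excess vanishes. -/
def barS (z : ℝ) : ℝ := G.bnum z / G.bden z

/-- Derivative of `bnum`. -/
def bnum1 (z : ℝ) : ℝ :=
  6 / 5 * (P.ec / P.al) * ((P.al * G.O.crv z - (P.dim + P.al - 2 * P.al * G.O.psi z)) *
      (G.O.a z * (G.O.psi z ^ 2 - G.O.psi z + G.O.lam z))
      + (P.be + P.al * G.O.psi z) * G.O.crv1 z)
    + (P.dim - 2 * (P.dim - 2) * G.O.crv z) * G.O.crv1 z / P.dim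

/-- Derivative of `barS`. -/
def barS1 (z : ℝ) : ℝ :=
  (G.bnum1 z * G.bden z
    - G.bnum z * (-(G.O.a z * (2 - (G.O.crv z - 1) * G.O.aa z)) / 4)) / G.bden z ^ 2

lemma bden_pos (hz : z ∈ G.O.dom) (h : z ≤ 0) : 0 < G.bden z := by
  have := G.aa_nonpos hz h; have := P.two_lt_dim; simp only [bden]; linarith

lemma hasDerivAt_bnum (hz : z ∈ G.O.dom) : HasDerivAt G.bnum (G.bnum1 z) z := by
  have hp := Orb.hasDerivAt_psi (O := G.O) hz
  have hc := Orb.hasDerivAt_crv (O := G.O) hz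
  refine ((((((hp.const_mul P.al).const_add P.be).mul hc).sub
    (hp.mul ((hp.const_mul P.al).const_sub (P.dim + P.al)))).const_mul (6 / 5 * (P.ec / P.al))).add
    ((hc.mul ((hc.const_mul (P.dim - 2)).const_sub P.dim)).div_const P.dim)).congr_deriv ?_
  simp only [bnum1]
  ring

lemma hasDerivAt_barS (hz : z ∈ G.O.dom) (h : z ≤ 0) : HasDerivAt G.barS (G.barS1 z) z := by
  refine ((G.hasDerivAt_bnum hz).div (((Orb.hasDerivAt_aa hz).div_const 4).const_sub (P.dim + 4))
    (G.bden_pos hz h).ne').congr_deriv ?_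
  simp only [barS1, bden]
  ring

lemma contAt_barS1_zero : ContinuousAt G.barS1 0 := by
  have h := G.O.zero_mem
  have hp := (Orb.hasDerivAt_psi (O := G.O) h).continuousAt
  have hc := (Orb.hasDerivAt_crv (O := G.O) h).continuousAt
  have hl := (Orb.hasDerivAt_lam (O := G.O) h).continuousAt
  have ha := (Orb.hasDerivAt_aa (O := G.O) h).continuousAt
  have hn := (G.hasDerivAt_bnum h).continuousAt
  have h1 := G.continuousAt_crv1 h
  have h2 := Orb.contAt_a (O := G.O) h
  have hd : ContinuousAt G.bden 0 := continuousAt_const.sub (ha.div_const 4)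
  have hd0 : G.bden 0 ^ 2 ≠ 0 := pow_ne_zero 2 (G.bden_pos h le_rfl).ne'
  unfold barS1 bnum1
  fun_prop (disch := assumption)

/-- The forcing at a zero, for `A = -aa`. -/
lemma phiB_barS (hz : z ∈ G.O.dom) (h : z ≤ 0) (he : G.yv z = G.O.aa z * G.barS z) :
    let A := -G.O.aa z
    let c := G.O.crv z
    let kd := P.ec / P.al * (P.be + P.al * G.O.psi z)
    let E := c * (P.dim - (P.dim - 2) * c) / P.dim
    let w := 6 / 5 * kd + 1 - 2 * c * (P.dim - 2) / P.dim
    let r := (P.dim + 2) * (1 + c * A / P.dim) / (P.dim + 4 + A / 4)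
    let b := (2 + (c - 1) * A) / (4 * (P.dim + 4 + A / 4)) - ((2 * P.dim + 2) * c / P.dim - 5 / 4)
    G.phiB G.barS G.barS1 z * (P.dim + 4 + A / 4) =
      kd * G.O.sg z * (-(P.dim + 4 + A / 4) / 5
        + 6 / 5 * (A * (b + (c - 1 - P.dim / P.al + 2 * G.O.psi z) + w * r)))
      + E * (A * (b + w * (r - 1))) := by
  intro A c kd E w r b
  have hN : P.dim ≠ 0 := by linarith [P.two_lt_dim]
  have hN2 : P.dim + 2 ≠ 0 := by linarith [P.two_lt_dim]
  have hal := P.al_pos.ne'
  have hden := (Orb.den_pos hz).ne'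
  set L := P.dim + 4 + A / 4 with hL
  have hLpos : 0 < L := by
    have := G.bden_pos hz h; simp only [bden] at this; simp only [L, A]; linarith
  have hLd : G.bden z = L := by simp only [bden, L, A]; ring
  set n := G.bnum z with hn
  have hS : G.barS z = n / L := by simp only [barS, hn, hLd]
  have hy : G.yv z = -A * (n / L) := by rw [he, hS]; simp only [A, neg_neg]
  set s := G.O.sg z with hs
  have hu : (P.be + P.al * G.O.psi z) * s =
      (P.be + P.al * G.O.psi z) * c - G.O.psi z * (P.dim + P.al - P.al * G.O.psi z) := by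
    simp only [s, Orb.sg, Par.gfun, c]
    rw [mul_sub, mul_div_cancel₀ _ hden]
  have hn' : n = 6 / 5 * (kd * s) + E := by
    simp only [n, bnum, kd, E]
    linear_combination -(6 / 5 * (P.ec / P.al)) * hu
  have hyS : G.yS z = kd * s + E + (P.dim + 2) * c / P.dim * G.yv z := by
    simp only [yS, Orb.psi_deriv_eq hz, kd, E, yv, Par.ec, ← hs, c]
    field_simp
    ring
  have hf : 2 * z * G.O.crv1 z = -A * n * r + A * E := by
    rw [G.eq_crv' hz, hy]
    simp only [r, E, A, c, ← hL]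
    field_simp
    ring
  have hxd : 2 * z * (G.O.a z * (G.O.psi z ^ 2 - G.O.psi z + G.O.lam z)) =
      -A * ((P.be + P.al * G.O.psi z) * s / P.al) := by
    rw [Orb.psi_deriv_eq hz]; simp only [A, Orb.aa]; ring
  have hnf : 2 * z * G.bnum1 z =
      -(6 / 5) * A * kd * s * (c - 1 - P.dim / P.al + 2 * G.O.psi z) + w * (-A * n * r + A * E) := by
    have h1 : 2 * z * G.bnum1 z = 6 / 5 * (P.ec / P.al) *
        ((P.al * c - (P.dim + P.al - 2 * P.al * G.O.psi z)) *
          (2 * z * (G.O.a z * (G.O.psi z ^ 2 - G.O.psi z + G.O.lam z))) +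
          (P.be + P.al * G.O.psi z) * (2 * z * G.O.crv1 z)) +
        (P.dim - 2 * (P.dim - 2) * c) / P.dim * (2 * z * G.O.crv1 z) := by
      simp only [bnum1, c]; ring
    rw [h1, hxd, hf]
    simp only [kd, w]
    field_simp
    ring
  have hB : 2 * z * G.barS1 z =
      (2 * z * G.bnum1 z * L - n * (A * (2 + (c - 1) * A) / 4)) / L ^ 2 := by
    simp only [barS1, hLd, ← hn, A, c, Orb.aa]
    ring
  have hP : G.phiB G.barS G.barS1 z =
      G.yS z - n / L * (P.dim + 4 + (c - 1) * A) - 2 * z * G.barS1 z := by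
    simp only [phiB, hS, A, c]; ring
  rw [hP, hB, hnf, hyS, hy]
  simp only [b, ← hL]
  have := hLpos.ne'
  field_simp
  rw [hn', hL]
  ring

/-- At a zero the forcing is negative. -/
lemma phiB_barS_neg (hN : 5 ≤ P.dim) (hz : G.zs ≤ z) (h : z ≤ 0) (hs : 0 ≤ G.O.sg z)
    (hs' : 0 < G.O.sg z ∨ z < 0) (he : G.yv z = G.O.aa z * G.barS z) :
    G.phiB G.barS G.barS1 z < 0 := by
  have hd := G.mem_of_zs hz
  obtain ⟨hq, hc, haa, -, hA2⟩ := G.left_facts hz h
  have hden := Orb.den_pos (O := G.O) hd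
  have hal := P.al_pos
  have hbe := P.be_pos
  have hx := Orb.psi_pos (O := G.O) hd
  have hy := G.psi_gt hd
  have hq1 := G.one_lt_q hd
  set A := -G.O.aa z with hA
  set c := G.O.crv z with hcdef
  set kd := P.ec / P.al * (P.be + P.al * G.O.psi z) with hkd
  set q := P.ec * G.O.psi z with hqdef
  have hA0 : 0 ≤ A := by linarith
  have hD : 0 < P.dim - 2 := by linarith
  have hN0 : 0 < P.dim := by linarith
  have hkq : kd = P.ec / P.al * P.be + q := by
    rw [hkd, hqdef, mul_add, ← mul_assoc, div_mul_cancel₀ _ hal.ne']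
  have hk2 : 2 ≤ kd := by
    have : 1 ≤ P.ec / P.al * P.be := by
      have e2 : P.ec / P.al * P.be = P.dim * (P.al + 2) / ((P.dim + 2) * P.al) := by
        simp only [Par.ec, Par.p]; field_simp
      rw [e2, one_le_div (by positivity)]
      linarith [show P.dim = P.al + P.be + 2 from rfl]
    linarith
  have hk2q : kd ≤ 2 * q := by
    rw [hkd]
    have := mul_le_mul_of_nonneg_left (show P.be + P.al * G.O.psi z ≤ 2 * (P.al * G.O.psi z) by
      linarith) (div_pos P.ec_pos hal).le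
    refine this.trans (le_of_eq ?_)
    rw [hqdef]; field_simp
  set w := 6 / 5 * kd + 1 - 2 * c * (P.dim - 2) / P.dim with hw
  have hcD : c * (P.dim - 2) / P.dim < 1 := by
    rw [div_lt_one hN0]; rwa [lt_div_iff₀ hD] at hc
  have hw1 : 7 / 5 ≤ w := by
    rw [hw, mul_assoc, mul_div_assoc]; linarith
  have hw2 : w ≤ 12 / 5 * q + 1 - 2 * c * (P.dim - 2) / P.dim := by rw [hw]; linarith
  have hr0 : 0 ≤ (P.dim + 2) * (1 + c * A / P.dim) / (P.dim + 4 + A / 4) := by
    have := G.crv_pos hd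
    positivity
  have hK : c - 1 - P.dim / P.al + 2 * G.O.psi z ≤
      c - 1 - P.dim / (P.dim - 2) + q * (P.dim - 18 / 5) / P.dim := by
    have hdim : P.dim = P.al + P.be + 2 := rfl
    have h2 := Alg.two_x_le hbe P.be_lt (q := q) (by linarith) (by linarith) (by
      rw [show P.al + P.be = P.dim - 2 by linarith, show P.dim - 2 + 2 = P.dim by ring]
      linarith [hq, hc.le])
    have ex : q * (P.al + P.be + 4) * P.be / ((P.al + P.be + 2) * (P.al + 2)) = G.O.psi z := by
      have : P.al + P.be + 4 ≠ 0 := by linarith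
      have : P.al + P.be + 2 + 2 ≠ 0 := by linarith
      simp only [hqdef, Par.ec, Par.p, Par.dim]
      field_simp
      ring
    rw [ex, ← hdim, show P.al + P.be = P.dim - 2 by linarith] at h2
    linarith
  have e := G.phiB_barS hd h he
  simp only [← hA, ← hcdef, ← hkd, ← hw] at e
  have h1 := Alg.weight_one hN hq1.le hq hc.le hA0 hA2
  have h2 := Alg.weight_two hN hq1.le hq hc.le hA0 hA2 hw1 hw2
  have hL : 0 < P.dim + 4 + A / 4 := by linarith
  have hwr := mul_le_mul_of_nonneg_right hw2 hr0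
  have hfirst : -(P.dim + 4 + A / 4) / 5 + 6 / 5 * (A * ((2 + (c - 1) * A) / (4 * (P.dim + 4 + A / 4))
      - ((2 * P.dim + 2) * c / P.dim - 5 / 4) + (c - 1 - P.dim / P.al + 2 * G.O.psi z)
      + w * ((P.dim + 2) * (1 + c * A / P.dim) / (P.dim + 4 + A / 4)))) < 0 := by
    have h3 : A * ((2 + (c - 1) * A) / (4 * (P.dim + 4 + A / 4))
        - ((2 * P.dim + 2) * c / P.dim - 5 / 4) + (c - 1 - P.dim / P.al + 2 * G.O.psi z)
        + w * ((P.dim + 2) * (1 + c * A / P.dim) / (P.dim + 4 + A / 4))) <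
        (P.dim + 4 + A / 4) / 6 := lt_of_le_of_lt (mul_le_mul_of_nonneg_left (by linarith) hA0) h1
    linarith
  have hE : 0 < c * (P.dim - (P.dim - 2) * c) / P.dim := by
    rw [lt_div_iff₀ hD] at hc
    exact div_pos (mul_pos (G.crv_pos hd) (by linarith)) hN0
  have hneg : G.phiB G.barS G.barS1 z * (P.dim + 4 + A / 4) < 0 := by
    rw [e]
    rcases hs' with hp | hlt
    · exact add_neg_of_neg_of_nonpos (mul_neg_of_pos_of_neg (mul_pos (by linarith) hp) hfirst)
        (mul_nonpos_of_nonneg_of_nonpos hE.le (mul_nonpos_of_nonneg_of_nonpos hA0 h2.le))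
    · have hApos : 0 < A := by rw [hA]; exact neg_pos.2 (G.aa_neg hd hlt)
      exact add_neg_of_nonpos_of_neg
        (mul_nonpos_of_nonneg_of_nonpos (mul_nonneg (by linarith) hs) hfirst.le)
        (mul_neg_of_pos_of_neg hE (mul_neg_of_pos_of_neg hApos h2))
  exact neg_of_mul_neg_left hneg hL.le

/-- `psi` increases on `[zs, 0]`: the excess stays positive. -/
theorem sg_pos_left (hN : 5 ≤ P.dim) (hbe : 1 ≤ P.be) (hz : G.zs ≤ z) (h : z ≤ 0) :
    0 < G.O.sg z := by
  by_contra hne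
  rw [not_lt] at hne
  have hcont : ContinuousOn G.O.sg (Icc z 0) := fun y hy =>
    (Orb.contAt_sg (G.mem_of_zs (hz.trans hy.1))).continuousWithinAt
  obtain ⟨zc, ⟨hzc, (hzc' : G.O.sg zc ≤ 0)⟩, hgr⟩ := (isCompact_Icc.of_isClosed_subset
    (hcont.preimage_isClosed_of_isClosed isClosed_Icc isClosed_Iic)
    inter_subset_left).exists_isGreatest (s := Icc z 0 ∩ G.O.sg ⁻¹' Iic 0) ⟨z, ⟨le_rfl, h⟩, hne⟩
  have hlt : zc < 0 := lt_of_le_of_ne hzc.2 fun e => (not_le.2 G.sg_zero_pos) (e ▸ hzc')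
  have hafter : ∀ y ∈ Ioc zc 0, 0 < G.O.sg y := fun y hy => by
    by_contra hle
    exact absurd (hgr ⟨⟨hzc.1.trans hy.1.le, hy.2⟩, not_lt.1 hle⟩) (not_le.2 hy.1)
  have hzs : G.zs ≤ zc := hz.trans hzc.1
  have hd := G.mem_of_zs hzs
  have heq : G.O.sg zc = 0 := by
    refine le_antisymm hzc' (ge_of_tendsto ((Orb.contAt_sg hd).mono_left
      (nhdsWithin_le_nhds (s := Ioi zc))) ?_)
    filter_upwards [Ioc_mem_nhdsGT hlt] with y hy using (hafter y hy).le
  have hge : 0 ≤ G.O.crv1 zc := by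
    refine ge_of_tendsto ((Orb.hasDerivAt_sg hd heq).tendsto_slope.mono_left
      (nhdsWithin_mono (s := Ioi zc) zc fun y (hy : zc < y) => hy.ne')) ?_
    filter_upwards [Ioc_mem_nhdsGT hlt] with y hy
    rw [slope_def_field, heq, sub_zero]
    exact (div_pos (hafter y hy) (sub_pos.2 hy.1)).le
  have hnn : ∀ y ∈ Ico zc 0, 0 ≤ G.O.sg y := fun y hy => by
    rcases hy.1.eq_or_lt with rfl | h1
    · exact heq.ge
    · exact (hafter y ⟨h1, hy.2.le⟩).le
  have hbar := G.neg_barrier hd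
    (fun y hy => G.hasDerivAt_barS (G.mem_of_zs (hzs.trans hy.1)) hy.2) G.contAt_barS1_zero
    (G.phiB_barS_neg hN G.zs_lt.le le_rfl G.sg_zero_pos.le (Or.inl G.sg_zero_pos)
      (by simp [G.yv_zero, Orb.aa]))
    (fun y hy he => G.phiB_barS_neg hN (hzs.trans hy.1) hy.2.le (hnn y hy) (Or.inr hy.2) he)
    zc ⟨le_rfl, hlt⟩
  obtain ⟨hq, hcl, haa, -, -⟩ := G.left_facts hzs hlt.le
  have hyv := G.yv_neg hd hlt
  have hA : 0 < -G.O.aa zc := neg_pos.2 (G.aa_neg hd hlt)
  have hden := Orb.den_pos (O := G.O) hd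
  have hx := Orb.psi_pos (O := G.O) hd
  have hal := P.al_pos
  have hN0 : 0 < P.dim := by linarith
  have hdim : P.dim = P.al + P.be + 2 := rfl
  have hcG : G.O.crv zc = P.gfun (G.O.psi zc) := sub_eq_zero.1 heq
  -- left of `low`
  have hlow : (P.al * G.O.psi zc - P.be) * (P.dim ^ 2 + 2 * P.be) < 2 * P.be * (P.al - P.be) := by
    have h1 : P.ec * G.O.psi zc - P.gfun (G.O.psi zc) < 0 := by
      rw [← hcG]; rw [G.yv_eq] at hyv; exact hyv
    have h2 := mul_neg_of_pos_of_neg (show 0 < P.be * (P.dim + 2) * P.al *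
      (P.be + P.al * G.O.psi zc) by have := P.be_pos; positivity) h1
    rw [P.ec_sub_gfun hden.ne'] at h2
    have := neg_of_mul_neg_right h2 (mul_pos hal hx).le
    linarith
  have hth : -G.O.aa zc * (P.al * G.O.psi zc *
      (2 * P.be * (P.al - P.al * G.O.psi zc) - (P.al + P.be + 2) * (P.al * G.O.psi zc - P.be))) ≤
      (P.al + P.be + 2) * (P.al * G.O.psi zc - P.be) * (P.al * (P.be + P.al * G.O.psi zc)) := by
    have h1 := mul_le_mul_of_nonneg_right (G.theta_bound hzs)
      (mul_pos hal hden).le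
    rw [hcG, Par.gfun] at h1
    rw [← hdim]
    refine le_trans (le_of_eq ?_) h1
    rw [hdim]
    field_simp
    ring
  have hwgt := Alg.zero_weight (A := -G.O.aa zc) (c := G.O.crv zc) (hdim ▸ hN) hbe P.be_lt
    (G.psi_gt hd) (hdim ▸ hlow) hA.le hth (by
      rw [hcG, Par.gfun, hdim]; field_simp; ring)
  set A := -G.O.aa zc with hAdef
  set c := G.O.crv zc with hcdef
  set E := c * (P.dim - (P.dim - 2) * c) / P.dim with hEdef
  have hD : 0 < P.dim - 2 := by linarith
  have hE : 0 < E := by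
    rw [lt_div_iff₀ hD] at hcl
    exact div_pos (mul_pos (G.crv_pos hd) (by linarith)) hN0
  have hL : 0 < P.dim + 4 + A / 4 := by linarith
  have hS : G.barS zc = E / (P.dim + 4 + A / 4) := by
    have hu : (P.be + P.al * G.O.psi zc) * c -
        G.O.psi zc * (P.dim + P.al - P.al * G.O.psi zc) = 0 := by
      rw [hcG, Par.gfun, mul_div_cancel₀ _ hden.ne', sub_self]
    simp only [barS, bnum, bden, ← hcdef, hu, mul_zero, zero_add, hEdef, hAdef]
    ring
  have hY : -G.yv zc < A * (E / (P.dim + 4 + A / 4)) := by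
    rw [hS] at hbar; rw [hAdef]; linarith
  have hr : (P.dim + 2) * (P.dim + c * A) ≤ P.dim * (P.dim + 4 + A / 4) := by
    have h1 := mul_le_mul_of_nonneg_left hwgt hN0.le
    rw [← hdim, show P.al + P.be + 4 = P.dim + 2 by linarith] at h1
    have e : P.dim * (A * ((P.dim + 2) * c / P.dim - 1 / 4)) =
        A * (P.dim + 2) * c - P.dim * A / 4 := by field_simp
    linarith
  have hf := G.eq_crv' hd
  have huu : 0 < P.dim - c * G.O.aa zc := by
    have := mul_nonpos_of_nonneg_of_nonpos (G.crv_pos hd).le haa; linarith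
  have h3 := mul_lt_mul_of_pos_left hY (mul_pos (show (0:ℝ) < P.dim + 2 by linarith) huu)
  have h4 : (P.dim + 2) * (P.dim - c * G.O.aa zc) * (A * (E / (P.dim + 4 + A / 4))) ≤
      P.dim * (A * E) := by
    rw [show P.dim - c * G.O.aa zc = P.dim + c * A by rw [hAdef]; ring,
      mul_div_assoc', mul_div_assoc', div_le_iff₀ hL]
    have := mul_le_mul_of_nonneg_left hr (mul_pos hA hE).le
    linarith
  have h5 : 0 < 2 * zc * G.O.crv1 zc := by
    rw [hf, ← add_div]
    refine div_pos ?_ hN0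
    have e : G.O.aa zc * c * ((P.dim - 2) * c - P.dim) = P.dim * (A * E) := by
      rw [hAdef, hEdef]; field_simp; ring
    rw [e]
    linarith
  exact absurd h5 (not_lt.2 (mul_nonpos_of_nonpos_of_nonneg (by linarith) hge))

lemma hasDerivAt_barT (hz : z ∈ G.O.dom) :
    HasDerivAt (fun y => P.barT (G.O.psi y))
      (P.ec / (P.al * (P.dim + 4)) * (P.dim * P.al / (P.dim - 2) - P.dim - P.al
        + 2 * P.al * G.O.psi z) * (G.O.a z * (G.O.psi z ^ 2 - G.O.psi z + G.O.lam z))) z := by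
  have hp := Orb.hasDerivAt_psi (O := G.O) hz
  refine (((((((hp.const_mul P.al).const_add P.be).const_mul P.dim).div_const (P.dim - 2)).sub
    (hp.mul ((hp.const_mul P.al).const_sub (P.dim + P.al)))).const_mul P.ec).div_const
      (P.al * (P.dim + 4))).congr_deriv ?_
  ring

/-- `crv - q ≤ (-aa) barT` on `[zs, 0]`. -/
theorem slack (hN : 5 ≤ P.dim) (hbe : 1 ≤ P.be) (hz : G.zs ≤ z) (h : z ≤ 0) :
    G.O.crv z - P.ec * G.O.psi z ≤ -G.O.aa z * P.barT (G.O.psi z) := by
  rcases h.eq_or_lt with rfl | hlt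
  · have := G.yv_zero; rw [G.yv_eq] at this
    simp only [Orb.aa]; linarith
  have hN0 : 0 < P.dim := by linarith
  have hD : 0 < P.dim - 2 := by linarith
  have hal := P.al_pos
  set B' := fun y => P.ec / (P.al * (P.dim + 4)) * (P.dim * P.al / (P.dim - 2) - P.dim - P.al
      + 2 * P.al * G.O.psi y) * (G.O.a y * (G.O.psi y ^ 2 - G.O.psi y + G.O.lam y)) with hB'
  have hneg : ∀ y, G.zs ≤ y → y ≤ 0 →
      (G.yv y = G.O.aa y * P.barT (G.O.psi y) ∨ y = 0) →
      G.phiB (fun y => P.barT (G.O.psi y)) B' y < 0 := by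
    intro y hy hy0 he
    have hd := G.mem_of_zs hy
    obtain ⟨hq, hc, haa, -, -⟩ := G.left_facts hy hy0
    have hs := G.sg_pos_left hN hbe hy hy0
    have hden := Orb.den_pos (O := G.O) hd
    have hq1 := G.one_lt_q hd
    set c := G.O.crv y with hcdef
    set x := G.O.psi y with hxdef
    set kd := P.ec / P.al * (P.be + P.al * x) with hkd
    have hkd1 : 1 < kd := by
      have h1 : P.ec * x ≤ kd := by
        rw [hkd, mul_add, ← mul_assoc, div_mul_cancel₀ _ hal.ne']
        have := P.ec_pos; have := P.be_pos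
        exact le_add_of_nonneg_left (by positivity)
      linarith
    set η := P.dim / (P.dim - 2) - c with hη
    have hη0 : 0 < η := sub_pos.2 hc
    have hB : P.barT x * (P.dim + 4) = kd * (η + G.O.sg y) := by
      have hu : (P.be + P.al * x) * G.O.sg y =
          (P.be + P.al * x) * c - x * (P.dim + P.al - P.al * x) := by
        simp only [Orb.sg, Par.gfun, ← hcdef, ← hxdef]
        rw [mul_sub, mul_div_cancel₀ _ hden.ne']
      simp only [Par.barT, hkd, hη]
      field_simp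
      field_simp at hu
      linear_combination (P.dim - 2) * hu * P.ec * (-1)
    have hBpos : 0 < P.barT x :=
      pos_of_mul_pos_left (hB ▸ mul_pos (by linarith) (add_pos hη0 hs)) (by linarith)
    have hyv : G.yv y ≤ 0 := G.yv_nonpos hd hy0
    have hyS : G.yS y = kd * G.O.sg y + c * (P.dim - 2) / P.dim * η
        + (P.dim + 2) * c / P.dim * G.yv y := by
      rw [yS, Orb.psi_deriv_eq hd]
      simp only [hkd, hη, yv, Par.ec, ← hcdef, ← hxdef]
      have : P.dim + 2 ≠ 0 := by linarith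
      have := hD.ne'
      have := hden.ne'
      field_simp
      ring
    have hcD : c * (P.dim - 2) / P.dim < 1 := by
      rw [div_lt_one hN0]; rwa [lt_div_iff₀ hD] at hc
    have h1 : G.yS y < kd * (η + G.O.sg y) := by
      have h2 := mul_lt_mul_of_pos_right (hcD.trans hkd1) hη0
      have h3 := mul_nonpos_of_nonneg_of_nonpos
        (show 0 ≤ (P.dim + 2) * c / P.dim by have := G.crv_pos hd; positivity) hyv
      linarith
    have h4 : 0 ≤ P.barT x * (-(c - 1) * G.O.aa y) :=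
      mul_nonneg hBpos.le (by
        rw [neg_mul]; exact neg_nonneg.2 (mul_nonpos_of_nonneg_of_nonpos (by linarith) haa))
    have h5 : 0 ≤ 2 * y * B' y := by
      rw [hB']
      refine mul_nonneg_of_nonpos_of_nonpos (by linarith) ?_
      refine mul_nonpos_of_nonpos_of_nonneg (mul_nonpos_of_nonneg_of_nonpos
        (div_pos P.ec_pos (mul_pos hal (by linarith))).le ?_) (mul_nonneg (Orb.a_pos hd).le ?_)
      · have hdim : P.dim = P.al + P.be + 2 := rfl
        have h6 := hq.trans hc.le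
        rw [le_div_iff₀ hD] at h6
        simp only [Par.ec, Par.p] at h6
        have := P.be_pos
        field_simp at h6
        rw [← hxdef, sub_sub, sub_add_eq_add_sub, sub_nonpos, div_add' _ _ _ hD.ne',
          div_le_iff₀ hD]
        rw [hdim] at h6 ⊢
        refine le_of_mul_le_mul_left ?_ (show 0 < (P.al + P.be + 2) * (P.al + 2) by positivity)
        nlinarith [mul_le_mul_of_nonneg_left h6 (show (0:ℝ) ≤ 2 * P.al by linarith),
          mul_pos hal P.be_pos, mul_pos hal hal, mul_pos P.be_pos P.be_pos,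
          mul_pos (sub_pos.2 P.be_lt) (mul_pos hal hal),
          mul_pos (sub_pos.2 P.be_lt) (mul_pos hal P.be_pos)]
      · rw [Orb.psi_deriv_eq hd]
        exact div_nonneg (mul_nonneg hden.le hs.le) hal.le
    simp only [phiB, ← hxdef, ← hcdef]
    linarith
  have hsub : ∀ y ∈ Icc z 0, y ∈ G.O.dom := fun y hy => G.mem_of_zs (hz.trans hy.1)
  have hc' : ContinuousAt B' 0 := by
    have hp := (Orb.hasDerivAt_psi (O := G.O) G.O.zero_mem).continuousAt
    have hl := (Orb.hasDerivAt_lam (O := G.O) G.O.zero_mem).continuousAt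
    have h2 := Orb.contAt_a (O := G.O) G.O.zero_mem
    rw [hB']
    fun_prop
  have key := G.neg_barrier (G.mem_of_zs hz) (fun y hy => G.hasDerivAt_barT (hsub y hy)) hc'
    (hneg 0 G.zs_lt.le le_rfl (Or.inr rfl))
    (fun y hy he => hneg y (hz.trans hy.1) hy.2.le (Or.inl he)) z ⟨le_rfl, hlt⟩
  rw [G.yv_eq] at key
  linarith

end GroundState

end

end Vale.Agent.P100.Ground
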