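import Vale.Agent.P100.Ground.Sign

/-! P100, critical ground state: barriers on the continuation `z < 0`; the second component stays
bounded while `theta ≤ al / be`. -/

namespace Vale.Agent.P100.Ground

noncomputable section

open Set Filter Topology

/-- A function which is positive at the right end and decreasing at each of its zeros is positive. -/
lemma pos_of_deriv_neg_at_zeros {f f' : ℝ → ℝ} {z z1 : ℝ}
    (hf : ∀ x ∈ Icc z z1, HasDerivAt f (f' x) x) (h1 : 0 < f z1)
    (hz : ∀ x ∈ Ico z z1, f x = 0 → f' x < 0) : ∀ x ∈ Icc z z1, 0 < f x := by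
  by_contra hne
  push Not at hne
  obtain ⟨y, hy, hy0⟩ := hne
  have hc : ContinuousOn f (Icc z z1) := fun x hx => (hf x hx).continuousAt.continuousWithinAt
  obtain ⟨m, ⟨hm, (hm0 : f m ≤ 0)⟩, hgr⟩ := (isCompact_Icc.of_isClosed_subset
    (hc.preimage_isClosed_of_isClosed isClosed_Icc isClosed_Iic)
    inter_subset_left).exists_isGreatest (s := Icc z z1 ∩ f ⁻¹' Iic 0) ⟨y, hy, hy0⟩
  have hlt : m < z1 := lt_of_le_of_ne hm.2 fun e => (not_le.2 h1) (e ▸ hm0)
  have heq : f m = 0 := by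
    refine le_antisymm hm0 (not_lt.1 fun hn => ?_)
    obtain ⟨w, hw, hw0⟩ := intermediate_value_Icc hlt.le
      (hc.mono (Icc_subset_Icc hm.1 le_rfl)) ⟨hn.le, h1.le⟩
    have hwm : w = m := le_antisymm (hgr ⟨⟨hm.1.trans hw.1, hw.2⟩, hw0.le⟩) hw.1
    rw [hwm] at hw0
    linarith
  have := ((hasDerivAt_iff_tendsto_slope.1 (hf m hm)).mono_left
    (nhdsWithin_mono (s := Ioi m) m fun y (hy : m < y) => hy.ne')).eventually_lt_const
      (hz m ⟨hm.1, hlt⟩ heq)
  have hin : ∀ᶠ y in 𝓝[>] m, y ∈ Ioi m := self_mem_nhdsWithin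
  have hl : ∀ᶠ y in 𝓝[>] m, y ∈ Iio z1 := nhdsWithin_le_nhds (Iio_mem_nhds hlt)
  obtain ⟨x, hx, (hx1 : m < x), (hx2 : x < z1)⟩ := (this.and (hin.and hl)).exists
  rw [slope_def_field, heq, sub_zero, div_lt_iff₀ (sub_pos.2 hx1), zero_mul] at hx
  exact absurd (hgr ⟨⟨hm.1.trans hx1.le, hx2.le⟩, hx.le⟩) (not_le.2 hx1)

namespace Orb

variable {P : Par}

/-- Lower bound for the reaction rate of `V` below the level. -/
lemma qt_lower (O : Orb P) {x u1 : ℝ} (hx : x ∈ O.dom) (hu1 : 0 < u1) (hu : u1 ≤ O.U x)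
    (hth : O.theta x ≤ P.al / P.be) :
    u1 ^ (2 / P.al) / (P.al / P.be) ^ (1 / (P.p + 1)) ≤ O.qt x := by
  have hal := P.al_pos
  have hbe := P.be_pos
  have hU := O.posU x hx
  have hV := O.posV x hx
  have hp1 : 0 < P.p + 1 := by linarith [P.p_pos]
  set l := (P.al / P.be) ^ (1 / (P.p + 1)) with hl
  have hl0 : 0 < l := Real.rpow_pos_of_pos (div_pos hal hbe) _
  rw [O.theta_eq hx, div_le_iff₀ (Real.rpow_pos_of_pos hU _)] at hth
  have hVle : O.V x ≤ l * O.U x ^ (P.be / P.al) := by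
    refine (Real.rpow_le_rpow_iff hV.le (by positivity) hp1).1 (hth.trans (le_of_eq ?_))
    rw [Real.mul_rpow hl0.le (Real.rpow_nonneg hU.le _), hl,
      ← Real.rpow_mul (div_pos hal hbe).le, ← Real.rpow_mul hU.le, one_div_mul_cancel hp1.ne',
      Real.rpow_one, P.p_add_one, P.q_add_one]
    congr 2
    field_simp
  calc u1 ^ (2 / P.al) / l ≤ O.U x ^ (2 / P.al) / l := by gcongr
    _ = O.U x ^ P.q / (l * O.U x ^ (P.be / P.al)) := by
        rw [show P.q = 2 / P.al + P.be / P.al by unfold Par.q; ring, Real.rpow_add hU]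
        field_simp
    _ ≤ O.U x ^ P.q / O.V x := div_le_div_of_nonneg_left (Real.rpow_nonneg hU.le _) hV hVle

/-- First barrier: `-x b` stays above `e1`. -/
lemma barrier_one (O : Orb P) {z z1 e1 Q1 : ℝ} (hsub : Icc z z1 ⊆ O.dom) (hneg : z1 < 0)
    (he1a : e1 ≤ 1) (he1b : e1 < -z1 * O.b z1) (hQ1 : 0 < Q1)
    (he1c : e1 < -z1 * Q1 / (2 * P.dim)) (hqlow : ∀ x ∈ Icc z z1, Q1 ≤ O.qt x) :
    ∀ x ∈ Icc z z1, 0 < -x * O.b x - e1 := by
  have hN := P.two_lt_dim
  refine pos_of_deriv_neg_at_zeros (f' := fun x => -O.b x - x * O.b1 x)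
    (fun x hx => ?_) (by linarith) fun x hx h0 => ?_
  · refine ((((hasDerivAt_id x).neg).mul (hasDerivAt_b (hsub hx))).sub_const e1).congr_deriv ?_
    simp only [id_eq, Pi.neg_apply]; ring
  · have hxI : x ∈ Icc z z1 := Ico_subset_Icc_self hx
    have hb := b_pos (hsub hxI)
    have h := eq_b (hsub hxI)
    have hw : 0 < -x := by linarith [hx.2]
    have hxb : -x * O.b x = e1 := by linarith
    have h2 : -O.b x - x * O.b1 x = -(O.qt x / 4) + O.b x * (P.dim / 2 - 1) + e1 * O.b x := by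
      linear_combination (-1 / 2) * h + O.b x * hxb
    have h3 : O.b x * (P.dim / 2 - 1) + e1 * O.b x ≤ O.b x * (P.dim / 2) := by
      have := mul_le_mul_of_nonneg_right he1a hb.le
      linarith
    have h4 : -x * (O.b x * (P.dim / 2)) < -x * (O.qt x / 4) := by
      have h5 : e1 * (2 * P.dim) < -z1 * Q1 := (lt_div_iff₀ (by linarith)).1 he1c
      have h6 : -z1 * Q1 ≤ -x * O.qt x :=
        mul_le_mul (by linarith [hx.2]) (hqlow x hxI) hQ1.le hw.le
      have h7 : -x * (O.b x * (P.dim / 2)) = e1 * (2 * P.dim) / 4 := by rw [← hxb]; ring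
      linarith
    have h8 := lt_of_mul_lt_mul_left h4 hw.le
    linarith

/-- Second barrier: `4 |x| b²` dominates the reaction rate. -/
lemma barrier_two (O : Orb P) {z z1 e1 k : ℝ} (hsub : Icc z z1 ⊆ O.dom) (hneg : z1 < 0)
    (hk : 0 < k) (hka : k < 1 / (1 + P.q * P.al / P.be)) (hkb : k < e1 / P.dim)
    (hinit : k * O.qt z1 < 4 * -z1 * O.b z1 ^ 2) (hdel : ∀ x ∈ Icc z z1, 0 < O.del x)
    (f1 : ∀ x ∈ Icc z z1, 0 < -x * O.b x - e1) :
    ∀ x ∈ Icc z z1, 0 < -4 * x * O.b x ^ 2 - k * O.qt x := by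
  have hN := P.two_lt_dim
  have hal := P.al_pos
  have hbe := P.be_pos
  have hq := P.q_pos
  refine pos_of_deriv_neg_at_zeros
    (f' := fun x => -4 * O.b x ^ 2 - 8 * x * O.b x * O.b1 x - k * (O.qt x * (O.b x - P.q * O.a x)))
    (fun x hx => ?_) (by linarith) fun x hx h0 => ?_
  · refine ((((hasDerivAt_id x).const_mul (-4)).mul ((hasDerivAt_b (hsub hx)).pow 2)).sub
      ((hasDerivAt_qt (hsub hx)).const_mul k)).congr_deriv ?_
    simp only [id_eq, Pi.pow_apply]; ring
  · have hxI : x ∈ Icc z z1 := Ico_subset_Icc_self hx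
    have hb := b_pos (hsub hxI)
    have hqp := qt_pos (hsub hxI)
    have h := eq_b (hsub hxI)
    have hw : 0 < -x := by linarith [hx.2]
    have hab : O.a x ≤ P.al / P.be * O.b x := by
      have := hdel x hxI
      simp only [del] at this
      rw [div_mul_eq_mul_div, le_div_iff₀ hbe]; linarith
    have e4 : O.b x ^ 2 * (-4 * x) = k * O.qt x := by linarith
    have key : -x * (-4 * O.b x ^ 2 - 8 * x * O.b x * O.b1 x
        - k * (O.qt x * (O.b x - P.q * O.a x))) =
        O.qt x * ((P.dim - 1) * k - (-x * O.b x) * (2 - k) + -x * k * P.q * O.a x) := by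
      linear_combination 4 * x * O.b x * h + ((P.dim - 1) + (-2 * x) * O.b x) * e4
    have hxa : -x * k * P.q * O.a x ≤ k * (P.q * P.al / P.be) * (-x * O.b x) := by
      have h' : -x * k * P.q * O.a x ≤ -x * k * P.q * (P.al / P.be * O.b x) :=
        mul_le_mul_of_nonneg_left hab (by positivity)
      refine h'.trans (le_of_eq ?_)
      ring
    have hr0 : 0 < P.q * P.al / P.be := by positivity
    have hk1 : k * (1 + P.q * P.al / P.be) < 1 := (lt_div_iff₀ (by linarith)).1 hka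
    have hxb := f1 x hxI
    have hke : k * P.dim < e1 := (lt_div_iff₀ (by linarith)).1 hkb
    have hbr : (P.dim - 1) * k - (-x * O.b x) * (2 - k) + -x * k * P.q * O.a x < 0 := by
      have h1 := mul_lt_mul_of_pos_left hk1 (mul_pos hw hb)
      linarith
    have hlt := mul_neg_of_pos_of_neg hqp hbr
    rw [← key] at hlt
    by_contra hge
    have := mul_nonneg hw.le (not_lt.1 hge)
    linarith

/-- Third barrier: the defect stays above `ep b`. -/
lemma barrier_three (O : Orb P) {z z1 k ep : ℝ} (hsub : Icc z z1 ⊆ O.dom) (hneg : z1 < 0)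
    (hk : 0 < k) (hep : 0 < ep) (hepb : ep < (P.al - P.be) / 2)
    (hepc : ep < k * (P.al * (P.al - P.be) / (4 * P.be))) (hinit : ep * O.b z1 < O.del z1)
    (hth : ∀ x ∈ Icc z z1, O.theta x ≤ P.al / P.be)
    (f2 : ∀ x ∈ Icc z z1, 0 < -4 * x * O.b x ^ 2 - k * O.qt x) :
    ∀ x ∈ Icc z z1, 0 < O.del x - ep * O.b x := by
  have hal := P.al_pos
  have hbe := P.be_pos
  have hgap := sub_pos.2 P.be_lt
  refine pos_of_deriv_neg_at_zeros (f' := fun x => O.del1 x - ep * O.b1 x)
    (fun x hx => (hasDerivAt_del (hsub hx)).sub ((hasDerivAt_b (hsub hx)).const_mul ep))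
    (by linarith) fun x hx h0 => ?_
  have hxI : x ∈ Icc z z1 := Ico_subset_Icc_self hx
  have hb := b_pos (hsub hxI)
  have hw : 0 < -x := by linarith [hx.2]
  have hqp := qt_pos (hsub hxI)
  have hle := hth x hxI
  have hA : O.a x = (P.al - ep) / P.be * O.b x := by
    simp only [del] at h0
    field_simp
    linarith
  have h2x : 2 * x * (O.del1 x - ep * O.b1 x) =
      O.qt x * (P.al - P.be * O.theta x) / 2 - ep * O.qt x / 2
        + 2 * (-x) * O.b x ^ 2 * ((P.al - ep) ^ 2 / P.be - P.al + ep) := by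
    have h1 := eq_del (hsub hxI)
    have h2 := eq_b (hsub hxI)
    simp only [frc, pt_eq (hsub hxI), hA] at h1
    have h0' : O.del x = ep * O.b x := by linarith
    rw [h0'] at h1
    field_simp at h1 h2 ⊢
    linear_combination h1 - ep * P.be * h2
  have hc3 : P.al * (P.al - P.be) / (4 * P.be) ≤ (P.al - ep) ^ 2 / P.be - P.al + ep := by
    have e : (P.al - ep) ^ 2 / P.be - P.al + ep = (P.al - ep) * (P.al - ep - P.be) / P.be := by
      field_simp; ring
    rw [e, show P.al * (P.al - P.be) / (4 * P.be) = P.al / 2 * ((P.al - P.be) / 2) / P.be by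
      field_simp; ring]
    gcongr <;> linarith
  have hqle : k * O.qt x ≤ 4 * -x * O.b x ^ 2 := by linarith [f2 x hxI]
  have hkey : ep * O.qt x / 2 < 2 * (-x) * O.b x ^ 2 * ((P.al - ep) ^ 2 / P.be - P.al + ep) := by
    have h1 : ep * O.qt x < k * (P.al * (P.al - P.be) / (4 * P.be)) * O.qt x :=
      mul_lt_mul_of_pos_right hepc hqp
    have h2 : P.al * (P.al - P.be) / (4 * P.be) * (k * O.qt x) ≤
        ((P.al - ep) ^ 2 / P.be - P.al + ep) * (4 * -x * O.b x ^ 2) :=
      mul_le_mul hc3 hqle (by positivity) (le_trans (by positivity) hc3)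
    linarith
  have hnn : 0 ≤ O.qt x * (P.al - P.be * O.theta x) := by
    refine mul_nonneg hqp.le ?_
    have := (le_div_iff₀ hbe).1 hle
    linarith
  by_contra hge
  have := mul_nonpos_of_nonpos_of_nonneg (show 2 * x ≤ 0 by linarith) (not_lt.1 hge)
  linarith

/-- A bound for `V` on the continuation, which only depends on the data at `z1`. -/
lemma exists_cont_bound (O0 : Orb P) {z1 : ℝ} (hz1 : z1 ∈ O0.dom) (hneg : z1 < 0)
    (hd0 : 0 < O0.del z1) :
    ∃ M : ℝ, ∀ O : Orb P, O.U z1 = O0.U z1 → O.V z1 = O0.V z1 → O.U1 z1 = O0.U1 z1 →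
      O.V1 z1 = O0.V1 z1 → ∀ z ∈ O.dom, z ≤ z1 → 0 < O.del 0 →
      (∀ y ∈ Icc z 0, O.theta y ≤ P.al / P.be) → O.V z ≤ M := by
  have hal := P.al_pos
  have hbe := P.be_pos
  have hgap := sub_pos.2 P.be_lt
  have hq := P.q_pos
  have hN := P.two_lt_dim
  have hu1 := O0.posU z1 hz1
  have hb1 := O0.b_pos hz1
  have hq1 := O0.qt_pos hz1
  have hw1 : 0 < -z1 := neg_pos.2 hneg
  set Q1 := O0.U z1 ^ (2 / P.al) / (P.al / P.be) ^ (1 / (P.p + 1)) with hQ1
  have hQ1pos : 0 < Q1 := by positivity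
  obtain ⟨e1, he1, he1'⟩ := exists_between (show 0 < min 1 (min (-z1 * O0.b z1)
    (-z1 * Q1 / (2 * P.dim))) by positivity)
  simp only [lt_min_iff] at he1'
  obtain ⟨he1a, he1b, he1c⟩ := he1'
  obtain ⟨k, hk, hk'⟩ := exists_between (show 0 < min (1 / (1 + P.q * P.al / P.be))
    (min (e1 / P.dim) (4 * -z1 * O0.b z1 ^ 2 / O0.qt z1)) by positivity)
  simp only [lt_min_iff] at hk'
  obtain ⟨hka, hkb, hkc⟩ := hk'
  obtain ⟨ep, hep, hep'⟩ := exists_between (show 0 < min (O0.del z1 / O0.b z1)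
    (min ((P.al - P.be) / 2) (k * (P.al * (P.al - P.be) / (4 * P.be)))) by positivity)
  simp only [lt_min_iff] at hep'
  obtain ⟨hepa, hepb, hepc⟩ := hep'
  set g := P.dim * ep / (P.al * P.be) with hg
  have hg0 : 0 < g := by positivity
  refine ⟨(P.al / P.be / (O0.theta z1 * O0.V z1 ^ (-g))) ^ (1 / g), ?_⟩
  intro O eU eV eU1 eV1 z hz hzz1 hdel0 hth
  have hsub0 : Icc z 0 ⊆ O.dom := O.conn.out hz O.zero_mem
  have hsub : Icc z z1 ⊆ O.dom := (Icc_subset_Icc le_rfl hneg.le).trans hsub0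
  have eb : O.b z1 = O0.b z1 := by simp only [b, eV, eV1]
  have ea : O.a z1 = O0.a z1 := by simp only [a, eU, eU1]
  have eq : O.qt z1 = O0.qt z1 := by simp only [qt, eU, eV]
  have ed : O.del z1 = O0.del z1 := by simp only [del, eb, ea]
  have et : O.theta z1 = O0.theta z1 := by simp only [theta, pt, qt, eU, eV]
  have hdel : ∀ x ∈ Icc z z1, 0 < O.del x := fun x hx =>
    O.del_pos_neg hz hdel0 hth x ⟨hx.1, hx.2.trans hneg.le⟩
  have hmono : ∀ x ∈ Icc z z1, O0.U z1 ≤ O.U x := by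
    have hanti : AntitoneOn O.U (Icc z z1) :=
      antitoneOn_of_hasDerivWithinAt_nonpos (convex_Icc z z1)
        (fun x hx => (O.hU x (hsub hx)).continuousAt.continuousWithinAt)
        (fun x hx => (O.hU x (hsub (interior_subset hx))).hasDerivWithinAt)
        (fun x hx => (O.negU x (hsub (interior_subset hx))).le)
    intro x hx
    exact eU ▸ hanti hx (right_mem_Icc.2 hzz1) hx.2
  have hqlow : ∀ x ∈ Icc z z1, Q1 ≤ O.qt x := fun x hx =>
    O.qt_lower (hsub hx) hu1 (hmono x hx) (hth x ⟨hx.1, hx.2.trans hneg.le⟩)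
  have f1 := O.barrier_one hsub hneg he1a.le (by rw [eb]; exact he1b) hQ1pos he1c hqlow
  have f2 := O.barrier_two hsub hneg hk hka hkb
    (by rw [eq, eb]; exact (lt_div_iff₀ hq1).1 hkc) hdel f1
  have f3 := O.barrier_three hsub hneg hk hep hepb hepc
    (by rw [eb, ed]; exact (lt_div_iff₀ hb1).1 hepa)
    (fun x hx => hth x ⟨hx.1, hx.2.trans hneg.le⟩) f2
  -- the weighted ratio
  have hmonoW : AntitoneOn (fun x => O.theta x * O.V x ^ (-g)) (Icc z z1) := by
    refine antitoneOn_of_hasDerivWithinAt_nonpos (convex_Icc z z1)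
      (f' := fun x => O.theta x * O.V x ^ (-g) * (g * O.b x - P.dim / (P.al * P.be) * O.del x))
      (fun x hx => ((hasDerivAt_theta (hsub hx)).continuousAt.mul
        ((O.hV x (hsub hx)).continuousAt.rpow_const
          (Or.inl (O.posV x (hsub hx)).ne'))).continuousWithinAt)
      (fun x hx => ?_) (fun x hx => ?_)
    · have hxd := hsub (interior_subset hx)
      have hv := (O.posV x hxd).ne'
      refine (((hasDerivAt_theta hxd).mul ((O.hV x hxd).rpow_const (p := -g) (Or.inl hv)))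
        |>.congr_deriv ?_).hasDerivWithinAt
      rw [Real.rpow_sub_one hv, b]
      field_simp
      ring
    · have hxI := interior_subset hx
      refine mul_nonpos_of_nonneg_of_nonpos (mul_nonneg (theta_pos (hsub hxI)).le
        (Real.rpow_nonneg (O.posV x (hsub hxI)).le _)) ?_
      have h := mul_le_mul_of_nonneg_left (f3 x hxI).le
        (show 0 ≤ P.dim / (P.al * P.be) by positivity)
      have e : P.dim / (P.al * P.be) * (O.del x - ep * O.b x) =
          P.dim / (P.al * P.be) * O.del x - g * O.b x := by rw [hg]; ring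
      linarith
  have hW := hmonoW (left_mem_Icc.2 hzz1) (right_mem_Icc.2 hzz1) hzz1
  simp only [et, eV] at hW
  have hV := O.posV z hz
  have hth0 : 0 < O0.theta z1 * O0.V z1 ^ (-g) :=
    mul_pos (theta_pos hz1) (Real.rpow_pos_of_pos (O0.posV z1 hz1) _)
  have h1 : O.V z ^ g ≤ P.al / P.be / (O0.theta z1 * O0.V z1 ^ (-g)) := by
    rw [le_div_iff₀ hth0]
    refine (mul_le_mul_of_nonneg_left hW (Real.rpow_nonneg hV.le _)).trans ?_
    rw [Real.rpow_neg hV.le]
    have hVg := (Real.rpow_pos_of_pos hV g).ne'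
    calc O.V z ^ g * (O.theta z * (O.V z ^ g)⁻¹) = O.theta z := by field_simp
      _ ≤ P.al / P.be := hth z ⟨le_rfl, hzz1.trans hneg.le⟩
  calc O.V z = (O.V z ^ g) ^ (1 / g) := by
        rw [← Real.rpow_mul hV.le, mul_one_div, div_self hg0.ne', Real.rpow_one]
    _ ≤ _ := Real.rpow_le_rpow (Real.rpow_nonneg hV.le _) h1 (by positivity)

end Orb

end

end Vale.Agent.P100.Ground
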