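import Vale.Agent.P100.Ground.Shoot
import Vale.Agent.P100.Ground.Barrier

/-! P100, critical ground state: continuation to `z < 0` up to the level `theta = al / be`. -/

namespace Vale.Agent.P100.Ground

noncomputable section

open Set Filter Topology

variable (P : Par) (c : Clamp) (t : ℝ)

/-- The ratio `V ^ (p + 1) / U ^ (q + 1)` of the clamped solution. -/
def solTheta (z : ℝ) : ℝ := (sol P c t z).2 ^ (P.p + 1) / (sol P c t z).1 ^ (P.q + 1)

variable {P c t}

lemma solTheta_eq (h0 : (0 : ℝ) ∈ inside P c t) {z : ℝ} (hz : z ∈ dom P c t) :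
    solTheta P c t z = (orb P c t h0).theta z := ((orb P c t h0).theta_eq hz).symm

lemma continuousAt_solTheta {z : ℝ} (hz : 0 < (sol P c t z).1) :
    ContinuousAt (solTheta P c t) z := by
  have hc := continuous_sol_right P c t
  refine ContinuousAt.div ?_ ?_ (Real.rpow_pos_of_pos hz _).ne'
  · exact (hc.snd.rpow_const fun _ => Or.inr (by linarith [P.p_pos])).continuousAt
  · exact (hc.fst.rpow_const fun _ => Or.inr (by linarith [P.q_pos])).continuousAt

lemma fst_ge_of_nonpos {z : ℝ} (hz : z ≤ 0) :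
    1 - t ≤ (sol P c t z).1 ∧ t ≤ (sol P c t z).2 := by
  have h1 := (antitone_solU P c t).antitone hz
  have h2 := (antitone_solV P c t).antitone hz
  simp only [sol_zero] at h1 h2
  exact ⟨h1, h2⟩

lemma Icc_subset_dom_neg {Z : ℝ} (h : Icc Z 0 ⊆ inside P c t) {z : ℝ} (hz : z ∈ Icc Z 0) :
    z ∈ dom P c t :=
  mem_dom P c t (by rw [uIcc_of_ge hz.2]; exact (Icc_subset_Icc hz.1 le_rfl).trans h)

lemma snd_ge_linear {Z : ℝ} (hZ : Z ≤ 0) :
    t + -Z * (c.lo ^ P.q / P.dim / 2) ≤ (sol P c t Z).2 := by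
  have hv : ∀ x, solV1 P c t x ≤ -(c.lo ^ P.q / P.dim) / 2 := fun x => by
    have h := le_av P.one_le_dim
      (((c.continuous_pw P.q).comp (continuous_sol_right P c t).fst).continuousOn (s := uIcc 0 x))
      fun y _ => Real.rpow_le_rpow c.lo_pos.le (c.cut_mem (sol P c t y).1).1 P.q_pos.le
    simp only [solV1, Function.comp_def] at *
    linarith
  have := antitoneOn_of_hasDerivWithinAt_nonpos (convex_Icc Z 0)
    (f := fun x => (sol P c t x).2 + x * (c.lo ^ P.q / P.dim / 2))
    (fun x _ => ((hasDerivAt_solV P c t x).add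
      ((hasDerivAt_id x).mul_const _)).continuousAt.continuousWithinAt)
    (f' := fun x => solV1 P c t x + 1 * (c.lo ^ P.q / P.dim / 2))
    (fun x _ => ((hasDerivAt_solV P c t x).add ((hasDerivAt_id x).mul_const _)).hasDerivWithinAt)
    (fun x _ => by linarith [hv x])
    (left_mem_Icc.2 hZ) (right_mem_Icc.2 hZ) hZ
  simp only [sol_zero, zero_mul, add_zero] at this
  linarith

/-- The continuation reaches the level `al / be` with a positive defect. -/
theorem exists_cont {c0 : Clamp} (h00 : (0 : ℝ) ∈ inside P c0 t)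
    (hd : 0 < solDel P c0 t 0) :
    ∃ (c : Clamp) (zs : ℝ), zs < 0 ∧ Icc zs 0 ⊆ inside P c t ∧
      solTheta P c t zs = P.al / P.be ∧ (∀ z ∈ Ioc zs 0, solTheta P c t z < P.al / P.be) ∧
      ∀ z ∈ Icc zs 0, 0 < solDel P c t z := by
  have hal := P.al_pos
  have hbe := P.be_pos
  have ht0 : 0 < t := by have := c0.lo_pos; have := h00.2.1; rw [sol_zero] at this; linarith
  have ht1 : 0 < 1 - t := by have := c0.lo_pos; have := h00.1.1; rw [sol_zero] at this; linarith
  have hth0 : solTheta P c0 t 0 < P.al / P.be := by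
    have h := theta_lt_of_del h00 hd
    simp only [solTheta, sol_zero]
    rw [div_lt_div_iff₀ (Real.rpow_pos_of_pos ht1 _) hbe]
    linarith
  -- a first short segment
  obtain ⟨r, hr, hball⟩ := Metric.isOpen_iff.1 (isOpen_inside P c0 t) 0 h00
  obtain ⟨r', hr', hball'⟩ := Metric.eventually_nhds_iff.1
    ((continuousAt_solTheta (P := P) (c := c0) (t := t) (z := 0)
      (by rw [sol_zero]; exact ht1)).eventually_lt_const hth0)
  set z1 := -(min r r') / 2 with hz1
  have hmin : 0 < min r r' := lt_min hr hr'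
  have hz1neg : z1 < 0 := by linarith
  have hin0 : Icc z1 0 ⊆ inside P c0 t := fun z hz => hball (by
    rw [Metric.mem_ball, Real.dist_eq, sub_zero, abs_of_nonpos hz.2]
    linarith [hz.1, min_le_left r r'])
  have hth1 : ∀ y ∈ Icc z1 0, solTheta P c0 t y < P.al / P.be := fun y hy => hball' (by
    rw [Real.dist_eq, sub_zero, abs_of_nonpos hy.2]
    linarith [hy.1, min_le_right r r'])
  let O0 := orb P c0 t h00
  have hz1dom : z1 ∈ O0.dom := Icc_subset_dom_neg hin0 ⟨le_rfl, hz1neg.le⟩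
  have hd1 : 0 < O0.del z1 := O0.del_pos_neg hz1dom hd
    (fun y hy => by rw [← solTheta_eq h00 (Icc_subset_dom_neg hin0 hy)]; exact (hth1 y hy).le)
    z1 ⟨le_rfl, hz1neg.le⟩
  obtain ⟨M0, hM0⟩ := O0.exists_cont_bound hz1dom hz1neg hd1
  set M := max M0 (sol P c0 t z1).2 with hM
  set th0 := solTheta P c0 t 0 with hth0def
  have hth0pos : 0 < th0 := by
    simp only [hth0def, solTheta, sol_zero]; positivity
  set Mu := (M ^ (P.p + 1) / th0) ^ (1 / (P.q + 1)) with hMu
  set hi := max (max c0.hi M) Mu + 1 with hhi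
  have hlohi : c0.lo ≤ hi := by
    linarith [c0.lo_le, le_max_left (max c0.hi M) Mu, le_max_left c0.hi M]
  have hc0hi : c0.hi ≤ hi := by linarith [le_max_left (max c0.hi M) Mu, le_max_left c0.hi M]
  let c : Clamp := ⟨c0.lo, hi, c0.lo_pos, hlohi⟩
  have hlo1 : c.lo < 1 - t := by have := h00.1.1; rw [sol_zero] at this; exact this
  have hlo2 : c.lo < t := by have := h00.2.1; rw [sol_zero] at this; exact this
  have eold : EqOn (sol P c0 t) (sol P c t) (uIcc 0 z1) :=
    sol_eq_of_mem P c0 t (c' := c) (by rwa [uIcc_of_ge hz1neg.le]) fun x hx => by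
      rw [uIcc_of_ge hz1neg.le] at hx
      exact ⟨⟨(hin0 hx).1.1.le, (hin0 hx).1.2.le.trans hc0hi⟩,
        ⟨(hin0 hx).2.1.le, (hin0 hx).2.2.le.trans hc0hi⟩⟩
  rw [uIcc_of_ge hz1neg.le] at eold
  have hold : Icc z1 0 ⊆ inside P c t := fun x hx => by
    simp only [inside, mem_ofPred_eq, ← eold hx]
    exact ⟨⟨(hin0 hx).1.1, (hin0 hx).1.2.trans_le hc0hi⟩,
      ⟨(hin0 hx).2.1, (hin0 hx).2.2.trans_le hc0hi⟩⟩
  have hc00 : (0 : ℝ) ∈ inside P c t := hold ⟨hz1neg.le, le_rfl⟩
  let O := orb P c t hc00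
  have hdel0 : 0 < O.del 0 := by
    change 0 < solDel P c t 0
    rwa [(solDel_congr (c := c) (c' := c0) (t := t) (z := 0)
      (by rw [uIcc_self, singleton_subset_iff]; exact hc00)
      (by rw [uIcc_self, singleton_subset_iff]; exact h00)).1]
  -- the first bad point
  set k := c.lo ^ P.q / P.dim / 2 with hk
  have hk0 : 0 < k := by
    have := c.lo_pos; have := zero_lt_two.trans P.two_lt_dim; positivity
  set Z := -(hi / k) with hZ
  have hZ0 : Z ≤ 0 := neg_nonpos.2 (div_nonneg (c.lo_pos.le.trans hlohi) hk0.le)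
  have hZout : Z ∉ inside P c t := by
    intro h
    have h1 := snd_ge_linear (P := P) (c := c) (t := t) hZ0
    have h2 : -Z * k = hi := by rw [hZ, neg_neg, div_mul_cancel₀ _ hk0.ne']
    rw [← hk, h2] at h1
    linarith [h.2.2, show c.hi = hi from rfl]
  have hcont : ContinuousOn (solTheta P c t) (Icc Z 0) := fun x hx =>
    (continuousAt_solTheta (ht1.trans_le (fst_ge_of_nonpos hx.2).1)).continuousWithinAt
  obtain ⟨m, hm, hgr⟩ := (isCompact_Icc.of_isClosed_subset
    ((isClosed_Icc.inter (isOpen_inside P c t).isClosed_compl).union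
      (hcont.preimage_isClosed_of_isClosed isClosed_Icc (isClosed_Ici (a := P.al / P.be))))
    (union_subset inter_subset_left inter_subset_left)).exists_isGreatest
    ⟨Z, Or.inl ⟨⟨le_rfl, hZ0⟩, hZout⟩⟩
  have hmI : m ∈ Icc Z 0 := hm.elim (fun h => h.1) (fun h => h.1)
  have hafter : ∀ x, m < x → x ≤ 0 → x ∈ inside P c t ∧ solTheta P c t x < P.al / P.be := by
    intro x hmx hx0
    refine ⟨?_, ?_⟩
    · by_contra hn
      exact absurd (hgr (Or.inl ⟨⟨hmI.1.trans hmx.le, hx0⟩, hn⟩)) (not_le.2 hmx)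
    · by_contra hn
      exact absurd (hgr (Or.inr ⟨⟨hmI.1.trans hmx.le, hx0⟩, not_lt.1 hn⟩)) (not_le.2 hmx)
  have hth_old : ∀ x ∈ Icc z1 0, solTheta P c t x < P.al / P.be := fun x hx => by
    simp only [solTheta, ← eold hx]; exact hth1 x hx
  have hmz1 : m < z1 := by
    by_contra hn
    have hm' : m ∈ Icc z1 0 := ⟨not_lt.1 hn, hmI.2⟩
    rcases hm with h | h
    · exact h.2 (hold hm')
    · exact absurd (hth_old m hm') (not_lt.2 h.2)
  have hbd : ∀ x, m < x → x ≤ z1 → (sol P c t x).2 ≤ M ∧ (sol P c t x).1 ≤ Mu := by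
    intro x hmx hxz
    have hx0 : x ≤ 0 := hxz.trans hz1neg.le
    have hin : Icc x 0 ⊆ inside P c t := fun y hy => (hafter y (hmx.trans_le hy.1) hy.2).1
    have hth : ∀ y ∈ Icc x 0, O.theta y ≤ P.al / P.be := fun y hy => by
      rw [← solTheta_eq hc00 (Icc_subset_dom_neg hin hy)]
      exact (hafter y (hmx.trans_le hy.1) hy.2).2.le
    have hxd : x ∈ O.dom := Icc_subset_dom_neg hin ⟨le_rfl, hx0⟩
    obtain ⟨eU1, eV1⟩ := av_sol_congr (c := c) (c' := c0) (t := t) (z := z1)
      (by rwa [uIcc_of_ge hz1neg.le]) (by rwa [uIcc_of_ge hz1neg.le])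
    have e := eold ⟨le_rfl, hz1neg.le⟩
    have hVM : (sol P c t x).2 ≤ M :=
      (hM0 O (congrArg Prod.fst e).symm (congrArg Prod.snd e).symm eU1 eV1 x hxd hxz hdel0 hth).trans
        (le_max_left _ _)
    refine ⟨hVM, ?_⟩
    have hpos : ∀ y ∈ Icc x 0, 0 < O.del y := O.del_pos_neg hxd hdel0 hth
    have hanti : AntitoneOn O.theta (Icc x 0) := by
      refine antitoneOn_of_hasDerivWithinAt_nonpos (convex_Icc x 0)
        (fun y hy => (O.hasDerivAt_theta (Icc_subset_dom_neg hin hy)).continuousAt.continuousWithinAt)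
        (fun y hy => (O.hasDerivAt_theta
          (Icc_subset_dom_neg hin (interior_subset hy))).hasDerivWithinAt) fun y hy => ?_
      have hy' := interior_subset hy
      have h1 := O.theta_pos (Icc_subset_dom_neg hin hy')
      have h2 := hpos y hy'
      have h3 : 0 < P.dim / (P.al * P.be) :=
        div_pos (zero_lt_two.trans P.two_lt_dim) (mul_pos hal hbe)
      have := mul_pos (mul_pos h3 h2) h1
      linarith
    have h1 := hanti (left_mem_Icc.2 hx0) (right_mem_Icc.2 hx0) hx0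
    rw [← solTheta_eq hc00 hxd, ← solTheta_eq hc00 O.zero_mem] at h1
    have h2 : solTheta P c t 0 = th0 := by simp only [hth0def, solTheta, sol_zero]
    rw [h2, solTheta] at h1
    have hU : 0 < (sol P c t x).1 := ht1.trans_le (fst_ge_of_nonpos hx0).1
    have hV : 0 ≤ (sol P c t x).2 := ht0.le.trans (fst_ge_of_nonpos hx0).2
    rw [le_div_iff₀ (Real.rpow_pos_of_pos hU _)] at h1
    have h3 : (sol P c t x).1 ^ (P.q + 1) ≤ M ^ (P.p + 1) / th0 := by
      rw [le_div_iff₀ hth0pos, mul_comm]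
      exact h1.trans (Real.rpow_le_rpow hV hVM (by linarith [P.p_pos]))
    calc (sol P c t x).1 = ((sol P c t x).1 ^ (P.q + 1)) ^ (1 / (P.q + 1)) := by
          rw [← Real.rpow_mul hU.le, mul_one_div, div_self (by linarith [P.q_pos]), Real.rpow_one]
      _ ≤ Mu := Real.rpow_le_rpow (Real.rpow_nonneg hU.le _) h3
          (div_nonneg zero_le_one (by linarith [P.q_pos]))
  have hev : ∀ᶠ x in 𝓝[>] m, m < x ∧ x ≤ z1 := by
    filter_upwards [self_mem_nhdsWithin,
      nhdsWithin_le_nhds (Iio_mem_nhds hmz1)] with x h1 h2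
    exact ⟨h1, le_of_lt h2⟩
  have hcs := continuous_sol_right P c t
  have hVm : (sol P c t m).2 ≤ M := le_of_tendsto
    ((hcs.snd.tendsto m).mono_left nhdsWithin_le_nhds) (hev.mono fun x hx => (hbd x hx.1 hx.2).1)
  have hUm : (sol P c t m).1 ≤ Mu := le_of_tendsto
    ((hcs.fst.tendsto m).mono_left nhdsWithin_le_nhds) (hev.mono fun x hx => (hbd x hx.1 hx.2).2)
  have hge := fst_ge_of_nonpos (P := P) (c := c) (t := t) hmI.2
  have hmin : m ∈ inside P c t :=
    ⟨⟨by linarith, show (sol P c t m).1 < hi by linarith [le_max_right (max c0.hi M) Mu]⟩,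
     ⟨by linarith, show (sol P c t m).2 < hi by
       linarith [le_max_left (max c0.hi M) Mu, le_max_right c0.hi M]⟩⟩
  have hmth : solTheta P c t m = P.al / P.be := by
    refine le_antisymm ?_ (hm.elim (fun h => absurd hmin h.2) (fun h => h.2))
    exact le_of_tendsto ((continuousAt_solTheta (ht1.trans_le hge.1)).tendsto.mono_left
      nhdsWithin_le_nhds) (hev.mono fun x hx => (hafter x hx.1 (hx.2.trans hz1neg.le)).2.le)
  have hIcc : Icc m 0 ⊆ inside P c t := fun y hy => by
    rcases hy.1.eq_or_lt with rfl | h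
    · exact hmin
    · exact (hafter y h hy.2).1
  refine ⟨c, m, hmz1.trans hz1neg, hIcc, hmth, fun z hz => (hafter z hz.1 hz.2).2, ?_⟩
  refine O.del_pos_neg (Icc_subset_dom_neg hIcc ⟨le_rfl, hmI.2⟩) hdel0 fun y hy => ?_
  rw [← solTheta_eq hc00 (Icc_subset_dom_neg hIcc hy)]
  rcases hy.1.eq_or_lt with rfl | h
  · exact hmth.le
  · exact (hafter y h hy.2).2.le

end

end Vale.Agent.P100.Ground
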