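import Vale.Agent.P100.Ground.Sign

/-! P100, critical ground state: the ratio `theta` tends to zero at infinity. -/

namespace Vale.Agent.P100.Ground

noncomputable section

open Set Filter Topology

/-- Barbalat: a function with a limit and bounded second derivative has a derivative tending to
zero. -/
lemma tendsto_deriv_zero {f f' f'' : ℝ → ℝ} {l K : ℝ} (hK : 0 ≤ K)
    (hf : ∀ x, 0 ≤ x → HasDerivAt f (f' x) x) (hf' : ∀ x, 0 ≤ x → HasDerivAt f' (f'' x) x)
    (hb : ∀ x, 0 ≤ x → |f'' x| ≤ K) (hl : Tendsto f atTop (𝓝 l)) :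
    Tendsto f' atTop (𝓝 0) := by
  rw [Metric.tendsto_atTop]
  intro e he
  obtain ⟨h, hh, hh'⟩ := exists_between (show 0 < e / (2 * (K + 1)) by positivity)
  have hKh : K * h < e / 2 := by
    have := (lt_div_iff₀ (by positivity : (0 : ℝ) < 2 * (K + 1))).1 hh'
    linarith
  obtain ⟨T, hT⟩ := Metric.tendsto_atTop.1 hl (e * h / 4) (by positivity)
  refine ⟨max T 0, fun x hx => ?_⟩
  obtain ⟨hxT, hx0⟩ := max_le_iff.1 hx
  obtain ⟨c, hc, hceq⟩ := exists_hasDerivAt_eq_slope f f' (show x < x + h by linarith)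
    (fun y hy => (hf y (hx0.trans hy.1)).continuousAt.continuousWithinAt)
    (fun y hy => hf y (hx0.trans hy.1.le))
  have h1 := hT x hxT
  have h2 := hT (x + h) (by linarith)
  rw [Real.dist_eq] at h1 h2
  have h3 : |f' c| < e / 2 := by
    rw [hceq, abs_div, abs_of_pos (show 0 < x + h - x by linarith), div_lt_iff₀ (by linarith)]
    have := abs_sub (f (x + h) - l) (f x - l)
    rw [sub_sub_sub_cancel_right] at this
    linarith
  have h4 : |f' x - f' c| ≤ K * h := by
    have h5 := (convex_Icc x (x + h)).norm_image_sub_le_of_norm_hasDerivWithin_le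
      (fun y hy => (hf' y (hx0.trans hy.1)).hasDerivWithinAt) (fun y hy => hb y (hx0.trans hy.1))
      ⟨hc.1.le, hc.2.le⟩ (left_mem_Icc.2 (by linarith))
    refine h5.trans (mul_le_mul_of_nonneg_left ?_ hK)
    rw [Real.norm_eq_abs, abs_sub_comm, abs_of_pos (by linarith [hc.1])]
    linarith [hc.2]
  rw [Real.dist_eq, sub_zero]
  have h6 := abs_sub_abs_le_abs_sub (f' x) (f' c)
  linarith

/-- The ratio tends to zero along an orbit which is global on the right, has a positive defect and
bounded `2 z b`. -/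
theorem Orb.theta_tendsto_zero {P : Par} (O : Orb P) (hdom : Ici 0 ⊆ O.dom)
    (hdel : ∀ z, 0 ≤ z → 0 < O.del z) (hbb : ∀ z, 0 ≤ z → O.bb z ≤ P.dim - 2)
    (hth : O.theta 0 < P.al / P.be) : Tendsto O.theta atTop (𝓝 0) := by
  have hal := P.al_pos
  have hbe := P.be_pos
  have hgap := sub_pos.2 P.be_lt
  have hN : 0 < P.dim := zero_lt_two.trans P.two_lt_dim
  set z : ℝ → ℝ := Real.exp with hzdef
  have hz : ∀ x, z x ∈ O.dom := fun x => hdom (Real.exp_pos x).le
  set A := fun x => 2 * z x * O.a (z x) with hA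
  set B := fun x => 2 * z x * O.b (z x) with hB
  set Q := fun x => z x * O.qt (z x) with hQ
  set R := fun x => z x * O.pt (z x) with hR
  have dA : ∀ x, HasDerivAt A ((R x - (P.dim - 2) * A x + A x ^ 2) / 2) x := fun x => by
    have h := (((Real.hasDerivAt_exp x).const_mul 2).mul
      ((O.hasDerivAt_a (hz x)).comp x (Real.hasDerivAt_exp x)))
    refine h.congr_deriv ?_
    simp only [hA, hR, hzdef, Function.comp_apply]
    linear_combination Real.exp x * O.eq_a (hz x)
  have dB : ∀ x, HasDerivAt B ((Q x - (P.dim - 2) * B x + B x ^ 2) / 2) x := fun x => by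
    have h := (((Real.hasDerivAt_exp x).const_mul 2).mul
      ((O.hasDerivAt_b (hz x)).comp x (Real.hasDerivAt_exp x)))
    refine h.congr_deriv ?_
    simp only [hB, hQ, hzdef, Function.comp_apply]
    linear_combination Real.exp x * O.eq_b (hz x)
  have dR : ∀ x, HasDerivAt R (R x * (1 + (A x - P.p * B x) / 2)) x := fun x => by
    have h := ((Real.hasDerivAt_exp x).mul
      ((O.hasDerivAt_pt (hz x)).comp x (Real.hasDerivAt_exp x)))
    refine h.congr_deriv ?_
    simp only [hR, hA, hB, hzdef, Function.comp_apply]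
    ring
  have dQ : ∀ x, HasDerivAt Q (Q x * (1 + (B x - P.q * A x) / 2)) x := fun x => by
    have h := ((Real.hasDerivAt_exp x).mul
      ((O.hasDerivAt_qt (hz x)).comp x (Real.hasDerivAt_exp x)))
    refine h.congr_deriv ?_
    simp only [hQ, hA, hB, hzdef, Function.comp_apply]
    ring
  have poh : ∀ x, A x * B x + (P.be * R x + P.al * Q x) / P.dim = P.be * A x + P.al * B x := fun x => by
    simp only [hA, hB, hQ, hR]
    linear_combination z x * O.poh_rates (hz x)
  have pA : ∀ x, 0 < A x := fun x =>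
    mul_pos (mul_pos two_pos (Real.exp_pos x)) (O.a_pos (hz x))
  have pB : ∀ x, 0 < B x := fun x =>
    mul_pos (mul_pos two_pos (Real.exp_pos x)) (O.b_pos (hz x))
  have pQ : ∀ x, 0 < Q x := fun x => mul_pos (Real.exp_pos x) (O.qt_pos (hz x))
  have pR : ∀ x, 0 < R x := fun x => mul_pos (Real.exp_pos x) (O.pt_pos (hz x))
  set C := P.dim + P.al / P.be * P.dim with hC
  set C' := (P.be * C + P.al * C) * P.dim / P.be with hC'
  have bd : ∀ x, A x ∈ Icc 0 C ∧ B x ∈ Icc 0 C ∧ R x ∈ Icc 0 C' ∧ Q x ∈ Icc 0 C' := by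
    intro x
    have hb : B x ≤ P.dim - 2 := hbb _ (Real.exp_pos x).le
    have hCB : P.dim ≤ C := le_add_of_nonneg_right (by positivity)
    have hd := mul_pos (mul_pos two_pos (Real.exp_pos x)) (hdel _ (Real.exp_pos x).le)
    have hd' : P.be * A x ≤ P.al * B x := by
      simp only [Orb.del] at hd
      simp only [hA, hB, hzdef]
      linarith
    have ha : A x ≤ C := by
      refine le_trans ?_ (le_add_of_nonneg_left hN.le)
      rw [div_mul_eq_mul_div, le_div_iff₀ hbe]
      have := mul_le_mul_of_nonneg_left hb hal.le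
      linarith
    have hsum : P.be * R x + P.al * Q x ≤ (P.be * C + P.al * C) * P.dim := by
      have h := poh x
      have h1 : (P.be * R x + P.al * Q x) / P.dim ≤ P.be * C + P.al * C := by
        have := mul_pos (pA x) (pB x)
        have := mul_le_mul_of_nonneg_left ha hbe.le
        have := mul_le_mul_of_nonneg_left (show B x ≤ C by linarith) hal.le
        linarith
      exact (div_le_iff₀ hN).1 h1
    refine ⟨⟨(pA x).le, ha⟩, ⟨(pB x).le, by linarith⟩, ⟨(pR x).le, ?_⟩, ⟨(pQ x).le, ?_⟩⟩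
    · rw [le_div_iff₀ hbe]
      have := mul_pos hal (pQ x)
      linarith
    · rw [le_div_iff₀ hbe]
      have := mul_pos hbe (pR x)
      have := mul_le_mul_of_nonneg_right P.be_lt.le (pQ x).le
      linarith
  have bounded : ∀ F : ℝ × ℝ × ℝ × ℝ → ℝ, Continuous F →
      ∃ K, 0 ≤ K ∧ ∀ x, |F (A x, B x, R x, Q x)| ≤ K := by
    intro F hF
    obtain ⟨K, hK⟩ := ((isCompact_Icc (a := (0 : ℝ)) (b := C)).prod
      ((isCompact_Icc (a := (0 : ℝ)) (b := C)).prod ((isCompact_Icc (a := (0 : ℝ)) (b := C')).prod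
        (isCompact_Icc (a := (0 : ℝ)) (b := C'))))).exists_bound_of_continuousOn hF.continuousOn
    exact ⟨max K 0, le_max_right _ _, fun x => (hK (A x, B x, R x, Q x)
      ⟨(bd x).1, (bd x).2.1, (bd x).2.2.1, (bd x).2.2.2⟩).trans (le_max_left _ _)⟩
  -- the limit of theta
  have hanti : StrictAntiOn O.theta (Ici 0) := by
    refine strictAntiOn_of_hasDerivWithinAt_neg (convex_Ici 0)
      (fun y hy => (O.hasDerivAt_theta (hdom hy)).continuousAt.continuousWithinAt)
      (fun y hy => (O.hasDerivAt_theta (hdom (interior_subset hy))).hasDerivWithinAt) fun y hy => ?_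
    have hy' := interior_subset hy
    have := mul_pos (mul_pos (show 0 < P.dim / (P.al * P.be) by positivity) (hdel y hy'))
      (O.theta_pos (hdom hy'))
    linarith
  set L := ⨅ y : Ici (0 : ℝ), O.theta y with hL
  have hbb' : BddBelow (range fun y : Ici (0 : ℝ) => O.theta y) :=
    ⟨0, by rintro _ ⟨y, rfl⟩; exact (O.theta_pos (hdom y.2)).le⟩
  have hlim : Tendsto O.theta atTop (𝓝 L) := by
    refine (tendsto_comp_val_Ici_atTop (a := (0 : ℝ))).1 ?_
    exact tendsto_atTop_ciInf (fun a b hab => hanti.antitoneOn a.2 b.2 hab) hbb'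
  have hL0 : 0 ≤ L := le_ciInf fun y => (O.theta_pos (hdom y.2)).le
  rcases hL0.eq_or_lt with h | hLpos
  · rwa [h]
  exfalso
  have hLlt : L < P.al / P.be :=
    (ciInf_le hbb' ⟨0, self_mem_Ici⟩).trans_lt hth
  have hth' : Tendsto (fun x => O.theta (z x)) atTop (𝓝 L) := hlim.comp Real.tendsto_exp_atTop
  have hF : Tendsto (fun x => Real.log (O.theta (z x))) atTop (𝓝 (Real.log L)) :=
    ((Real.continuousAt_log hLpos.ne').tendsto).comp hth'
  set d := fun x => P.al * B x - P.be * A x with hd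
  set d' := fun x => P.al * ((Q x - (P.dim - 2) * B x + B x ^ 2) / 2)
    - P.be * ((R x - (P.dim - 2) * A x + A x ^ 2) / 2) with hd'
  have dd : ∀ x, HasDerivAt d (d' x) x := fun x =>
    ((dB x).const_mul P.al).sub ((dA x).const_mul P.be)
  have dF : ∀ x, HasDerivAt (fun x => Real.log (O.theta (z x)))
      (-(P.dim / (2 * P.al * P.be)) * d x) x := fun x => by
    refine (((O.hasDerivAt_theta (hz x)).comp x (Real.hasDerivAt_exp x)).log
      (O.theta_pos (hz x)).ne').congr_deriv ?_
    have := (O.theta_pos (hz x)).ne'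
    simp only [hd, hA, hB, hzdef, Orb.del, Function.comp_apply] at *
    field_simp
  obtain ⟨K1, hK1, hK1'⟩ := bounded (fun v => -(P.dim / (2 * P.al * P.be)) *
    (P.al * ((v.2.2.2 - (P.dim - 2) * v.2.1 + v.2.1 ^ 2) / 2)
      - P.be * ((v.2.2.1 - (P.dim - 2) * v.1 + v.1 ^ 2) / 2))) (by fun_prop)
  have hd0 : Tendsto d atTop (𝓝 0) := by
    have h := tendsto_deriv_zero hK1 (fun x _ => dF x) (fun x _ => (dd x).const_mul _)
      (fun x _ => hK1' x) hF
    have hc : -(P.dim / (2 * P.al * P.be)) ≠ 0 := neg_ne_zero.2 (by positivity)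
    refine ((h.const_mul (-(P.dim / (2 * P.al * P.be)))⁻¹).congr fun x => ?_).trans (by simp)
    rw [inv_mul_cancel_left₀ hc]
  set d'' := fun x => P.al * ((Q x * (1 + (B x - P.q * A x) / 2)
      - (P.dim - 2) * ((Q x - (P.dim - 2) * B x + B x ^ 2) / 2)
      + 2 * B x * ((Q x - (P.dim - 2) * B x + B x ^ 2) / 2)) / 2)
    - P.be * ((R x * (1 + (A x - P.p * B x) / 2)
      - (P.dim - 2) * ((R x - (P.dim - 2) * A x + A x ^ 2) / 2)
      + 2 * A x * ((R x - (P.dim - 2) * A x + A x ^ 2) / 2)) / 2) with hd''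
  have dd' : ∀ x, HasDerivAt d' (d'' x) x := fun x => by
    refine ((((((dQ x).sub ((dB x).const_mul (P.dim - 2))).add ((dB x).pow 2)).div_const 2).const_mul
      P.al).sub (((((dR x).sub ((dA x).const_mul (P.dim - 2))).add ((dA x).pow 2)).div_const
        2).const_mul P.be)).congr_deriv ?_
    simp only [hd'']
    ring
  obtain ⟨K2, hK2, hK2'⟩ := bounded (fun v => P.al * ((v.2.2.2 * (1 + (v.2.1 - P.q * v.1) / 2)
      - (P.dim - 2) * ((v.2.2.2 - (P.dim - 2) * v.2.1 + v.2.1 ^ 2) / 2)
      + 2 * v.2.1 * ((v.2.2.2 - (P.dim - 2) * v.2.1 + v.2.1 ^ 2) / 2)) / 2)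
    - P.be * ((v.2.2.1 * (1 + (v.1 - P.p * v.2.1) / 2)
      - (P.dim - 2) * ((v.2.2.1 - (P.dim - 2) * v.1 + v.1 ^ 2) / 2)
      + 2 * v.1 * ((v.2.2.1 - (P.dim - 2) * v.1 + v.1 ^ 2) / 2)) / 2)) (by fun_prop)
  have hd'0 : Tendsto d' atTop (𝓝 0) :=
    tendsto_deriv_zero hK2 (fun x _ => dd x) (fun x _ => dd' x) (fun x _ => hK2' x) hd0
  -- bounded factors
  have bmul : ∀ (F : ℝ × ℝ × ℝ × ℝ → ℝ) (g : ℝ → ℝ), Continuous F → Tendsto g atTop (𝓝 0) →
      Tendsto (fun x => F (A x, B x, R x, Q x) * g x) atTop (𝓝 0) := by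
    intro F g hF hg
    obtain ⟨K, -, hK⟩ := bounded F hF
    refine squeeze_zero_norm (fun x => ?_) (by simpa using (hg.norm.const_mul K))
    rw [norm_mul]
    exact mul_le_mul_of_nonneg_right (hK x) (norm_nonneg _)
  have hRQ : ∀ x, R x = O.theta (z x) * Q x := fun x => by
    simp only [hR, hQ]; rw [O.pt_eq (hz x)]; ring
  have hthd : Tendsto (fun x => O.theta (z x) - L) atTop (𝓝 0) := by
    simpa using hth'.sub_const L
  have hgapL : 0 < P.al - P.be * L := by
    have := (lt_div_iff₀ hbe).1 hLlt; linarith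
  set Cs := P.be / P.al * (P.al - P.be) with hCs
  -- the forcing vanishes
  have e1 : Tendsto (fun x => (P.al - P.be * L) * Q x - Cs * A x ^ 2) atTop (𝓝 0) := by
    have h1 := bmul (fun v => P.be * v.2.2.2) _ (by fun_prop) hthd
    have h2 := bmul (fun v => (P.dim - 2) - v.2.1 - P.be / P.al * v.1) _ (by fun_prop) hd0
    refine (((hd'0.const_mul 2).add h1).add h2).congr (fun x => ?_) |>.trans (by simp)
    simp only [hd', hd, hCs, hRQ x]
    field_simp
    ring
  set k := P.be / P.al + (P.be * L + P.al) * Cs / (P.dim * (P.al - P.be * L)) with hk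
  have e2 : Tendsto (fun x => A x * (k * A x - 2 * P.be)) atTop (𝓝 0) := by
    have h1 := bmul (fun v => P.be * v.2.2.2 / P.dim) _ (by fun_prop) hthd
    have h2 := bmul (fun v => v.1 / P.al - 1) _ (by fun_prop) hd0
    have h3 := e1.const_mul ((P.be * L + P.al) / (P.dim * (P.al - P.be * L)))
    refine ((h1.neg.sub h2).sub h3).congr (fun x => ?_) |>.trans (by simp)
    have hp := poh x
    simp only [hd, hk, hRQ x] at hp ⊢
    field_simp at hp ⊢
    linear_combination -(P.al - P.be * L) * P.al * hp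
  set A' := fun x => (R x - (P.dim - 2) * A x + A x ^ 2) / 2 with hA'
  set A'' := fun x => (R x * (1 + (A x - P.p * B x) / 2) - (P.dim - 2) * A' x + 2 * A x * A' x) / 2
    with hA''
  have dA' : ∀ x, HasDerivAt A' (A'' x) x := fun x => by
    refine ((((dR x).sub ((dA x).const_mul (P.dim - 2))).add ((dA x).pow 2)).div_const 2).congr_deriv ?_
    simp only [hA'', hA']
    ring
  obtain ⟨K3, hK3, hK3'⟩ := bounded (fun v => 2 * k * ((v.2.2.1 - (P.dim - 2) * v.1 + v.1 ^ 2) / 2) *
      ((v.2.2.1 - (P.dim - 2) * v.1 + v.1 ^ 2) / 2) + (2 * k * v.1 - 2 * P.be) *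
      ((v.2.2.1 * (1 + (v.1 - P.p * v.2.1) / 2)
        - (P.dim - 2) * ((v.2.2.1 - (P.dim - 2) * v.1 + v.1 ^ 2) / 2)
        + 2 * v.1 * ((v.2.2.1 - (P.dim - 2) * v.1 + v.1 ^ 2) / 2)) / 2)) (by fun_prop)
  have e3 : Tendsto (fun x => (2 * k * A x - 2 * P.be) * A' x) atTop (𝓝 0) :=
    tendsto_deriv_zero hK3
      (fun x _ => ((dA x).mul (((dA x).const_mul k).sub_const (2 * P.be))).congr_deriv (by
        simp only [hA']; ring))
      (fun x _ => ((((dA x).const_mul (2 * k)).sub_const (2 * P.be)).mul (dA' x))) (fun x _ => hK3' x) e2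
  have hA'0 : Tendsto A' atTop (𝓝 0) := by
    have h1 := bmul (fun v => 2 * k * v.1 - 2 * P.be) _ (by fun_prop) e3
    have h2 := bmul (fun v => 4 * k * ((v.2.2.1 - (P.dim - 2) * v.1 + v.1 ^ 2) / 2)) _
      (by fun_prop) e2
    have hne : (4 * P.be ^ 2) ≠ 0 := by positivity
    refine ((h1.sub h2).div_const (4 * P.be ^ 2)).congr (fun x => ?_) |>.trans (by simp)
    simp only [hA']
    field_simp
    ring
  have e4 : Tendsto (fun x => A x * (A x - 2 * P.al)) atTop (𝓝 0) := by
    have h1 := hA'0.const_mul (2 * P.be / P.dim)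
    have hB' : Tendsto (fun x => (Q x - (P.dim - 2) * B x + B x ^ 2) / 2) atTop (𝓝 0) := by
      refine ((hd'0.add (hA'0.const_mul P.be)).div_const P.al).congr (fun x => ?_) |>.trans (by simp)
      simp only [hd', hA']
      field_simp
      ring
    have h2 := hB'.const_mul (2 * P.al / P.dim)
    have h3 := bmul (fun v => v.1 / P.al + (P.dim - 2) / P.dim - 1
      - (v.2.1 + P.be / P.al * v.1) / P.dim) _ (by fun_prop) hd0
    have hc : (2 * P.be / (P.al * P.dim)) ≠ 0 := by positivity
    refine (((h1.add h2).add h3).neg.div_const (2 * P.be / (P.al * P.dim))).congr (fun x => ?_)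
      |>.trans (by simp)
    have hp := poh x
    have hdd : P.dim = P.al + P.be + 2 := rfl
    simp only [hd, hA'] at hp ⊢
    rw [hdd] at hp hN ⊢
    field_simp at hp ⊢
    linear_combination -P.al * hp
  have hA0 : Tendsto A atTop (𝓝 0) := by
    have hks : P.be < P.al * k := by
      have : 0 < (P.be * L + P.al) * Cs / (P.dim * (P.al - P.be * L)) := by
        rw [hCs]; positivity
      rw [hk, mul_add, mul_div_cancel₀ _ hal.ne']
      linarith [mul_pos hal this]
    have hne : 2 * P.al * k - 2 * P.be ≠ 0 := by intro h; linarith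
    refine ((e2.sub (e4.const_mul k)).div_const (2 * P.al * k - 2 * P.be)).congr (fun x => ?_)
      |>.trans (by simp)
    rw [div_eq_iff hne]
    ring
  have hB0 : Tendsto B atTop (𝓝 0) := by
    refine ((hd0.add (hA0.const_mul P.be)).div_const P.al).congr (fun x => ?_) |>.trans (by simp)
    simp only [hd]
    field_simp
    ring
  have hR0 : Tendsto R atTop (𝓝 0) := by
    refine ((hA'0.const_mul 2).add (bmul (fun v => (P.dim - 2) - v.1) _ (by fun_prop) hA0)).congr
      (fun x => ?_) |>.trans (by simp)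
    simp only [hA']
    ring
  have hpos : ∀ᶠ x in atTop, 0 < 1 + (A x - P.p * B x) / 2 := by
    have : Tendsto (fun x => 1 + (A x - P.p * B x) / 2) atTop (𝓝 1) := by
      simpa using ((hA0.sub (hB0.const_mul P.p)).div_const 2).const_add 1
    exact this.eventually_const_lt zero_lt_one
  obtain ⟨T, hT⟩ := eventually_atTop.1 hpos
  have hmono : MonotoneOn R (Ici T) := monotoneOn_of_hasDerivWithinAt_nonneg (convex_Ici T)
    (fun x _ => (dR x).continuousAt.continuousWithinAt) (fun x _ => (dR x).hasDerivWithinAt)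
    (fun x hx => mul_nonneg (pR x).le (hT x (interior_subset (s := Ici T) hx)).le)
  have := ge_of_tendsto hR0 ((eventually_ge_atTop T).mono fun x hx =>
    hmono self_mem_Ici hx hx)
  linarith [pR T]

end

end Vale.Agent.P100.Ground
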