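import Vale.Agent.P100.Ground.Cont
import Vale.Agent.P100.Ground.Decay

/-! P100: the critical ground state in real dimension `al + be + 2`, continued to `z = r ^ 2 < 0` up
to the level `theta = al / be`, with a monotone ratio `theta`. -/

namespace Vale.Agent.P100.Ground

noncomputable section

open Set Filter Topology

variable (P : Par)

/-- The ground state: an orbit on `(zl, ∞)` whose ratio `theta` decreases from above `al / be` to
zero. -/
structure GroundState where
  /-- The orbit. -/
  O : Orb P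
  /-- Left end of the domain. -/
  zl : ℝ
  /-- The point where `theta = al / be`. -/
  zs : ℝ
  dom_eq : O.dom = Ioi zl
  zl_lt : zl < zs
  zs_lt : zs < 0
  normal : O.U 0 + O.V 0 = 1
  del_pos : ∀ z, zl < z → 0 < O.del z
  theta_zs : O.theta zs = P.al / P.be
  theta_anti : StrictAntiOn O.theta (Ioi zl)
  theta_lim : Tendsto O.theta atTop (𝓝 0)
  bb_le : ∀ z, 0 ≤ z → O.bb z ≤ P.dim - 2

theorem exists_groundState : Nonempty (GroundState P) := by
  classical
  obtain ⟨t, ht, hshot⟩ := exists_shot P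
  choose K0 hK0 hK0' using fun y : ℝ => hshot (max y 0) (le_max_right _ _)
  have h00 : (0 : ℝ) ∈ inside P (K0 0) t := hK0 0 ⟨le_rfl, le_max_right _ _⟩
  obtain ⟨cm, zs, hzs, hinm, hths, hthlt, hdm⟩ :=
    exists_cont h00 (hK0' 0 0 ⟨le_rfl, le_max_right _ _⟩).1
  have hopen : ∀ᶠ y in 𝓝 zs, y ∈ inside P cm t ∧ 0 < solDel P cm t y := by
    refine ((isOpen_inside P cm t).eventually_mem (hinm ⟨le_rfl, hzs.le⟩)).and ?_
    have hm : Tendsto (fun y : ℝ => ((t, y) : ℝ × ℝ)) (𝓝 zs) (𝓝 (t, zs)) :=
      (continuous_const.prodMk continuous_id).tendsto zs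
    exact (Tendsto.comp (continuousAt_solDel P cm (hinm ⟨le_rfl, hzs.le⟩)) hm).eventually_const_lt
      (hdm zs ⟨le_rfl, hzs.le⟩)
  obtain ⟨e, he, hball⟩ := Metric.eventually_nhds_iff.1 hopen
  set zl := zs - e with hzl
  have hneg : ∀ y, zl < y → y ≤ 0 → y ∈ inside P cm t ∧ 0 < solDel P cm t y := by
    intro y h1 h2
    rcases le_or_gt zs y with h | h
    · exact ⟨hinm ⟨h, h2⟩, hdm y ⟨h, h2⟩⟩
    · exact hball (by rw [Real.dist_eq, abs_of_neg (by linarith)]; linarith)
  let K : ℝ → Clamp := fun y => if y ≤ 0 then cm else K0 y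
  have hseg : ∀ y, zl < y → uIcc 0 y ⊆ inside P (K y) t := by
    intro y hy x hx
    by_cases h : y ≤ 0
    · rw [uIcc_of_ge h] at hx
      simp only [K, if_pos h]
      exact (hneg x (hy.trans_le hx.1) hx.2).1
    · rw [uIcc_of_le (le_of_not_ge h)] at hx
      simp only [K, if_neg h]
      exact hK0 y ⟨hx.1, hx.2.trans (le_max_left _ _)⟩
  have hK00 : ∀ y, zl < y → (0 : ℝ) ∈ inside P (K y) t := fun y hy => hseg y hy left_mem_uIcc
  let U := fun y => (sol P (K y) t y).1
  let V := fun y => (sol P (K y) t y).2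
  let U1 := fun y => solU1 P (K y) t y
  let V1 := fun y => solV1 P (K y) t y
  let U2 := fun y => -(av (P.dim + 2) (srcU1 P (K y) t) y) / 2
  let V2 := fun y => -(av (P.dim + 2) (srcV1 P (K y) t) y) / 2
  -- near every point one clamp suffices
  have local0 : ∀ z, zl < z → ∀ y, zl < y → y ∈ dom P (K z) t →
      sol P (K y) t y = sol P (K z) t y ∧ solU1 P (K y) t y = solU1 P (K z) t y ∧
        solV1 P (K y) t y = solV1 P (K z) t y := by
    intro z hz y hy hyd
    have h' : uIcc 0 y ⊆ inside P (K z) t := fun x hx => dom_subset P (K z) t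
      ((orb P (K z) t (hK00 z hz)).conn.uIcc_subset (orb P (K z) t (hK00 z hz)).zero_mem hyd hx)
    exact ⟨sol_eq_of_inside (hseg y hy) h' right_mem_uIcc, av_sol_congr (hseg y hy) h'⟩
  have near : ∀ z, zl < z → ∀ᶠ y in 𝓝 z, zl < y ∧ y ∈ dom P (K z) t := fun z hz =>
    (eventually_gt_nhds hz).and
      ((orb P (K z) t (hK00 z hz)).isOpen.eventually_mem (mem_dom P (K z) t (hseg z hz)))
  have local2 : ∀ z (hz : zl < z), ∀ y, zl < y → y ∈ dom P (K z) t →
      U2 y = (orb P (K z) t (hK00 z hz)).U2 y ∧ V2 y = (orb P (K z) t (hK00 z hz)).V2 y := by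
    intro z hz y hy hyd
    let Oy := orb P (K y) t (hK00 y hy)
    let Oz := orb P (K z) t (hK00 z hz)
    have hev : ∀ᶠ x in 𝓝 y, solU1 P (K y) t x = solU1 P (K z) t x ∧
        solV1 P (K y) t x = solV1 P (K z) t x := by
      filter_upwards [near y hy, Oz.isOpen.eventually_mem hyd] with x hx hxz
      obtain ⟨-, a1, b1⟩ := local0 y hy x hx.1 hx.2
      obtain ⟨-, a2, b2⟩ := local0 z hz x hx.1 hxz
      exact ⟨a1.symm.trans a2, b1.symm.trans b2⟩
    exact ⟨(Oy.hU1 y (mem_dom P (K y) t (hseg y hy))).unique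
        ((Oz.hU1 y hyd).congr_of_eventuallyEq (hev.mono fun x hx => hx.1)),
      (Oy.hV1 y (mem_dom P (K y) t (hseg y hy))).unique
        ((Oz.hV1 y hyd).congr_of_eventuallyEq (hev.mono fun x hx => hx.2))⟩
  let O : Orb P :=
    { dom := Ioi zl
      U := U
      V := V
      U1 := U1
      V1 := V1
      U2 := U2
      V2 := V2
      isOpen := isOpen_Ioi
      conn := ordConnected_Ioi
      zero_mem := by change zl < 0; linarith
      posU := fun z hz => (K z).lo_pos.trans (hseg z hz right_mem_uIcc).1.1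
      posV := fun z hz => (K z).lo_pos.trans (hseg z hz right_mem_uIcc).2.1
      hU := fun z hz => (hasDerivAt_solU P (K z) t z).congr_of_eventuallyEq
        ((near z hz).mono fun y hy => congrArg Prod.fst (local0 z hz y hy.1 hy.2).1)
      hV := fun z hz => (hasDerivAt_solV P (K z) t z).congr_of_eventuallyEq
        ((near z hz).mono fun y hy => congrArg Prod.snd (local0 z hz y hy.1 hy.2).1)
      hU1 := fun z hz => ((orb P (K z) t (hK00 z hz)).hU1 z
        (mem_dom P (K z) t (hseg z hz))).congr_of_eventuallyEq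
        ((near z hz).mono fun y hy => (local0 z hz y hy.1 hy.2).2.1)
      hV1 := fun z hz => ((orb P (K z) t (hK00 z hz)).hV1 z
        (mem_dom P (K z) t (hseg z hz))).congr_of_eventuallyEq
        ((near z hz).mono fun y hy => (local0 z hz y hy.1 hy.2).2.2)
      contU2 := fun z hz => (((orb P (K z) t (hK00 z hz)).contU2.continuousAt
        ((orb P (K z) t (hK00 z hz)).isOpen.mem_nhds (mem_dom P (K z) t (hseg z hz)))).congr
        ((near z hz).mono fun y hy => (local2 z hz y hy.1 hy.2).1.symm)).continuousWithinAt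
      contV2 := fun z hz => (((orb P (K z) t (hK00 z hz)).contV2.continuousAt
        ((orb P (K z) t (hK00 z hz)).isOpen.mem_nhds (mem_dom P (K z) t (hseg z hz)))).congr
        ((near z hz).mono fun y hy => (local2 z hz y hy.1 hy.2).2.symm)).continuousWithinAt
      negU := fun z _ => solU1_neg P (K z) t z
      negV := fun z _ => solV1_neg P (K z) t z
      odeU := fun z hz => (orb P (K z) t (hK00 z hz)).odeU z (mem_dom P (K z) t (hseg z hz))
      odeV := fun z hz => (orb P (K z) t (hK00 z hz)).odeV z (mem_dom P (K z) t (hseg z hz)) }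
  have hdel : ∀ z, zl < z → 0 < O.del z := by
    intro z hz
    change 0 < solDel P (K z) t z
    by_cases h : z ≤ 0
    · simp only [K, if_pos h]
      exact (hneg z hz h).2
    · simp only [K, if_neg h]
      exact (hK0' z z ⟨le_of_not_ge h, le_max_left _ _⟩).1
  have hbb : ∀ z, 0 ≤ z → O.bb z ≤ P.dim - 2 := by
    intro z hz
    change solBB P (K z) t z ≤ P.dim - 2
    rcases hz.eq_or_lt with rfl | h
    · simp only [solBB, mul_zero, zero_mul]
      linarith [P.two_lt_dim]
    · simp only [K, if_neg (not_le.2 h)]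
      exact (hK0' z z ⟨hz, le_max_left _ _⟩).2
  have hzlzs : zl < zs := by linarith
  have hanti : StrictAntiOn O.theta (Ioi zl) :=
    strictAntiOn_of_hasDerivWithinAt_neg (convex_Ioi zl)
      (fun y hy => (O.hasDerivAt_theta hy).continuousAt.continuousWithinAt)
      (fun y hy => (O.hasDerivAt_theta (interior_subset (s := Ioi zl) hy)).hasDerivWithinAt)
      fun y hy => by
        have hy' := interior_subset (s := Ioi zl) hy
        have h3 : 0 < P.dim / (P.al * P.be) :=
          div_pos (zero_lt_two.trans P.two_lt_dim) (mul_pos P.al_pos P.be_pos)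
        have := mul_pos (mul_pos h3 (hdel y hy')) (O.theta_pos hy')
        linarith
  have hKzs : K zs = cm := if_pos hzs.le
  have hths' : O.theta zs = P.al / P.be := by
    rw [O.theta_eq hzlzs, ← hths]
    simp only [O, U, V, hKzs, solTheta]
  have hlim : Tendsto O.theta atTop (𝓝 0) :=
    O.theta_tendsto_zero (fun y (hy : 0 ≤ y) => show zl < y by linarith)
      (fun y hy => hdel y (by linarith)) hbb
      (hths' ▸ hanti (show zs ∈ Ioi zl from hzlzs) (show (0 : ℝ) ∈ Ioi zl by
        change zl < 0; linarith) hzs)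
  refine ⟨⟨O, zl, zs, rfl, hzlzs, hzs, ?_, hdel, hths', hanti, hlim, hbb⟩⟩
  change (sol P (K 0) t 0).1 + (sol P (K 0) t 0).2 = 1
  rw [sol_zero]
  ring

/-- Every ratio below `al / be` is attained exactly once at or to the right of `zs`. -/
theorem GroundState.existsUnique_theta {P : Par} (G : GroundState P) {y : ℝ} (hy : 0 < y)
    (hy' : y ≤ P.al / P.be) : ∃! z, G.zs ≤ z ∧ G.O.theta z = y := by
  have hsub : ∀ z, G.zs ≤ z → z ∈ G.O.dom := fun z hz => by
    rw [G.dom_eq]; exact G.zl_lt.trans_le hz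
  obtain ⟨T, hT, hTz⟩ :=
    ((G.theta_lim.eventually_lt_const hy).and (eventually_ge_atTop G.zs)).exists
  obtain ⟨z, hz, hzy⟩ := intermediate_value_Icc' hTz
    (fun x hx => (G.O.hasDerivAt_theta (hsub x hx.1)).continuousAt.continuousWithinAt)
    ⟨hT.le, G.theta_zs.symm ▸ hy'⟩
  refine ⟨z, ⟨hz.1, hzy⟩, fun w hw => ?_⟩
  exact G.theta_anti.injOn (G.zl_lt.trans_le hw.1) (G.zl_lt.trans_le hz.1) (hw.2.trans hzy.symm)

end

end Vale.Agent.P100.Ground
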