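import Vale.Agent.P100.Ground.Picard

/-! P100, critical ground state: pointwise identities along an orbit of the radial system written in
`z = r ^ 2`. -/

namespace Vale.Agent.P100.Ground

noncomputable section

open Set Filter Topology

/-- An orbit: a positive solution of `4 z U'' + 2 N U' = - V ^ p`, `4 z V'' + 2 N V' = - U ^ q` on an
open interval around zero. -/
structure Orb (P : Par) where
  /-- Domain. -/
  dom : Set ℝ
  /-- First component. -/
  U : ℝ → ℝ
  /-- Second component. -/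
  V : ℝ → ℝ
  /-- Derivative of `U`. -/
  U1 : ℝ → ℝ
  /-- Derivative of `V`. -/
  V1 : ℝ → ℝ
  /-- Second derivative of `U`. -/
  U2 : ℝ → ℝ
  /-- Second derivative of `V`. -/
  V2 : ℝ → ℝ
  isOpen : IsOpen dom
  conn : dom.OrdConnected
  zero_mem : (0 : ℝ) ∈ dom
  posU : ∀ z ∈ dom, 0 < U z
  posV : ∀ z ∈ dom, 0 < V z
  hU : ∀ z ∈ dom, HasDerivAt U (U1 z) z
  hV : ∀ z ∈ dom, HasDerivAt V (V1 z) z
  hU1 : ∀ z ∈ dom, HasDerivAt U1 (U2 z) z
  hV1 : ∀ z ∈ dom, HasDerivAt V1 (V2 z) z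
  contU2 : ContinuousOn U2 dom
  contV2 : ContinuousOn V2 dom
  negU : ∀ z ∈ dom, U1 z < 0
  negV : ∀ z ∈ dom, V1 z < 0
  odeU : ∀ z ∈ dom, 4 * z * U2 z + 2 * P.dim * U1 z = -(V z ^ P.p)
  odeV : ∀ z ∈ dom, 4 * z * V2 z + 2 * P.dim * V1 z = -(U z ^ P.q)

namespace Orb

variable {P : Par} (O : Orb P)

/-- Logarithmic decay rate of `U`. -/
def a (z : ℝ) : ℝ := -O.U1 z / O.U z

/-- Logarithmic decay rate of `V`. -/
def b (z : ℝ) : ℝ := -O.V1 z / O.V z

/-- Derivative of `a`. -/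
def a1 (z : ℝ) : ℝ := -O.U2 z / O.U z + O.a z ^ 2

/-- Derivative of `b`. -/
def b1 (z : ℝ) : ℝ := -O.V2 z / O.V z + O.b z ^ 2

/-- Reaction rate of `U`. -/
def pt (z : ℝ) : ℝ := O.V z ^ P.p / O.U z

/-- Reaction rate of `V`. -/
def qt (z : ℝ) : ℝ := O.U z ^ P.q / O.V z

/-- The ratio `V ^ (p + 1) / U ^ (q + 1)`. -/
def theta (z : ℝ) : ℝ := O.pt z / O.qt z

/-- The monotonicity defect. -/
def del (z : ℝ) : ℝ := P.al * O.b z - P.be * O.a z

/-- Derivative of the defect. -/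
def del1 (z : ℝ) : ℝ := P.al * O.b1 z - P.be * O.a1 z

/-- Forcing of the defect. -/
def frc (z : ℝ) : ℝ :=
  (P.al * O.qt z - P.be * O.pt z) / 2 + 2 * z * (P.al * O.b z ^ 2 - P.be * O.a z ^ 2)

/-- Derivative of the forcing. -/
def frc1 (z : ℝ) : ℝ :=
  (P.al * (O.qt z * (O.b z - P.q * O.a z)) - P.be * (O.pt z * (O.a z - P.p * O.b z))) / 2
    + 2 * (P.al * O.b z ^ 2 - P.be * O.a z ^ 2)
    + 4 * z * (P.al * O.b z * O.b1 z - P.be * O.a z * O.a1 z)

variable {O} {z : ℝ}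

lemma contU : ContinuousOn O.U O.dom := fun z hz => (O.hU z hz).continuousAt.continuousWithinAt
lemma contV : ContinuousOn O.V O.dom := fun z hz => (O.hV z hz).continuousAt.continuousWithinAt

lemma a_pos (hz : z ∈ O.dom) : 0 < O.a z := div_pos (neg_pos.2 (O.negU z hz)) (O.posU z hz)
lemma b_pos (hz : z ∈ O.dom) : 0 < O.b z := div_pos (neg_pos.2 (O.negV z hz)) (O.posV z hz)
lemma pt_pos (hz : z ∈ O.dom) : 0 < O.pt z :=
  div_pos (Real.rpow_pos_of_pos (O.posV z hz) _) (O.posU z hz)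
lemma qt_pos (hz : z ∈ O.dom) : 0 < O.qt z :=
  div_pos (Real.rpow_pos_of_pos (O.posU z hz) _) (O.posV z hz)
lemma theta_pos (hz : z ∈ O.dom) : 0 < O.theta z := div_pos (pt_pos hz) (qt_pos hz)

lemma pt_eq (hz : z ∈ O.dom) : O.pt z = O.theta z * O.qt z :=
  (div_mul_cancel₀ _ (qt_pos hz).ne').symm

lemma theta_eq (hz : z ∈ O.dom) :
    O.theta z = O.V z ^ (P.p + 1) / O.U z ^ (P.q + 1) := by
  have hu := O.posU z hz
  have hv := O.posV z hz
  have := (Real.rpow_pos_of_pos hu P.q).ne'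
  rw [theta, pt, qt, Real.rpow_add_one hu.ne', Real.rpow_add_one hv.ne']
  field_simp

lemma hasDerivAt_a (hz : z ∈ O.dom) : HasDerivAt O.a (O.a1 z) z := by
  have hu := (O.posU z hz).ne'
  refine ((O.hU1 z hz).neg.div (O.hU z hz) hu).congr_deriv ?_
  simp only [a1, a, Pi.neg_apply]; field_simp; ring

lemma hasDerivAt_b (hz : z ∈ O.dom) : HasDerivAt O.b (O.b1 z) z := by
  have hv := (O.posV z hz).ne'
  refine ((O.hV1 z hz).neg.div (O.hV z hz) hv).congr_deriv ?_
  simp only [b1, b, Pi.neg_apply]; field_simp; ring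

lemma hasDerivAt_pt (hz : z ∈ O.dom) :
    HasDerivAt O.pt (O.pt z * (O.a z - P.p * O.b z)) z := by
  have hu := (O.posU z hz).ne'
  have hv := (O.posV z hz).ne'
  refine (((O.hV z hz).rpow_const (Or.inl hv)).div (O.hU z hz) hu).congr_deriv ?_
  simp only [pt, a, b]; rw [Real.rpow_sub_one hv]; field_simp; ring

lemma hasDerivAt_qt (hz : z ∈ O.dom) :
    HasDerivAt O.qt (O.qt z * (O.b z - P.q * O.a z)) z := by
  have hu := (O.posU z hz).ne'
  have hv := (O.posV z hz).ne'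
  refine (((O.hU z hz).rpow_const (Or.inl hu)).div (O.hV z hz) hv).congr_deriv ?_
  simp only [qt, a, b]; rw [Real.rpow_sub_one hu]; field_simp; ring

lemma hasDerivAt_del (hz : z ∈ O.dom) : HasDerivAt O.del (O.del1 z) z :=
  ((hasDerivAt_b hz).const_mul P.al).sub ((hasDerivAt_a hz).const_mul P.be)

lemma contDel : ContinuousOn O.del O.dom :=
  fun _ hz => (hasDerivAt_del hz).continuousAt.continuousWithinAt

lemma hasDerivAt_frc (hz : z ∈ O.dom) : HasDerivAt O.frc (O.frc1 z) z := by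
  have h1 := (((hasDerivAt_qt hz).const_mul P.al).sub ((hasDerivAt_pt hz).const_mul P.be)).div_const 2
  have h2 := ((hasDerivAt_id z).const_mul 2).mul
    ((((hasDerivAt_b hz).pow 2).const_mul P.al).sub (((hasDerivAt_a hz).pow 2).const_mul P.be))
  refine (h1.add h2).congr_deriv ?_
  simp only [frc1, id_eq, Pi.sub_apply, Pi.pow_apply]
  ring

lemma hasDerivAt_theta (hz : z ∈ O.dom) :
    HasDerivAt O.theta (-(P.dim / (P.al * P.be)) * O.del z * O.theta z) z := by
  refine ((hasDerivAt_pt hz).div (hasDerivAt_qt hz) (qt_pos hz).ne').congr_deriv ?_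
  have := (qt_pos hz).ne'
  have := P.al_pos.ne'
  have := P.be_pos.ne'
  simp only [theta, del, Par.dim, Par.p, Par.q]
  field_simp
  ring

lemma contTheta : ContinuousOn O.theta O.dom :=
  fun _ hz => (hasDerivAt_theta hz).continuousAt.continuousWithinAt

lemma eq_a (hz : z ∈ O.dom) :
    2 * z * O.a1 z = O.pt z / 2 - P.dim * O.a z + 2 * z * O.a z ^ 2 := by
  have hu := (O.posU z hz).ne'
  simp only [a1, a, pt]
  field_simp
  linear_combination (-(O.U z)) * O.odeU z hz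

lemma eq_b (hz : z ∈ O.dom) :
    2 * z * O.b1 z = O.qt z / 2 - P.dim * O.b z + 2 * z * O.b z ^ 2 := by
  have hv := (O.posV z hz).ne'
  simp only [b1, b, qt]
  field_simp
  linear_combination (-(O.V z)) * O.odeV z hz

lemma eq_del (hz : z ∈ O.dom) : 2 * z * O.del1 z + P.dim * O.del z = O.frc z := by
  simp only [del1, del, frc]
  linear_combination P.al * eq_b hz - P.be * eq_a hz

/-- The Pohozaev quantity. -/
def poh (O : Orb P) (z : ℝ) : ℝ :=
  4 * z * O.U1 z * O.V1 z + (P.be * O.V z ^ (P.p + 1) + P.al * O.U z ^ (P.q + 1)) / P.dim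
    + 2 * (P.be * O.U1 z * O.V z + P.al * O.U z * O.V1 z)

/-- Derivative of the Pohozaev quantity. -/
def poh1 (O : Orb P) (z : ℝ) : ℝ :=
  -2 * P.dim * O.U1 z * O.V1 z + 2 * P.be * O.U2 z * O.V z + 2 * P.al * O.U z * O.V2 z

lemma hasDerivAt_poh (hz : z ∈ O.dom) : HasDerivAt O.poh (O.poh1 z) z := by
  have hu := (O.posU z hz).ne'
  have hv := (O.posV z hz).ne'
  have h1 := ((((hasDerivAt_id z).const_mul 4).mul (O.hU1 z hz)).mul (O.hV1 z hz))
  have h2 := ((((O.hV z hz).rpow_const (p := P.p + 1) (Or.inl hv)).const_mul P.be).add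
    (((O.hU z hz).rpow_const (p := P.q + 1) (Or.inl hu)).const_mul P.al)).div_const P.dim
  have h3 := ((((O.hU1 z hz).const_mul P.be).mul (O.hV z hz)).add
    (((O.hU z hz).const_mul P.al).mul (O.hV1 z hz))).const_mul 2
  refine ((h1.add h2).add h3).congr_deriv ?_
  simp only [poh1, id_eq, Pi.mul_apply, add_sub_cancel_right]
  simp only [P.p_add_one, P.q_add_one]
  have := P.al_pos.ne'
  have := P.be_pos.ne'
  have : P.dim ≠ 0 := (zero_lt_two.trans P.two_lt_dim).ne'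
  field_simp
  simp only [Par.dim]
  have hd : P.dim = P.al + P.be + 2 := rfl
  linear_combination O.V1 z * O.odeU z hz + O.U1 z * O.odeV z hz + (-4 * O.U1 z * O.V1 z) * hd

lemma eq_poh (hz : z ∈ O.dom) : 2 * z * O.poh1 z + P.dim * O.poh z = 0 := by
  have : P.dim ≠ 0 := (zero_lt_two.trans P.two_lt_dim).ne'
  have hu := (O.posU z hz).ne'
  have hv := (O.posV z hz).ne'
  simp only [poh1, poh, Real.rpow_add_one hu, Real.rpow_add_one hv]
  field_simp
  linear_combination P.be * O.V z * O.odeU z hz + P.al * O.U z * O.odeV z hz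

end Orb

end

end Vale.Agent.P100.Ground
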