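import Vale.Agent.P100.Ground.Av

/-! P100, critical ground state: the clamped system in the variable `z = r ^ 2`, solved by Picard
iteration for all real `z`, jointly continuously in the shooting parameter. -/

namespace Vale.Agent.P100.Ground

noncomputable section

open Set Filter Topology

/-- Parameters of the critical system: `al + be = N - 2` and `be < al`. -/
structure Par where
  /-- Decay exponent of `u`. -/
  al : ℝ
  /-- Decay exponent of `v`. -/
  be : ℝ
  be_pos : 0 < be
  be_lt : be < al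

/-- Levels between which the powers are not modified. -/
structure Clamp where
  /-- Lower level. -/
  lo : ℝ
  /-- Upper level. -/
  hi : ℝ
  lo_pos : 0 < lo
  lo_le : lo ≤ hi

namespace Par

variable (P : Par)

/-- Dimension. -/
def dim : ℝ := P.al + P.be + 2

/-- Exponent of `v`. -/
def p : ℝ := (P.al + 2) / P.be

/-- Exponent of `u`. -/
def q : ℝ := (P.be + 2) / P.al

lemma al_pos : 0 < P.al := P.be_pos.trans P.be_lt

lemma two_lt_dim : 2 < P.dim := by
  have := P.al_pos; have := P.be_pos; unfold dim; linarith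

lemma one_le_dim : 1 ≤ P.dim := by have := P.two_lt_dim; linarith

lemma p_pos : 0 < P.p := div_pos (by have := P.al_pos; linarith) P.be_pos

lemma q_pos : 0 < P.q := div_pos (by have := P.be_pos; linarith) P.al_pos

lemma p_add_one : P.p + 1 = P.dim / P.be := by
  have := P.be_pos; unfold p dim; field_simp; ring

lemma q_add_one : P.q + 1 = P.dim / P.al := by
  have := P.al_pos; unfold q dim; field_simp; ring

end Par

/-- The clamped identity. -/
def Clamp.cut (c : Clamp) (v : ℝ) : ℝ := min (max v c.lo) c.hi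

lemma Clamp.cut_mem (c : Clamp) (v : ℝ) : c.cut v ∈ Icc c.lo c.hi :=
  ⟨le_min (le_max_right _ _) c.lo_le, min_le_right _ _⟩

lemma Clamp.cut_eq (c : Clamp) {v : ℝ} (hv : v ∈ Icc c.lo c.hi) : c.cut v = v := by
  rw [Clamp.cut, max_eq_left hv.1, min_eq_left hv.2]

lemma Clamp.abs_cut_sub (c : Clamp) (x y : ℝ) : |c.cut x - c.cut y| ≤ |x - y| := by
  refine (abs_min_sub_min_le_max _ _ _ _).trans (max_le ?_ (by simp))
  exact (abs_max_sub_max_le_max _ _ _ _).trans (max_le le_rfl (by simp))

/-- The clamped power. -/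
def Clamp.pw (c : Clamp) (e v : ℝ) : ℝ := c.cut v ^ e

lemma Clamp.continuous_pw (c : Clamp) (e : ℝ) : Continuous (c.pw e) := by
  refine Continuous.rpow_const ?_ fun v => Or.inl ?_
  · exact (continuous_id.max continuous_const).min continuous_const
  · exact (c.lo_pos.trans_le (c.cut_mem v).1).ne'

lemma Clamp.pw_pos (c : Clamp) (e v : ℝ) : 0 < c.pw e v :=
  Real.rpow_pos_of_pos (c.lo_pos.trans_le (c.cut_mem v).1) _

lemma Clamp.exists_bounds (c : Clamp) (e : ℝ) :
    ∃ L : ℝ, 0 ≤ L ∧ (∀ x, |c.pw e x| ≤ L) ∧ ∀ x y, |c.pw e x - c.pw e y| ≤ L * |x - y| := by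
  have hne : ∀ x ∈ Icc c.lo c.hi, x ≠ 0 := fun x hx => (c.lo_pos.trans_le hx.1).ne'
  obtain ⟨C, hC⟩ := (isCompact_Icc (a := c.lo) (b := c.hi)).exists_bound_of_continuousOn
    (f := fun x : ℝ => x ^ e) (continuousOn_id.rpow_const fun x hx => Or.inl (hne x hx))
  obtain ⟨D, hD⟩ := (isCompact_Icc (a := c.lo) (b := c.hi)).exists_bound_of_continuousOn
    (f := fun x : ℝ => e * x ^ (e - 1))
    (continuousOn_const.mul (continuousOn_id.rpow_const fun x hx => Or.inl (hne x hx)))
  have hD0 : 0 ≤ max C D := le_max_of_le_left ((norm_nonneg _).trans (hC _ (c.cut_mem 0)))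
  refine ⟨max C D, hD0, fun x => (hC _ (c.cut_mem x)).trans (le_max_left _ _), fun x y => ?_⟩
  have h := Convex.norm_image_sub_le_of_norm_hasDerivWithin_le (f := fun x : ℝ => x ^ e)
    (f' := fun x : ℝ => e * x ^ (e - 1)) (fun x hx =>
      (Real.hasDerivAt_rpow_const (Or.inl (hne x hx))).hasDerivWithinAt)
    (fun x hx => (hD x hx).trans (le_max_right C D)) (convex_Icc c.lo c.hi) (c.cut_mem y) (c.cut_mem x)
  exact h.trans (mul_le_mul_of_nonneg_left (c.abs_cut_sub x y) hD0)

variable (P : Par) (c : Clamp)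

/-- One Picard step with data `(1 - t, t)`. -/
def step (t : ℝ) (Y : ℝ → ℝ × ℝ) (z : ℝ) : ℝ × ℝ :=
  (1 - t - prim (av P.dim fun x => c.pw P.p (Y x).2) z / 2,
    t - prim (av P.dim fun x => c.pw P.q (Y x).1) z / 2)

/-- The Picard iterates. -/
def it : ℕ → ℝ → ℝ → ℝ × ℝ
  | 0, t, _ => (1 - t, t)
  | n + 1, t, z => step P c t (it n t) z

/-- The clamped solution. -/
def sol (t z : ℝ) : ℝ × ℝ := (1 - t, t) + ∑' n, (it P c (n + 1) t z - it P c n t z)

lemma continuous_step {X : Type*} [TopologicalSpace X] {s : X → ℝ} {Y : X → ℝ → ℝ × ℝ}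
    (hs : Continuous s) (hY : Continuous fun x : X × ℝ => Y x.1 x.2) :
    Continuous fun x : X × ℝ => step P c (s x.1) (Y x.1) x.2 := by
  have h1 := continuous_prim (g := fun x => av P.dim fun y => c.pw P.p (Y x y).2)
    (continuous_av (h := fun x y => c.pw P.p (Y x y).2) P.one_le_dim
      ((c.continuous_pw _).comp hY.snd))
  have h2 := continuous_prim (g := fun x => av P.dim fun y => c.pw P.q (Y x y).1)
    (continuous_av (h := fun x y => c.pw P.q (Y x y).1) P.one_le_dim
      ((c.continuous_pw _).comp hY.fst))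
  exact ((continuous_const.sub (hs.comp continuous_fst)).sub (h1.div_const 2)).prodMk
    ((hs.comp continuous_fst).sub (h2.div_const 2))

lemma continuous_it (n : ℕ) : Continuous fun x : ℝ × ℝ => it P c n x.1 x.2 := by
  induction n with
  | zero => exact (continuous_const.sub continuous_fst).prodMk continuous_fst
  | succ n ih => exact continuous_step P c continuous_id ih

lemma exists_lip : ∃ L : ℝ, 0 ≤ L ∧
    (∀ (t z : ℝ), ‖step P c t (it P c 0 t) z - (1 - t, t)‖ ≤ L * |z|) ∧
    ∀ (t z : ℝ) (Y Y' : ℝ → ℝ × ℝ) (C : ℝ) (m : ℕ), 0 ≤ C → ContinuousOn Y (uIcc 0 z) →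
      ContinuousOn Y' (uIcc 0 z) → (∀ x ∈ uIcc 0 z, ‖Y x - Y' x‖ ≤ C * |x| ^ m) →
      ‖step P c t Y z - step P c t Y' z‖ ≤ L * C * |z| ^ (m + 1) / (m + 1) := by
  obtain ⟨L1, hL1, hb1, hl1⟩ := c.exists_bounds P.p
  obtain ⟨L2, hL2, hb2, hl2⟩ := c.exists_bounds P.q
  refine ⟨max L1 L2, le_max_of_le_left hL1, fun t z => ?_, ?_⟩
  · have key : ∀ (e : ℝ) (L : ℝ) (k : ℝ), (∀ x, |c.pw e x| ≤ L) →
        |prim (av P.dim fun _ => c.pw e k) z / 2| ≤ L * |z| := by
      intro e L k hb
      have hL : 0 ≤ L := (abs_nonneg _).trans (hb 0)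
      have := abs_prim_le (g := av P.dim fun _ => c.pw e k) (z := z) (c := L) 0
        (continuous_av_const P.one_le_dim (continuous_const (y := c.pw e k))).continuousOn
        (fun x _ => by simpa using abs_av_le P.one_le_dim (z := x) continuousOn_const fun _ _ => hb k)
      rw [abs_div, abs_two]
      norm_num at this
      linarith [abs_nonneg (prim (av P.dim fun _ => c.pw e k) z)]
    simp only [step, it, Prod.mk_sub_mk, Prod.norm_def, Real.norm_eq_abs, sub_sub_cancel_left,
      abs_neg]
    refine max_le ((key P.p L1 t hb1).trans ?_) ((key P.q L2 (1 - t) hb2).trans ?_) <;> gcongr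
    exacts [le_max_left _ _, le_max_right _ _]
  · intro t z Y Y' C m hC hY hY' hd
    have key : ∀ (e L : ℝ) (y y' : ℝ → ℝ), 0 ≤ L → (∀ a b, |c.pw e a - c.pw e b| ≤ L * |a - b|) →
        ContinuousOn y (uIcc 0 z) → ContinuousOn y' (uIcc 0 z) →
        (∀ x ∈ uIcc 0 z, |y x - y' x| ≤ C * |x| ^ m) →
        |prim (av P.dim fun x => c.pw e (y x)) z / 2 - prim (av P.dim fun x => c.pw e (y' x)) z / 2|
          ≤ L * C * |z| ^ (m + 1) / (m + 1) := by
      intro e L y y' hL hlip hy hy' hdy
      have hh := (c.continuous_pw e).comp_continuousOn hy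
      have hh' := (c.continuous_pw e).comp_continuousOn hy'
      have hav : ∀ {w : ℝ → ℝ}, ContinuousOn w (uIcc 0 z) → ContinuousOn (av P.dim w) (uIcc 0 z) :=
        fun hw => continuousOn_av P.one_le_dim hw
      have e1 : prim (av P.dim fun x => c.pw e (y x)) z - prim (av P.dim fun x => c.pw e (y' x)) z =
          prim (fun x => av P.dim (fun a => c.pw e (y a)) x - av P.dim (fun a => c.pw e (y' a)) x) z :=
        (intervalIntegral.integral_sub (hav hh).intervalIntegrable (hav hh').intervalIntegrable).symm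
      rw [← sub_div, abs_div, abs_two, e1]
      have := abs_prim_le (z := z) (c := L * C) m ((hav hh).sub (hav hh')) (fun x hx => by
        have hsub := uIcc_subset_uIcc left_mem_uIcc hx
        simp only [Pi.sub_apply, ← av_sub P.one_le_dim (hh.mono hsub) (hh'.mono hsub)]
        refine abs_av_le P.one_le_dim ((hh.sub hh').mono hsub) fun a ha => ?_
        refine (hlip _ _).trans ?_
        rw [mul_assoc]
        gcongr
        exact (hdy a (hsub ha)).trans (mul_le_mul_of_nonneg_left
          (pow_le_pow_left₀ (abs_nonneg a) (abs_le_abs_of_mem ha) m) hC))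
      simp only [Function.comp_def, Pi.sub_def] at this
      linarith [abs_nonneg (prim (fun x => av P.dim (fun a => c.pw e (y a)) x -
        av P.dim (fun a => c.pw e (y' a)) x) z)]
    simp only [step, Prod.mk_sub_mk, Prod.norm_def, Real.norm_eq_abs]
    have hd' : ∀ x ∈ uIcc 0 z, |(Y x).2 - (Y' x).2| ≤ C * |x| ^ m ∧
        |(Y x).1 - (Y' x).1| ≤ C * |x| ^ m := fun x hx =>
      ⟨(norm_snd_le (Y x - Y' x)).trans (hd x hx), (norm_fst_le (Y x - Y' x)).trans (hd x hx)⟩
    refine max_le ?_ ?_
    · rw [show ∀ a b k : ℝ, k - a - (k - b) = -(a - b) by intros; ring, abs_neg]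
      refine (key P.p L1 _ _ hL1 hl1 hY.snd hY'.snd fun x hx => (hd' x hx).1).trans ?_
      gcongr
      exact le_max_left _ _
    · rw [show ∀ a b k : ℝ, k - a - (k - b) = -(a - b) by intros; ring, abs_neg]
      refine (key P.q L2 _ _ hL2 hl2 hY.fst hY'.fst fun x hx => (hd' x hx).2).trans ?_
      gcongr
      exact le_max_right _ _

lemma continuous_step_one (t : ℝ) {Y : ℝ → ℝ × ℝ} (hY : Continuous Y) :
    Continuous (step P c t Y) :=
  (continuous_step P c (X := Unit) (s := fun _ => t) (Y := fun _ => Y) continuous_const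
    (hY.comp continuous_snd)).comp ((continuous_const (y := ())).prodMk continuous_id)

lemma exists_it_bound : ∃ M L : ℝ, 0 ≤ M ∧ 0 ≤ L ∧ ∀ (n : ℕ) (t z : ℝ),
    ‖it P c (n + 1) t z - it P c n t z‖ ≤ M * (L ^ n * |z| ^ n / n.factorial) * |z| := by
  obtain ⟨L, hL, h0, hs⟩ := exists_lip P c
  refine ⟨L, L, hL, hL, fun n => ?_⟩
  suffices H : ∀ t z, ‖it P c (n + 1) t z - it P c n t z‖ ≤
      L ^ (n + 1) / (n + 1).factorial * |z| ^ (n + 1) by
    intro t z
    refine (H t z).trans ?_
    have h1 : (n.factorial : ℝ) ≤ (n + 1).factorial := by exact_mod_cast Nat.factorial_le (by omega)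
    have h2 : (0 : ℝ) < n.factorial := by positivity
    rw [show L * (L ^ n * |z| ^ n / n.factorial) * |z| =
      L ^ (n + 1) / n.factorial * |z| ^ (n + 1) by ring]
    gcongr
  induction n with
  | zero =>
    intro t z
    have := h0 t z
    simpa [it] using this
  | succ n ih =>
    intro t z
    have hc : ∀ k, ContinuousOn (it P c k t) (uIcc 0 z) := fun k =>
      ((continuous_it P c k).comp (continuous_const.prodMk continuous_id)).continuousOn
    refine (hs t z _ _ _ (n + 1) (by positivity) (hc (n + 1)) (hc n) fun x _ => ih t x).trans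
      (le_of_eq ?_)
    rw [pow_succ L (n + 1), Nat.factorial_succ (n + 1)]
    push_cast
    field_simp

lemma summable_bound (M L R : ℝ) :
    Summable fun n : ℕ => M * (L ^ n * R ^ n / n.factorial) * R := by
  simp only [← mul_pow]
  exact ((Real.summable_pow_div_factorial (L * R)).mul_left M).mul_right R

lemma norm_it_le {M L R : ℝ} (hM : 0 ≤ M) (hL : 0 ≤ L)
    (hb : ∀ (n : ℕ) (t z : ℝ),
      ‖it P c (n + 1) t z - it P c n t z‖ ≤ M * (L ^ n * |z| ^ n / n.factorial) * |z|)
    (n : ℕ) (t z : ℝ) (hz : |z| ≤ R) :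
    ‖it P c (n + 1) t z - it P c n t z‖ ≤ M * (L ^ n * R ^ n / n.factorial) * R := by
  have : 0 ≤ R := (abs_nonneg z).trans hz
  refine (hb n t z).trans ?_
  gcongr

lemma continuous_sol : Continuous fun x : ℝ × ℝ => sol P c x.1 x.2 := by
  obtain ⟨M, L, hM, hL, hb⟩ := exists_it_bound P c
  refine ((continuous_const.sub continuous_fst).prodMk continuous_fst).add ?_
  refine continuous_iff_continuousAt.2 fun x => ?_
  refine (continuousOn_tsum (s := {y : ℝ × ℝ | |y.2| ≤ |x.2| + 1})
    (fun n => ((continuous_it P c (n + 1)).sub (continuous_it P c n)).continuousOn)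
    (summable_bound M L (|x.2| + 1))
    (fun n y hy => norm_it_le P c hM hL hb n y.1 y.2 hy)).continuousAt ?_
  exact continuous_snd.abs.continuousAt.preimage_mem_nhds (Iic_mem_nhds (by linarith))

lemma continuous_sol_right (t : ℝ) : Continuous (sol P c t) :=
  (continuous_sol P c).comp (continuous_const.prodMk continuous_id)

lemma sol_fixed (t z : ℝ) : sol P c t z = step P c t (sol P c t) z := by
  obtain ⟨M, L, hM, hL, hb⟩ := exists_it_bound P c
  obtain ⟨L', -, -, hs⟩ := exists_lip P c
  set u := fun n : ℕ => M * (L ^ n * |z| ^ n / n.factorial) * |z| with hu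
  have hsum : ∀ x, |x| ≤ |z| → Summable fun n => it P c (n + 1) t x - it P c n t x := fun x hx =>
    Summable.of_norm_bounded (summable_bound M L |z|) (fun n => norm_it_le P c hM hL hb n t x hx)
  have htail : ∀ n x, |x| ≤ |z| → ‖sol P c t x - it P c n t x‖ ≤ ∑' i, u (i + n) := by
    intro n x hx
    have e : sol P c t x - it P c n t x = ∑' i, (it P c (i + n + 1) t x - it P c (i + n) t x) := by
      have h1 := (hsum x hx).sum_add_tsum_nat_add n
      rw [Finset.sum_range_sub (fun i => it P c i t x)] at h1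
      rw [sol, ← h1, it]
      abel
    rw [e]
    exact tsum_of_norm_bounded ((summable_nat_add_iff n).2 (summable_bound M L |z|)).hasSum
      (fun i => norm_it_le P c hM hL hb (i + n) t x hx)
  have ht0 : Tendsto (fun n => ∑' i, u (i + n)) atTop (𝓝 0) := tendsto_sum_nat_add u
  have h1 : Tendsto (fun n => it P c (n + 1) t z) atTop (𝓝 (sol P c t z)) := by
    have h0 : Tendsto (fun n => it P c n t z) atTop (𝓝 (sol P c t z)) :=
      tendsto_iff_norm_sub_tendsto_zero.2 (squeeze_zero (fun _ => norm_nonneg _)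
        (fun n => by rw [norm_sub_rev]; exact htail n z le_rfl) ht0)
    exact h0.comp (tendsto_add_atTop_nat 1)
  have h2 : Tendsto (fun n => it P c (n + 1) t z) atTop (𝓝 (step P c t (sol P c t) z)) := by
    refine tendsto_iff_norm_sub_tendsto_zero.2 (squeeze_zero (fun _ => norm_nonneg _)
      (g := fun n => L' * (∑' i, u (i + n)) * |z| ^ (0 + 1) / ((0 : ℕ) + 1)) (fun n => ?_) ?_)
    · refine hs t z _ _ _ 0 (tsum_nonneg fun i => by rw [hu]; positivity)
        ((continuous_it P c n).comp (continuous_const.prodMk continuous_id)).continuousOn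
        (continuous_sol_right P c t).continuousOn fun x hx => ?_
      rw [norm_sub_rev, pow_zero, mul_one]
      exact htail n x (abs_le_abs_of_mem hx)
    · simpa [pow_one] using ((ht0.const_mul L').mul_const |z|).div_const (((0 : ℕ) : ℝ) + 1)
  exact tendsto_nhds_unique h1 h2

lemma sol_zero (t : ℝ) : sol P c t 0 = (1 - t, t) := by
  rw [sol_fixed]; simp [step, prim]

/-- Uniqueness on a segment. -/
lemma sol_unique {t z : ℝ} {Y : ℝ → ℝ × ℝ} (hY : ContinuousOn Y (uIcc 0 z))
    (hfix : ∀ x ∈ uIcc 0 z, Y x = step P c t Y x) : EqOn Y (sol P c t) (uIcc 0 z) := by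
  obtain ⟨L, hL, -, hs⟩ := exists_lip P c
  have hcs := (continuous_sol_right P c t).continuousOn (s := uIcc 0 z)
  obtain ⟨C, hC⟩ := isCompact_uIcc.exists_bound_of_continuousOn (hY.sub hcs)
  have hC0 : 0 ≤ C := (norm_nonneg _).trans (hC 0 left_mem_uIcc)
  have key : ∀ n : ℕ, ∀ x ∈ uIcc 0 z,
      ‖Y x - sol P c t x‖ ≤ C * L ^ n / n.factorial * |x| ^ n := by
    intro n
    induction n with
    | zero => intro x hx; simpa using hC x hx
    | succ n ih =>
      intro x hx
      have hsub := uIcc_subset_uIcc left_mem_uIcc hx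
      rw [hfix x hx, sol_fixed]
      refine (hs t x _ _ _ n (by positivity) (hY.mono hsub) (hcs.mono hsub)
        fun a ha => ih a (hsub ha)).trans (le_of_eq ?_)
      rw [Nat.factorial_succ]
      push_cast
      field_simp
      ring
  intro x hx
  have h : Tendsto (fun n : ℕ => C * ((L * |x|) ^ n / n.factorial)) atTop (𝓝 0) := by
    simpa using (FloorSemiring.tendsto_pow_div_factorial_atTop (L * |x|)).const_mul C
  have := ge_of_tendsto h (Eventually.of_forall fun n =>
    (key n x hx).trans (le_of_eq (by rw [mul_pow]; ring)))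
  exact sub_eq_zero.1 (norm_le_zero_iff.1 this)

end

end Vale.Agent.P100.Ground
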