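import Vale.Agent.P100.Ground.Smooth

/-! P100, critical ground state: the state variables `psi = b / a`, `crv = U'' U / U'²` and
`lam = (den crv - N psi) / al`, with their equations through `z = 0`, and the invariants which hold
along every orbit with a positive defect. -/

namespace Vale.Agent.P100.Ground

noncomputable section

open Set Filter Topology

/-- Forward version of `pos_of_deriv_neg_at_zeros`. -/
lemma pos_of_deriv_pos_at_zeros {f f' : ℝ → ℝ} {z0 z : ℝ}
    (hf : ∀ x ∈ Icc z0 z, HasDerivAt f (f' x) x) (h0 : 0 < f z0)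
    (hz : ∀ x ∈ Ioc z0 z, f x = 0 → 0 < f' x) : ∀ x ∈ Icc z0 z, 0 < f x := by
  intro x hx
  have key := pos_of_deriv_neg_at_zeros (f := fun y => f (-y)) (f' := fun y => -(f' (-y)))
    (z := -z) (z1 := -z0)
    (fun y hy => by
      have := (hf (-y) ⟨by linarith [hy.2], by linarith [hy.1]⟩).comp y (hasDerivAt_id y).neg
      simpa [Function.comp_def] using this)
    (by simpa using h0)
    (fun y hy h => neg_lt_zero.2 (hz (-y) ⟨by linarith [hy.2], by linarith [hy.1]⟩ h))
    (-x) ⟨by linarith [hx.2], by linarith [hx.1]⟩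
  simpa using key

namespace Orb

variable {P : Par} (O : Orb P) {z : ℝ}

/-- `g'/f'` with `f = -log U`, `g = -log V`. -/
def psi (z : ℝ) : ℝ := O.b z / O.a z

/-- `U'' U / U'²`, which is `(N - r² P₁ / A) / A` for `A = 2 z a`. -/
def crv (z : ℝ) : ℝ := O.U2 z * O.U z / O.U1 z ^ 2

/-- Derivative of `crv`. -/
def crv1 (z : ℝ) : ℝ := deriv O.crv z

/-- `D / X`. -/
def lam (z : ℝ) : ℝ := ((P.be + P.al * O.psi z) * O.crv z - P.dim * O.psi z) / P.al

/-- `2 z a`. -/
def aa (z : ℝ) : ℝ := 2 * z * O.a z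

variable {O}

lemma psi_pos (hz : z ∈ O.dom) : 0 < O.psi z := div_pos (b_pos hz) (a_pos hz)

lemma den_pos (hz : z ∈ O.dom) : 0 < P.be + P.al * O.psi z :=
  add_pos P.be_pos (mul_pos P.al_pos (psi_pos hz))

lemma b_eq (hz : z ∈ O.dom) : O.b z = O.psi z * O.a z :=
  (div_mul_cancel₀ _ (a_pos hz).ne').symm

lemma psi_gt (hz : z ∈ O.dom) (hd : 0 < O.del z) : P.be < P.al * O.psi z := by
  have ha := a_pos hz
  rw [psi, mul_div_assoc', lt_div_iff₀ ha]
  simp only [del] at hd
  linarith

lemma contAt_a (hz : z ∈ O.dom) : ContinuousAt O.a z := (hasDerivAt_a hz).continuousAt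
lemma contAt_b (hz : z ∈ O.dom) : ContinuousAt O.b z := (hasDerivAt_b hz).continuousAt

lemma a1_eq (hz : z ∈ O.dom) : O.a1 z = O.a z ^ 2 * (1 - O.crv z) := by
  have hu := (O.posU z hz).ne'
  have hu1 := (O.negU z hz).ne
  simp only [a1, a, crv]
  field_simp
  ring

lemma crv_eq (hz : z ∈ O.dom) : O.crv z * O.aa z = P.dim - O.pt z / (2 * O.a z) := by
  have ha := (a_pos hz).ne'
  have h := eq_a hz
  rw [a1_eq hz] at h
  simp only [aa]
  field_simp
  linear_combination -2 * h

lemma hasDerivAt_crv (hz : z ∈ O.dom) : HasDerivAt O.crv (O.crv1 z) z := by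
  refine DifferentiableAt.hasDerivAt ?_
  have hu : DifferentiableAt ℝ O.U2 z :=
    (((O.contDiffOn_U2V2 1).1).differentiableOn (by norm_num)).differentiableAt (O.isOpen.mem_nhds hz)
  exact (hu.mul (O.hU z hz).differentiableAt).div ((O.hU1 z hz).differentiableAt.pow 2)
    (pow_ne_zero 2 (O.negU z hz).ne)

lemma hasDerivAt_aa (hz : z ∈ O.dom) :
    HasDerivAt O.aa (O.a z * (2 - (O.crv z - 1) * O.aa z)) z := by
  refine (((hasDerivAt_id z).const_mul 2).mul (hasDerivAt_a hz)).congr_deriv ?_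
  simp only [aa, id_eq, a1_eq hz]
  ring

lemma eq_crv (hz : z ∈ O.dom) :
    2 * z * O.crv1 z = P.dim * P.p * O.psi z - (P.dim + 2) * O.crv z
      + O.aa z * O.crv z * (2 * O.crv z - 1 - P.p * O.psi z) := by
  have ha := (a_pos hz).ne'
  have h1 := (hasDerivAt_crv hz).mul (hasDerivAt_aa hz)
  have h2 := ((hasDerivAt_pt hz).div ((hasDerivAt_a hz).const_mul 2) (mul_ne_zero two_ne_zero ha)).const_sub P.dim
  have e : (fun y => O.crv y * O.aa y) =ᶠ[𝓝 z] fun y => P.dim - O.pt y / (2 * O.a y) :=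
    (O.isOpen.eventually_mem hz).mono fun y hy => crv_eq hy
  have h := h1.unique (h2.congr_of_eventuallyEq e)
  rw [a1_eq hz, b_eq hz] at h
  have hc := crv_eq hz
  simp only [aa] at h hc ⊢
  field_simp at h hc
  apply mul_left_cancel₀ ha
  linear_combination (1 / 2) * h + (-(1 / 2) * (O.crv z - P.p * O.psi z)) * hc

/-- Derivative of `psi`. -/
lemma hasDerivAt_psi (hz : z ∈ O.dom) :
    HasDerivAt O.psi (O.a z * (O.psi z ^ 2 - O.psi z + O.lam z)) z := by
  have hraw : ∀ y ∈ O.dom, HasDerivAt O.psi ((O.b1 y * O.a y - O.b y * O.a1 y) / O.a y ^ 2) y :=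
    fun y hy => (hasDerivAt_b hy).div (hasDerivAt_a hy) (a_pos hy).ne'
  have key : ∀ y ∈ O.dom, y ≠ 0 → (O.b1 y * O.a y - O.b y * O.a1 y) / O.a y ^ 2 =
      O.a y * (O.psi y ^ 2 - O.psi y + O.lam y) := by
    intro y hy hy0
    have ha := (a_pos hy).ne'
    have hal := P.al_pos.ne'
    have hN : P.dim ≠ 0 := (zero_lt_two.trans P.two_lt_dim).ne'
    have hc := crv_eq hy
    have hp := poh_rates hy
    have hb := eq_b hy
    have ha' := eq_a hy
    rw [b_eq hy] at hp hb ⊢
    have hl : P.al * O.lam y = (P.be + P.al * O.psi y) * O.crv y - P.dim * O.psi y := by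
      simp only [lam]; field_simp
    simp only [aa] at hc
    field_simp at hc hp
    rw [div_eq_iff (pow_ne_zero 2 ha)]
    apply mul_left_cancel₀ (mul_ne_zero (mul_ne_zero two_ne_zero hy0) hal)
    linear_combination P.al * O.a y * hb - P.al * O.psi y * O.a y * ha' + (O.a y / 2) * hp
      - (O.a y / 2) * (P.be + P.al * O.psi y) * hc - 2 * y * O.a y ^ 3 * hl
  by_cases h0 : z = 0
  · refine (hraw z hz).congr_deriv ?_
    have cU2 : ContinuousAt O.U2 z := O.contU2.continuousAt (O.isOpen.mem_nhds hz)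
    have cV2 : ContinuousAt O.V2 z := O.contV2.continuousAt (O.isOpen.mem_nhds hz)
    have cU : ContinuousAt O.U z := (O.hU z hz).continuousAt
    have cV : ContinuousAt O.V z := (O.hV z hz).continuousAt
    have ca1 : ContinuousAt O.a1 z :=
      (cU2.neg.div cU (O.posU z hz).ne').add ((contAt_a hz).pow 2)
    have cb1 : ContinuousAt O.b1 z :=
      (cV2.neg.div cV (O.posV z hz).ne').add ((contAt_b hz).pow 2)
    have cpsi : ContinuousAt O.psi z := (hraw z hz).continuousAt
    have c1 : ContinuousAt (fun y => (O.b1 y * O.a y - O.b y * O.a1 y) / O.a y ^ 2) z :=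
      ((cb1.mul (contAt_a hz)).sub ((contAt_b hz).mul ca1)).div ((contAt_a hz).pow 2)
        (pow_ne_zero 2 (a_pos hz).ne')
    have c2 : ContinuousAt (fun y => O.a y * (O.psi y ^ 2 - O.psi y + O.lam y)) z :=
      (contAt_a hz).mul (((cpsi.pow 2).sub cpsi).add
        ((((cpsi.const_mul P.al).const_add P.be).mul (hasDerivAt_crv hz).continuousAt).sub
          (cpsi.const_mul P.dim) |>.div_const P.al))
    refine tendsto_nhds_unique_of_eventuallyEq (c1.mono_left (nhdsWithin_le_nhds (s := {z}ᶜ)))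
      (c2.mono_left nhdsWithin_le_nhds) ?_
    filter_upwards [nhdsWithin_le_nhds (O.isOpen.mem_nhds hz), self_mem_nhdsWithin] with y hy hy'
    exact key y hy (fun h => hy' (h.trans h0.symm))
  · exact (hraw z hz).congr_deriv (key z hz h0)

lemma hasDerivAt_lam (hz : z ∈ O.dom) :
    HasDerivAt O.lam (((P.al * O.crv z - P.dim) * (O.a z * (O.psi z ^ 2 - O.psi z + O.lam z))
      + (P.be + P.al * O.psi z) * O.crv1 z) / P.al) z := by
  refine (((((hasDerivAt_psi hz).const_mul P.al).const_add P.be).mul (hasDerivAt_crv hz)).sub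
    ((hasDerivAt_psi hz).const_mul P.dim) |>.div_const P.al).congr_deriv ?_
  ring

/-- The origin value of `crv`. -/
lemma crv_zero : O.crv 0 = P.dim * P.p * O.psi 0 / (P.dim + 2) := by
  have h := eq_crv (O := O) O.zero_mem
  simp only [aa, mul_zero, zero_mul, add_zero] at h
  rw [eq_div_iff (by linarith [P.two_lt_dim])]
  linarith

lemma p_al_psi (hz : z ∈ O.dom) (hd : 0 < O.del z) :
    P.be + 2 < P.p * P.al * O.psi z := by
  have h := psi_gt hz hd
  have hbe := P.be_pos
  have e : P.p * P.al * O.psi z = (P.al + 2) * (P.al * O.psi z / P.be) := by unfold Par.p; ring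
  rw [e]
  have h1 : 1 < P.al * O.psi z / P.be := (one_lt_div hbe).2 h
  have h2 := mul_lt_mul_of_pos_left h1 (show 0 < P.al + 2 by linarith [P.al_pos])
  linarith [P.be_lt]

lemma aa_psi_lt (hz : z ∈ O.dom) : O.aa z * O.psi z < P.be + P.al * O.psi z := by
  have ha := a_pos hz
  have hp := poh_rates hz
  rw [b_eq hz] at hp
  have hN := zero_lt_two.trans P.two_lt_dim
  have : 0 < (P.be * O.pt z + P.al * O.qt z) / P.dim :=
    div_pos (add_pos (mul_pos P.be_pos (pt_pos hz)) (mul_pos P.al_pos (qt_pos hz))) hN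
  refine lt_of_mul_lt_mul_left ?_ (mul_pos two_pos ha).le
  simp only [aa]
  linarith

/-- Along an orbit with a positive defect `lam` is positive. -/
theorem lam_pos (hd : ∀ y ∈ O.dom, 0 < O.del y) (hz : z ∈ O.dom) : 0 < O.lam z := by
  have hal := P.al_pos
  have hN := zero_lt_two.trans P.two_lt_dim
  have h0 : 0 < O.lam 0 := by
    have h := p_al_psi O.zero_mem (hd 0 O.zero_mem)
    have hp2 : P.p * P.be = P.al + 2 := div_mul_cancel₀ _ P.be_pos.ne'
    have e : O.lam 0 = P.dim * O.psi 0 * (P.p * P.al * O.psi 0 - P.be - 2) /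
        (P.al * (P.dim + 2)) := by
      simp only [lam, crv_zero]
      have : P.dim + 2 ≠ 0 := by linarith
      field_simp
      have hdim : P.dim = P.al + P.be + 2 := rfl
      linear_combination O.psi 0 * hp2 - O.psi 0 * hdim
    rw [e]
    exact div_pos (mul_pos (mul_pos hN (psi_pos O.zero_mem)) (by linarith))
      (mul_pos hal (by linarith))
  have key : ∀ x ∈ O.dom, x ≠ 0 → O.lam x = 0 → 0 < x *
      (((P.al * O.crv x - P.dim) * (O.a x * (O.psi x ^ 2 - O.psi x + O.lam x))
      + (P.be + P.al * O.psi x) * O.crv1 x) / P.al) := by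
    intro x hx hx0 hl
    have hpsi := psi_pos hx
    have hden := den_pos hx
    have hc : O.crv x = P.dim * O.psi x / (P.be + P.al * O.psi x) := by
      simp only [lam, div_eq_zero_iff] at hl
      rw [eq_div_iff hden.ne']
      rcases hl with h | h
      · linarith
      · linarith
    have e : x * (((P.al * O.crv x - P.dim) * (O.a x * (O.psi x ^ 2 - O.psi x + O.lam x))
        + (P.be + P.al * O.psi x) * O.crv1 x) / P.al) =
        P.dim * O.psi x * (P.p * P.al * O.psi x - P.be - 2) / (2 * P.al * (P.be + P.al * O.psi x))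
          * ((P.be + P.al * O.psi x) - O.aa x * O.psi x) := by
      have h := eq_crv hx
      have hp2 : P.p * P.be = P.al + 2 := div_mul_cancel₀ _ P.be_pos.ne'
      have hdim : P.dim = P.al + P.be + 2 := rfl
      have hcD : O.crv x * (P.be + P.al * O.psi x) = P.dim * O.psi x := by
        rw [hc, div_mul_cancel₀ _ hden.ne']
      rw [hl, add_zero]
      simp only [aa] at h ⊢
      apply mul_left_cancel₀ (mul_ne_zero (mul_ne_zero two_ne_zero hal.ne') hden.ne')
      have hne := hden.ne'
      set D := P.be + P.al * O.psi x with hD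
      rw [show 2 * P.al * D * (x * (((P.al * O.crv x - P.dim) * (O.a x * (O.psi x ^ 2 - O.psi x))
          + D * O.crv1 x) / P.al)) = 2 * D * x * ((P.al * O.crv x - P.dim) *
          (O.a x * (O.psi x ^ 2 - O.psi x)) + D * O.crv1 x) by field_simp,
        show 2 * P.al * D * (P.dim * O.psi x * (P.p * P.al * O.psi x - P.be - 2) / (2 * P.al * D)
          * (D - 2 * x * O.a x * O.psi x)) = P.dim * O.psi x * (P.p * P.al * O.psi x - P.be - 2)
          * (D - 2 * x * O.a x * O.psi x) by field_simp]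
      rw [hD] at hcD ⊢
      linear_combination D ^ 2 * h
        + (2 * x * O.a x * (O.psi x ^ 2 - O.psi x) * P.al
          - (P.dim + 2) * D + 2 * x * O.a x * (2 * (O.crv x * D + P.dim * O.psi x)
            - D * (1 + P.p * O.psi x))) * hcD
        + (P.dim * O.psi x * D) * (hp2 - hdim)
        + (2 * x * O.a x * P.dim * O.psi x ^ 2) * (2 * hdim - hp2)
    rw [e]
    have := p_al_psi hx (hd x hx)
    exact mul_pos (div_pos (mul_pos (mul_pos hN hpsi) (by linarith))
      (mul_pos (mul_pos two_pos hal) hden)) (sub_pos.2 (aa_psi_lt hx))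
  rcases le_total 0 z with h | h
  · have hsub : Icc 0 z ⊆ O.dom := O.conn.out O.zero_mem hz
    refine pos_of_deriv_pos_at_zeros (fun x hx => hasDerivAt_lam (hsub hx)) h0
      (fun x hx hl => ?_) z ⟨h, le_rfl⟩
    exact pos_of_mul_pos_right (key x (hsub (Ioc_subset_Icc_self hx)) hx.1.ne' hl) hx.1.le
  · have hsub : Icc z 0 ⊆ O.dom := O.conn.out hz O.zero_mem
    refine pos_of_deriv_neg_at_zeros (fun x hx => hasDerivAt_lam (hsub hx)) h0
      (fun x hx hl => ?_) z ⟨le_rfl, h⟩
    exact neg_of_mul_pos_right (key x (hsub (Ico_subset_Icc_self hx)) hx.2.ne hl) hx.2.le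

end Orb

end

end Vale.Agent.P100.Ground
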