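import Vale.Agent.P100.Ground.Sol

/-! P100, critical ground state: shooting. The boundary of the set of parameters for which the rate
`2 z b` passes `N - 2` with a positive defect gives a global orbit with a positive defect. -/

namespace Vale.Agent.P100.Ground

noncomputable section

open Set Filter Topology

variable (P : Par) (c : Clamp) (t : ℝ)

/-- The defect of the clamped solution. -/
def solDel (z : ℝ) : ℝ :=
  P.al * (-solV1 P c t z / (sol P c t z).2) - P.be * (-solU1 P c t z / (sol P c t z).1)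

/-- `2 z b` of the clamped solution. -/
def solBB (z : ℝ) : ℝ := 2 * z * (-solV1 P c t z / (sol P c t z).2)

/-- The solution stays strictly inside the levels, has a positive defect and reaches `2 z b > N - 2`. -/
def Hit (t : ℝ) : Prop :=
  ∃ (c : Clamp) (R : ℝ), 0 ≤ R ∧ Icc 0 R ⊆ inside P c t ∧ (∀ z ∈ Icc 0 R, 0 < solDel P c t z) ∧
    P.dim - 2 < solBB P c t R

lemma continuousAt_solDel {t z : ℝ} (h : z ∈ inside P c t) :
    ContinuousAt (fun x : ℝ × ℝ => solDel P c x.1 x.2) (t, z) := by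
  have hU : (sol P c t z).1 ≠ 0 := (c.lo_pos.trans h.1.1).ne'
  have hV : (sol P c t z).2 ≠ 0 := (c.lo_pos.trans h.2.1).ne'
  exact ((continuous_solV1 P c).continuousAt.neg.div (continuous_sol P c).snd.continuousAt hV
    |>.const_mul P.al).sub
    ((continuous_solU1 P c).continuousAt.neg.div (continuous_sol P c).fst.continuousAt hU
    |>.const_mul P.be)

lemma continuousAt_solBB {t z : ℝ} (h : z ∈ inside P c t) :
    ContinuousAt (fun x : ℝ × ℝ => solBB P c x.1 x.2) (t, z) := by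
  have hV : (sol P c t z).2 ≠ 0 := (c.lo_pos.trans h.2.1).ne'
  exact ((continuous_const.mul continuous_snd).continuousAt).mul
    ((continuous_solV1 P c).continuousAt.neg.div (continuous_sol P c).snd.continuousAt hV)

lemma eventually_inside {K : Set ℝ} (hK : IsCompact K) (h : K ⊆ inside P c t) :
    ∀ᶠ s in 𝓝 t, K ⊆ inside P c s := by
  refine hK.eventually_forall_of_forall_eventually fun z hz => ?_
  have hc := continuous_sol P c
  exact ((isOpen_Ioo.preimage hc.fst).inter (isOpen_Ioo.preimage hc.snd)).eventually_mem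
    (x := (t, z)) (h hz)

lemma eventually_hit {t : ℝ} (h : Hit P t) : ∀ᶠ s in 𝓝 t, Hit P s := by
  obtain ⟨c, R, hR, hin, hdel, hbb⟩ := h
  have h1 := eventually_inside P c t isCompact_Icc hin
  have h2 : ∀ᶠ s in 𝓝 t, ∀ z ∈ Icc 0 R, 0 < solDel P c s z :=
    isCompact_Icc.eventually_forall_of_forall_eventually fun z hz =>
      (continuousAt_solDel P c (hin hz)).eventually_const_lt (hdel z hz)
  have h3 : ∀ᶠ s in 𝓝 t, P.dim - 2 < solBB P c s R := by
    have hm : Tendsto (fun s : ℝ => ((s, R) : ℝ × ℝ)) (𝓝 t) (𝓝 (t, R)) :=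
      (continuous_id.prodMk continuous_const).tendsto t
    exact (Tendsto.comp (continuousAt_solBB P c (hin ⟨hR, le_rfl⟩)) hm).eventually_const_lt hbb
  filter_upwards [h1, h2, h3] with s a b d
  exact ⟨c, R, hR, a, b, d⟩

variable {P c t}

lemma Icc_subset_dom {R : ℝ} (h : Icc 0 R ⊆ inside P c t) {z : ℝ} (hz : z ∈ Icc 0 R) :
    z ∈ dom P c t :=
  mem_dom P c t (by rw [uIcc_of_le hz.1]; exact (Icc_subset_Icc le_rfl hz.2).trans h)

lemma theta_lt_of_del (h0 : (0 : ℝ) ∈ inside P c t) (hd : 0 < solDel P c t 0) :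
    t ^ (P.p + 1) * P.be < P.al * (1 - t) ^ (P.q + 1) := by
  let O := orb P c t h0
  have hu : O.U 0 = 1 - t := congrArg Prod.fst (sol_zero P c t)
  have hv : O.V 0 = t := congrArg Prod.snd (sol_zero P c t)
  have hd' : 0 < O.del 0 := hd
  have h := O.eq_del O.zero_mem
  have hpos : 0 < O.frc 0 := by
    rw [← h, mul_zero, zero_mul, zero_add]
    exact mul_pos (zero_lt_two.trans P.two_lt_dim) hd'
  simp only [Orb.frc, mul_zero, zero_mul, add_zero] at hpos
  rw [O.pt_eq O.zero_mem] at hpos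
  have hq := O.qt_pos O.zero_mem
  have hlt : O.theta 0 * P.be < P.al := by
    by_contra hge
    have := mul_le_mul_of_nonneg_right (not_lt.1 hge) hq.le
    linarith
  rw [O.theta_eq O.zero_mem, hu, hv] at hlt
  have hut : 0 < 1 - t := hu ▸ O.posU 0 O.zero_mem
  rw [div_mul_eq_mul_div, div_lt_iff₀ (Real.rpow_pos_of_pos hut _)] at hlt
  exact hlt

lemma Hit.mem_Ioo (h : Hit P t) : t ∈ Ioo 0 1 := by
  obtain ⟨c, R, hR, hin, -, -⟩ := h
  obtain ⟨⟨hu, -⟩, ⟨hv, -⟩⟩ := hin ⟨le_rfl, hR⟩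
  rw [sol_zero] at hu hv
  have := c.lo_pos
  constructor <;> linarith

lemma Hit.theta_lt (h : Hit P t) : t ^ (P.p + 1) * P.be < P.al * (1 - t) ^ (P.q + 1) := by
  obtain ⟨c, R, hR, hin, hd, -⟩ := h
  exact theta_lt_of_del (hin ⟨le_rfl, hR⟩) (hd 0 ⟨le_rfl, hR⟩)

variable (P)

lemma exists_hit_param : ∃ t, Hit P t := by
  have hN := P.two_lt_dim
  have hq := P.q_pos
  have hp := P.p_pos
  have hal := P.al_pos
  have hbe := P.be_pos
  set c0 : ℝ := (1 / 4 : ℝ) ^ P.q / P.dim with hc0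
  have hc0pos : 0 < c0 := by positivity
  set e : ℝ := min (1 / 2) c0 with he
  have hepos : 0 < e := lt_min (by norm_num) hc0pos
  have he1 : e ≤ 1 / 2 := min_le_left _ _
  have he2 : e ≤ c0 := min_le_right _ _
  obtain ⟨t, ht0, ht⟩ := exists_between (show (0 : ℝ) < min (1 / 4) (min (c0 * P.dim / 4)
    (P.al * c0 * P.dim / (4 * P.be))) by positivity)
  simp only [lt_min_iff] at ht
  obtain ⟨ht1, ht2, ht3⟩ := ht
  have het : e * t / 2 ≤ 2 := by nlinarith
  let c : Clamp := ⟨e * t / 2, 2, by positivity, het⟩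
  let U := fun z => (sol P c t z).1
  let V := fun z => (sol P c t z).2
  have hU0 : U 0 = 1 - t := congrArg Prod.fst (sol_zero P c t)
  have hV0 : V 0 = t := congrArg Prod.snd (sol_zero P c t)
  have hUle : ∀ z, 0 ≤ z → U z ≤ 1 - t := fun z hz => hU0 ▸ (antitone_solU P c t).antitone hz
  have hVle : ∀ z, 0 ≤ z → V z ≤ t := fun z hz => hV0 ▸ (antitone_solV P c t).antitone hz
  have hcont : ∀ (k : ℝ) (w : ℝ → ℝ), Continuous w → ∀ z, ContinuousOn (fun x => c.pw k (w x))
      (uIcc 0 z) := fun k w hw z => ((c.continuous_pw k).comp hw).continuousOn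
  have hcl : ∀ k x : ℝ, 0 < k → x ≤ 1 → c.pw k x ≤ 1 := by
    intro k x hk hx
    refine Real.rpow_le_one (c.lo_pos.trans_le (c.cut_mem x).1).le
      ((min_le_left _ _).trans (max_le hx ?_)) hk.le
    change e * t / 2 ≤ 1
    nlinarith
  have havP : ∀ z, 0 ≤ z → av P.dim (fun x => c.pw P.p (V x)) z ≤ 1 / P.dim := fun z hz =>
    av_le P.one_le_dim (hcont _ _ (continuous_sol_right P c t).snd z) fun x hx => by
      rw [uIcc_of_le hz] at hx
      exact hcl _ _ hp (by linarith [hVle x hx.1])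
  have havQ : ∀ z, 0 ≤ z → av P.dim (fun x => c.pw P.q (U x)) z ≤ 1 / P.dim := fun z hz =>
    av_le P.one_le_dim (hcont _ _ (continuous_sol_right P c t).fst z) fun x hx => by
      rw [uIcc_of_le hz] at hx
      exact hcl _ _ hq (by linarith [hUle x hx.1])
  -- crude linear bounds
  have lin : ∀ (w w' : ℝ → ℝ) (k : ℝ) (Z : ℝ), 0 ≤ Z → (∀ x, HasDerivAt w (w' x) x) →
      (∀ x ∈ Icc 0 Z, k ≤ w' x) → w 0 + k * Z ≤ w Z := by
    intro w w' k Z hZ hw hk
    have := monotoneOn_of_hasDerivWithinAt_nonneg (convex_Icc 0 Z) (f := fun x => w x - k * x)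
      (fun x _ => ((hw x).sub ((hasDerivAt_id x).const_mul k)).continuousAt.continuousWithinAt)
      (f' := fun x => w' x - k * 1)
      (fun x _ => ((hw x).sub ((hasDerivAt_id x).const_mul k)).hasDerivWithinAt)
      (fun x hx => by rw [interior_Icc] at hx; linarith [hk x ⟨hx.1.le, hx.2.le⟩])
      (left_mem_Icc.2 hZ) (right_mem_Icc.2 hZ) hZ
    simp only [mul_zero, sub_zero] at this
    linarith
  have hUge : ∀ z, 0 ≤ z → z ≤ P.dim / 2 → 1 / 2 ≤ U z := by
    intro z hz hz'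
    have := lin U (solU1 P c t) (-(1 / P.dim) / 2) z hz (hasDerivAt_solU P c t) fun x hx => by
      have := havP x hx.1
      simp only [solU1, V] at *
      linarith
    rw [hU0] at this
    have h1 : 1 / P.dim / 2 * z ≤ 1 / 4 := by
      have : 1 / P.dim / 2 * (P.dim / 2) = 1 / 4 := by field_simp; ring
      rw [← this]; gcongr
    linarith
  have havQ' : ∀ z, 0 ≤ z → z ≤ P.dim / 2 → c0 ≤ av P.dim (fun x => c.pw P.q (U x)) z :=
    fun z hz hz' => le_av P.one_le_dim (hcont _ _ (continuous_sol_right P c t).fst z) fun x hx => by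
      rw [uIcc_of_le hz] at hx
      refine Real.rpow_le_rpow (by norm_num) ?_ hq.le
      exact le_min ((le_max_left _ _).trans' (by linarith [hUge x hx.1 (hx.2.trans hz')]))
        (by change (1 / 4 : ℝ) ≤ 2; norm_num)
  set z1 := 2 * t / c0 with hz1
  have hz1pos : 0 ≤ z1 := by positivity
  have hz1N : z1 ≤ P.dim / 2 := by
    rw [hz1, div_le_iff₀ hc0pos]; linarith
  have hVz1 : V z1 ≤ 0 := by
    have := lin (fun x => -V x) (fun x => -solV1 P c t x) (c0 / 2) z1 hz1pos
      (fun x => (hasDerivAt_solV P c t x).neg) fun x hx => by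
        have := havQ' x hx.1 (hx.2.trans hz1N)
        simp only [solV1, U] at *
        linarith
    simp only [hV0] at this
    have : c0 / 2 * z1 = t := by rw [hz1]; field_simp
    linarith
  have het0 : 0 < e * t := by positivity
  have hett : e * t ≤ t / 2 := by nlinarith
  obtain ⟨R, hR, hVR⟩ := intermediate_value_Icc' hz1pos
    (continuous_sol_right P c t).snd.continuousOn (show e * t ∈ Icc (V z1) (V 0) from
      ⟨by linarith, by linarith⟩)
  have hVR : V R = e * t := hVR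
  have hRN : R ≤ P.dim / 2 := hR.2.trans hz1N
  have hVge : ∀ z ∈ Icc 0 R, e * t ≤ V z := fun z hz =>
    hVR ▸ (antitone_solV P c t).antitone hz.2
  have hin : Icc 0 R ⊆ inside P c t := fun z hz =>
    ⟨⟨show e * t / 2 < U z by linarith [hUge z hz.1 (hz.2.trans hRN)],
      show U z < 2 by linarith [hUle z hz.1]⟩,
     ⟨show e * t / 2 < V z by linarith [hVge z hz],
      show V z < 2 by linarith [hVle z hz.1]⟩⟩
  have hRlow : P.dim * t ≤ R := by
    have := lin V (solV1 P c t) (-(1 / P.dim) / 2) R hR.1 (hasDerivAt_solV P c t) fun x hx => by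
      have := havQ x hx.1
      simp only [solV1, U] at *
      linarith
    rw [hV0, hVR] at this
    have h1 : t / 2 ≤ 1 / P.dim / 2 * R := by linarith
    have h2 : 1 / P.dim / 2 * R = R / P.dim / 2 := by ring
    rw [h2, div_le_div_iff_of_pos_right (by norm_num), le_div_iff₀ (by linarith)] at h1
    linarith
  refine ⟨t, c, R, hR.1, hin, fun z hz => ?_, ?_⟩
  · have hu := hUge z hz.1 (hz.2.trans hRN)
    have hv := hVge z hz
    have h1 : P.al * c0 / (2 * t) ≤ P.al * (-solV1 P c t z / V z) := by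
      rw [mul_div_assoc]
      refine mul_le_mul_of_nonneg_left ?_ hal.le
      rw [show c0 / (2 * t) = c0 / 2 / t by ring]
      refine div_le_div₀ (neg_nonneg.2 (solV1_neg P c t z).le) ?_ (by linarith) (hVle z hz.1)
      have := havQ' z hz.1 (hz.2.trans hRN)
      simp only [solV1, U] at *
      linarith
    have h2 : P.be * (-solU1 P c t z / U z) ≤ P.be / P.dim := by
      rw [div_eq_mul_one_div P.be]
      refine mul_le_mul_of_nonneg_left ?_ hbe.le
      rw [div_le_iff₀ (by linarith)]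
      have := havP z hz.1
      have h3 : 1 / P.dim * (1 / 2) ≤ 1 / P.dim * U z := by gcongr
      simp only [solU1, V] at *
      linarith
    have h3 : P.be / P.dim < P.al * c0 / (2 * t) := by
      rw [div_lt_div_iff₀ (by linarith) (by linarith)]
      have h4 := (lt_div_iff₀ (by positivity : (0 : ℝ) < 4 * P.be)).1 ht3
      nlinarith [mul_pos hbe ht0]
    show 0 < P.al * (-solV1 P c t z / V z) - P.be * (-solU1 P c t z / U z)
    linarith
  · show P.dim - 2 < 2 * R * (-solV1 P c t R / V R)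
    rw [hVR]
    have h := havQ' R hR.1 hRN
    have h1 : c0 / 2 ≤ -solV1 P c t R := by
      simp only [solV1, U] at *
      linarith
    have h2 : 2 * (P.dim * t) * (c0 / 2 / (e * t)) ≤ 2 * R * (-solV1 P c t R / (e * t)) := by
      have := hR.1
      gcongr
    have h3 : 2 * (P.dim * t) * (c0 / 2 / (e * t)) = P.dim * (c0 / e) := by
      have := ht0.ne'; have := hepos.ne'; field_simp
    have h4 : P.dim ≤ P.dim * (c0 / e) :=
      le_mul_of_one_le_right (by linarith) ((one_le_div hepos).2 he2)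
    linarith

lemma exists_boundary : ∃ t ∈ Ioo (0 : ℝ) 1, ¬Hit P t ∧ ∀ U ∈ 𝓝 t, ∃ s ∈ U, Hit P s := by
  obtain ⟨t0, ht0⟩ := exists_hit_param P
  set S := {t | Hit P t} with hS
  have hne : S.Nonempty := ⟨t0, ht0⟩
  have hbdd : BddAbove S := ⟨1, fun t ht => (Hit.mem_Ioo ht).2.le⟩
  have hcl := csSup_mem_closure hne hbdd
  have hnot : ¬Hit P (sSup S) := by
    intro h
    obtain ⟨s, hs, hs'⟩ := ((Filter.Eventually.filter_mono nhdsWithin_le_nhds
      (eventually_hit P h)).and (self_mem_nhdsWithin (s := Ioi (sSup S)))).exists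
    exact absurd (le_csSup hbdd hs) (not_le.2 hs')
  refine ⟨sSup S, ⟨(Hit.mem_Ioo ht0).1.trans_le (le_csSup hbdd ht0),
    lt_of_le_of_ne (csSup_le hne fun t ht => (Hit.mem_Ioo ht).2.le) ?_⟩, hnot,
    fun U hU => mem_closure_iff_nhds.1 hcl U hU⟩
  intro h1
  have hc1 : Continuous fun t : ℝ => t ^ (P.p + 1) * P.be :=
    (continuous_id.rpow_const fun _ => Or.inr (by linarith [P.p_pos])).mul continuous_const
  have hc2 : Continuous fun t : ℝ => P.al * (1 - t) ^ (P.q + 1) :=
    continuous_const.mul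
      ((continuous_const.sub continuous_id).rpow_const fun _ => Or.inr (by linarith [P.q_pos]))
  have := (closure_minimal (fun t (ht : Hit P t) => (Hit.theta_lt ht).le)
    (isClosed_le hc1 hc2)) hcl
  rw [h1] at this
  change (1 : ℝ) ^ (P.p + 1) * P.be ≤ P.al * (1 - 1) ^ (P.q + 1) at this
  rw [sub_self, Real.one_rpow, Real.zero_rpow (show P.q + 1 ≠ 0 by linarith [P.q_pos]), mul_zero, one_mul] at this
  linarith [P.be_pos]

variable {P}

/-- Two clamps agree where both are respected. -/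
lemma sol_eq_of_inside {c c' : Clamp} {t z : ℝ} (h : uIcc 0 z ⊆ inside P c t)
    (h' : uIcc 0 z ⊆ inside P c' t) : EqOn (sol P c t) (sol P c' t) (uIcc 0 z) := by
  let d : Clamp := ⟨min c.lo c'.lo, max c.hi c'.hi, lt_min c.lo_pos c'.lo_pos,
    (min_le_left _ _).trans (c.lo_le.trans (le_max_left _ _))⟩
  have e1 := sol_eq_of_mem P c t (c' := d) h fun x hx =>
    ⟨⟨(min_le_left _ _).trans (h hx).1.1.le, (h hx).1.2.le.trans (le_max_left _ _)⟩,
     ⟨(min_le_left _ _).trans (h hx).2.1.le, (h hx).2.2.le.trans (le_max_left _ _)⟩⟩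
  have e2 := sol_eq_of_mem P c' t (c' := d) h' fun x hx =>
    ⟨⟨(min_le_right _ _).trans (h' hx).1.1.le, (h' hx).1.2.le.trans (le_max_right _ _)⟩,
     ⟨(min_le_right _ _).trans (h' hx).2.1.le, (h' hx).2.2.le.trans (le_max_right _ _)⟩⟩
  exact e1.trans e2.symm

lemma av_sol_congr {c c' : Clamp} {t z : ℝ} (h : uIcc 0 z ⊆ inside P c t)
    (h' : uIcc 0 z ⊆ inside P c' t) :
    solU1 P c t z = solU1 P c' t z ∧ solV1 P c t z = solV1 P c' t z := by
  have e := sol_eq_of_inside h h'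
  constructor
  · simp only [solU1]
    rw [av_congr (g := fun x => c'.pw P.p (sol P c' t x).2) fun x hx => ?_]
    simp only [Clamp.pw]
    rw [← e hx, c.cut_eq (Ioo_subset_Icc_self (h hx).2),
      c'.cut_eq (by rw [e hx]; exact Ioo_subset_Icc_self (h' hx).2)]
  · simp only [solV1]
    rw [av_congr (g := fun x => c'.pw P.q (sol P c' t x).1) fun x hx => ?_]
    simp only [Clamp.pw]
    rw [← e hx, c.cut_eq (Ioo_subset_Icc_self (h hx).1),
      c'.cut_eq (by rw [e hx]; exact Ioo_subset_Icc_self (h' hx).1)]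

lemma solDel_congr {c c' : Clamp} {t z : ℝ} (h : uIcc 0 z ⊆ inside P c t)
    (h' : uIcc 0 z ⊆ inside P c' t) :
    solDel P c t z = solDel P c' t z ∧ solBB P c t z = solBB P c' t z := by
  obtain ⟨e1, e2⟩ := av_sol_congr h h'
  simp only [solDel, solBB, e1, e2, sol_eq_of_inside h h' right_mem_uIcc, and_self]

lemma exists_longer {c : Clamp} {t R : ℝ} (hR : 0 ≤ R) (hin : Icc 0 R ⊆ inside P c t) :
    ∃ R' > R, Icc 0 R' ⊆ inside P c t := by
  obtain ⟨r, hr, hsub⟩ := Metric.isOpen_iff.1 (isOpen_inside P c t) R (hin ⟨hR, le_rfl⟩)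
  refine ⟨R + r / 2, by linarith, fun z hz => ?_⟩
  by_cases h : z ≤ R
  · exact hin ⟨hz.1, h⟩
  · exact hsub (by rw [Real.ball_eq_Ioo]; constructor <;> linarith [hz.2, not_le.1 h])

lemma solDel_nonneg_of_limit {c : Clamp} {t R : ℝ}
    (hlim : ∀ U ∈ 𝓝 t, ∃ s ∈ U, Hit P s) (hin : Icc 0 R ⊆ inside P c t) :
    ∀ z ∈ Icc 0 R, 0 ≤ solDel P c t z := by
  intro z hz
  by_contra hneg
  have hm : Tendsto (fun s : ℝ => ((s, z) : ℝ × ℝ)) (𝓝 t) (𝓝 (t, z)) :=
    (continuous_id.prodMk continuous_const).tendsto t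
  have h1 : ∀ᶠ s in 𝓝 t, solDel P c s z < 0 :=
    (Tendsto.comp (continuousAt_solDel P c (hin hz)) hm).eventually_lt_const (not_le.1 hneg)
  obtain ⟨s, ⟨hs1, hs2⟩, c', R', hR', hin', hdel', hbb'⟩ :=
    hlim _ (h1.and (eventually_inside P c t isCompact_Icc hin))
  replace hs1 : solDel P c s z < 0 := hs1
  replace hs2 : Icc 0 R ⊆ inside P c s := hs2
  have hboth : ∀ y ∈ Icc 0 R, y ≤ R' → solDel P c s y = solDel P c' s y ∧
      solBB P c s y = solBB P c' s y := fun y hy hy' =>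
    solDel_congr (by rw [uIcc_of_le hy.1]; exact (Icc_subset_Icc le_rfl hy.2).trans hs2)
      (by rw [uIcc_of_le hy.1]; exact (Icc_subset_Icc le_rfl hy').trans hin')
  by_cases hzR : z ≤ R'
  · rw [(hboth z hz hzR).1] at hs1
    linarith [hdel' z ⟨hz.1, hzR⟩]
  · rw [not_le] at hzR
    obtain ⟨e1, e2⟩ := hboth R' ⟨hR', hzR.le.trans hz.2⟩ le_rfl
    have := (orb P c s (hs2 ⟨le_rfl, hz.1.trans hz.2⟩)).del_pos_of_bb hR'
      (Icc_subset_dom hs2 hz) (show P.dim - 2 < solBB P c s R' by rwa [e2])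
      (show 0 < solDel P c s R' by rw [e1]; exact hdel' R' ⟨hR', le_rfl⟩) z ⟨hzR.le, le_rfl⟩
    exact absurd hs1 (not_lt.2 (show (0 : ℝ) < solDel P c s z from this).le)

variable (P)

/-- A parameter whose orbit is global on `z ≥ 0` with a positive defect. -/
theorem exists_shot : ∃ t ∈ Ioo (0 : ℝ) 1, ∀ R, 0 ≤ R → ∃ c : Clamp, Icc 0 R ⊆ inside P c t ∧
    ∀ z ∈ Icc 0 R, 0 < solDel P c t z ∧ solBB P c t z ≤ P.dim - 2 := by
  obtain ⟨t, ht, hnot, hlim⟩ := exists_boundary P
  have hal := P.al_pos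
  have hbe := P.be_pos
  have hN := P.two_lt_dim
  have good : ∀ (c : Clamp) (R : ℝ), 0 ≤ R → Icc 0 R ⊆ inside P c t →
      ∀ z ∈ Icc 0 R, 0 < solDel P c t z ∧ solBB P c t z ≤ P.dim - 2 := by
    intro c R hR hin
    obtain ⟨R', hRR', hin'⟩ := exists_longer hR hin
    have hnn := solDel_nonneg_of_limit hlim hin'
    have hpos : ∀ z ∈ Icc 0 R, 0 < solDel P c t z := by
      intro z hz
      have hzR : z ∈ Icc 0 R' := ⟨hz.1, hz.2.trans hRR'.le⟩
      refine lt_of_le_of_ne (hnn z hzR) (Ne.symm ?_)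
      refine (orb P c t (hin ⟨le_rfl, hR⟩)).del_ne_zero_of_nonneg (Icc_subset_dom hin' hzR) hz.1
        ?_ fun hz0 => ?_
      · filter_upwards [Ico_mem_nhdsGE (show z < R' by linarith [hz.2])] with y hy
        exact hnn y ⟨hz.1.trans hy.1, hy.2.le⟩
      · filter_upwards [Icc_mem_nhds hz0 (show z < R' by linarith [hz.2])] with y hy
        exact hnn y hy
    refine fun z hz => ⟨hpos z hz, not_lt.1 fun hbb => hnot ⟨c, z, hz.1,
      (Icc_subset_Icc le_rfl hz.2).trans hin, fun y hy => hpos y ⟨hy.1, hy.2.trans hz.2⟩, hbb⟩⟩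
  refine ⟨t, ht, fun R hR => ?_⟩
  suffices h : ∃ c : Clamp, Icc 0 R ⊆ inside P c t by
    obtain ⟨c, hc⟩ := h; exact ⟨c, hc, good c R hR hc⟩
  -- a first short segment
  have hmin : 0 < min t (1 - t) := lt_min ht.1 (by linarith [ht.2])
  let c1 : Clamp := ⟨min t (1 - t) / 2, 2, by linarith, by linarith [min_le_left t (1 - t), ht.2]⟩
  have h01 : (0 : ℝ) ∈ inside P c1 t := by
    simp only [inside, mem_ofPred_eq, mem_Ioo, sol_zero, c1]
    refine ⟨⟨?_, ?_⟩, ?_, ?_⟩ <;> linarith [min_le_left t (1 - t), min_le_right t (1 - t), ht.1, ht.2]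
  obtain ⟨z1, hz1, hin1⟩ := exists_longer le_rfl (c := c1) (t := t) (R := 0)
    (fun z hz => by rw [le_antisymm hz.2 hz.1]; exact h01)
  rcases le_or_gt R z1 with hRz | hRz
  · exact ⟨c1, (Icc_subset_Icc le_rfl hRz).trans hin1⟩
  set K : ℝ := P.al / P.be * (P.dim - 2) with hK
  have hK0 : 0 ≤ K := mul_nonneg (div_pos hal hbe).le (by linarith)
  set U1 := (sol P c1 t z1).1 with hU1
  set V1 := (sol P c1 t z1).2 with hV1
  have hm1 : 0 < min U1 V1 := lt_min (c1.lo_pos.trans (hin1 ⟨hz1.le, le_rfl⟩).1.1)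
    (c1.lo_pos.trans (hin1 ⟨hz1.le, le_rfl⟩).2.1)
  set w : ℝ := (z1 / R) ^ (K / 2) with hw
  have hw0 : 0 < w := Real.rpow_pos_of_pos (div_pos hz1 (hz1.trans hRz)) _
  set lo : ℝ := min c1.lo (min U1 V1 * w / 2) with hlo
  have hlo0 : 0 < lo := lt_min c1.lo_pos (by positivity)
  let c : Clamp := ⟨lo, 2, hlo0, (min_le_left _ _).trans c1.lo_le⟩
  refine ⟨c, ?_⟩
  -- the old segment is respected
  have e1 : EqOn (sol P c1 t) (sol P c t) (uIcc 0 z1) :=
    sol_eq_of_mem P c1 t (c' := c) (by rwa [uIcc_of_le hz1.le]) fun x hx => by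
      rw [uIcc_of_le hz1.le] at hx
      exact ⟨⟨(min_le_left _ _).trans (hin1 hx).1.1.le, (hin1 hx).1.2.le⟩,
        ⟨(min_le_left _ _).trans (hin1 hx).2.1.le, (hin1 hx).2.2.le⟩⟩
  have hold : Icc 0 z1 ⊆ inside P c t := fun x hx => by
    simp only [inside, mem_ofPred_eq, ← e1 (by rw [uIcc_of_le hz1.le]; exact hx)]
    exact ⟨⟨(min_le_left _ _).trans_lt (hin1 hx).1.1, (hin1 hx).1.2⟩,
      ⟨(min_le_left _ _).trans_lt (hin1 hx).2.1, (hin1 hx).2.2⟩⟩
  by_contra hnotin
  obtain ⟨y, hy, hy'⟩ := not_subset.1 hnotin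
  obtain ⟨m, hm, hleast⟩ := (isCompact_Icc.of_isClosed_subset
    (isClosed_Icc.inter (isOpen_inside P c t).isClosed_compl)
    inter_subset_left).exists_isLeast (s := Icc 0 R ∩ (inside P c t)ᶜ) ⟨y, hy, hy'⟩
  obtain ⟨⟨hm0, hmR⟩, hmout⟩ := hm
  have hzm : z1 < m := not_le.1 fun h => hmout (hold ⟨hm0, h⟩)
  have hbefore : ∀ x, x < m → Icc 0 x ⊆ inside P c t := fun x hx a ha => by
    by_contra hna
    exact absurd (hleast ⟨⟨ha.1, ha.2.trans (hx.le.trans hmR)⟩, hna⟩) (not_le.2 (ha.2.trans_lt hx))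
  -- lower bound by a power
  have power : ∀ (f f' : ℝ → ℝ), (∀ x, HasDerivAt f (f' x) x) →
      (∀ x ∈ Ioo z1 m, 0 ≤ f' x * x + K / 2 * f x) →
      f z1 * z1 ^ (K / 2) ≤ f m * m ^ (K / 2) := by
    intro f f' hf hb
    refine monotoneOn_of_hasDerivWithinAt_nonneg (convex_Icc z1 m)
      (f := fun x => f x * x ^ (K / 2)) (f' := fun x => x ^ (K / 2 - 1) * (f' x * x + K / 2 * f x))
      (fun x _ => ((hf x).continuousAt.mul
        (Real.continuousAt_rpow_const _ _ (Or.inr (by linarith)))).continuousWithinAt)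
      (fun x hx => ?_) (fun x hx => ?_) (left_mem_Icc.2 hzm.le) (right_mem_Icc.2 hzm.le) hzm.le
    · rw [interior_Icc] at hx ⊢
      have hx0 : 0 < x := hz1.trans hx.1
      refine ((hf x).mul (Real.hasDerivAt_rpow_const (p := K / 2) (Or.inl hx0.ne'))
        |>.congr_deriv ?_).hasDerivWithinAt
      rw [Real.rpow_sub_one hx0.ne']
      field_simp
    · rw [interior_Icc] at hx
      exact mul_nonneg (Real.rpow_nonneg (hz1.trans hx.1).le _) (hb x hx)
  have hrates : ∀ x ∈ Ioo z1 m,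
      0 ≤ solU1 P c t x * x + K / 2 * (sol P c t x).1 ∧
      0 ≤ solV1 P c t x * x + K / 2 * (sol P c t x).2 := by
    intro x hx
    have hx0 : 0 ≤ x := (hz1.trans hx.1).le
    have hin := hbefore x hx.2
    obtain ⟨hd, hb⟩ := good c x hx0 hin x ⟨hx0, le_rfl⟩
    have hu : 0 < (sol P c t x).1 := c.lo_pos.trans (hin ⟨hx0, le_rfl⟩).1.1
    have hv : 0 < (sol P c t x).2 := c.lo_pos.trans (hin ⟨hx0, le_rfl⟩).2.1
    simp only [solBB] at hb
    simp only [solDel] at hd
    have hbK : 2 * x * (-solV1 P c t x / (sol P c t x).2) ≤ K :=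
      hb.trans (le_mul_of_one_le_left (by linarith) ((one_le_div hbe).2 P.be_lt.le))
    have haK : 2 * x * (-solU1 P c t x / (sol P c t x).1) ≤ K := by
      rw [hK, div_mul_eq_mul_div, le_div_iff₀ hbe]
      have h1 := mul_le_mul_of_nonneg_left hd.le (by linarith : 0 ≤ 2 * x)
      have h2 := mul_le_mul_of_nonneg_left hb hal.le
      linarith
    have h1 := mul_le_mul_of_nonneg_right haK hu.le
    have h2 := mul_le_mul_of_nonneg_right hbK hv.le
    rw [mul_assoc, div_mul_cancel₀ _ hu.ne'] at h1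
    rw [mul_assoc, div_mul_cancel₀ _ hv.ne'] at h2
    constructor <;> linarith
  have pU := power _ _ (hasDerivAt_solU P c t) fun x hx => (hrates x hx).1
  have pV := power _ _ (hasDerivAt_solV P c t) fun x hx => (hrates x hx).2
  have hm' : 0 < m := hz1.trans hzm
  have hfin : ∀ f1 fm : ℝ, min U1 V1 ≤ f1 → f1 * z1 ^ (K / 2) ≤ fm * m ^ (K / 2) → lo < fm := by
    intro f1 fm h1 h2
    have h3 : lo < min U1 V1 * w :=
      (min_le_right _ _).trans_lt (by linarith [mul_pos hm1 hw0])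
    have hR0 : 0 < R := hz1.trans hRz
    have h4 : min U1 V1 * w ≤ f1 * (z1 / m) ^ (K / 2) := by
      rw [hw]
      have : 0 ≤ K / 2 := by linarith
      have : 0 ≤ z1 / R := (div_pos hz1 hR0).le
      have : z1 / R ≤ z1 / m := div_le_div_of_nonneg_left hz1.le hm' hmR
      gcongr
      exact hm1.le.trans h1
    rw [Real.div_rpow hz1.le hm'.le, mul_div_assoc'] at h4
    have hp : 0 < m ^ (K / 2) := Real.rpow_pos_of_pos hm' _
    have h5 : f1 * z1 ^ (K / 2) / m ^ (K / 2) ≤ fm := (div_le_iff₀ hp).2 h2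
    linarith
  rw [← e1 right_mem_uIcc] at pU pV
  have hU0 : (sol P c t m).1 < 2 := by
    have := (antitone_solU P c t).antitone hm0
    simp only [sol_zero] at this
    linarith [ht.1]
  have hV0 : (sol P c t m).2 < 2 := by
    have := (antitone_solV P c t).antitone hm0
    simp only [sol_zero] at this
    linarith [ht.2]
  exact hmout ⟨⟨hfin _ _ (min_le_left _ _) pU, hU0⟩, ⟨hfin _ _ (min_le_right _ _) pV, hV0⟩⟩

end

end Vale.Agent.P100.Ground
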