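import Vale.Agent.P100.Ground.Orb

/-! P100, critical ground state: Pohozaev identity and the sign of the monotonicity defect. -/

namespace Vale.Agent.P100.Ground

noncomputable section

open Set Filter Topology

namespace Orb

variable {P : Par} {O : Orb P} {z : ℝ}

lemma mem_of_mem_uIcc {x : ℝ} (hz : z ∈ O.dom) (hx : x ∈ uIcc 0 z) : x ∈ O.dom :=
  O.conn.uIcc_subset O.zero_mem hz hx

lemma poh_zero_at_zero : O.poh 0 = 0 := by
  have hu := O.posU 0 O.zero_mem
  have hv := O.posV 0 O.zero_mem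
  have : P.dim ≠ 0 := (zero_lt_two.trans P.two_lt_dim).ne'
  have h1 := O.odeU 0 O.zero_mem
  have h2 := O.odeV 0 O.zero_mem
  simp only [poh, Real.rpow_add_one hu.ne', Real.rpow_add_one hv.ne']
  field_simp
  linear_combination P.be * O.V 0 * h1 + P.al * O.U 0 * h2

lemma poh_eq_zero (hz : z ∈ O.dom) : O.poh z = 0 := by
  have hN : (0 : ℝ) < P.dim := zero_lt_two.trans P.two_lt_dim
  have hc : ContinuousOn O.poh (uIcc 0 z) := fun x hx =>
    (hasDerivAt_poh (mem_of_mem_uIcc hz hx)).continuousAt.continuousWithinAt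
  rcases lt_trichotomy z 0 with hneg | rfl | hpos
  · have hw : ContinuousOn (fun x => (-x) ^ (P.dim / 2) * O.poh x) (Icc z 0) :=
      ((continuous_neg.rpow_const fun _ => Or.inr (by linarith)).continuousOn).mul
        (by rwa [uIcc_of_ge hneg.le] at hc)
    obtain ⟨c, hcm, hceq⟩ := exists_hasDerivAt_eq_slope
      (fun x => (-x) ^ (P.dim / 2) * O.poh x) (fun _ => 0) hneg hw fun x hx => by
        have hxd : x ∈ O.dom := mem_of_mem_uIcc hz (by rw [uIcc_of_ge hneg.le]; exact ⟨hx.1.le, hx.2.le⟩)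
        have hx0 : (0 : ℝ) < -x := neg_pos.2 hx.2
        refine (((hasDerivAt_id x).neg.rpow_const (p := P.dim / 2) (Or.inl hx0.ne')).mul
          (hasDerivAt_poh hxd)).congr_deriv ?_
        simp only [id_eq, Pi.neg_apply]
        have hxne : x ≠ 0 := hx.2.ne
        rw [Real.rpow_sub_one hx0.ne', div_neg]
        field_simp
        linear_combination (-x) ^ (P.dim / 2) * eq_poh hxd
    rw [poh_zero_at_zero, mul_zero, eq_comm, div_eq_zero_iff] at hceq
    rcases hceq with h | h
    · have : (-z) ^ (P.dim / 2) ≠ 0 := (Real.rpow_pos_of_pos (neg_pos.2 hneg) _).ne'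
      simpa [this] using h
    · linarith
  · exact poh_zero_at_zero
  · have hw : ContinuousOn (fun x => x ^ (P.dim / 2) * O.poh x) (Icc 0 z) :=
      ((continuous_id.rpow_const fun _ => Or.inr (by linarith)).continuousOn).mul
        (by rwa [uIcc_of_le hpos.le] at hc)
    obtain ⟨c, hcm, hceq⟩ := exists_hasDerivAt_eq_slope
      (fun x => x ^ (P.dim / 2) * O.poh x) (fun _ => 0) hpos hw fun x hx => by
        have hxd : x ∈ O.dom := mem_of_mem_uIcc hz (by rw [uIcc_of_le hpos.le]; exact ⟨hx.1.le, hx.2.le⟩)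
        refine ((Real.hasDerivAt_rpow_const (p := P.dim / 2) (Or.inl hx.1.ne')).mul
          (hasDerivAt_poh hxd)).congr_deriv ?_
        rw [Real.rpow_sub_one hx.1.ne']
        have := hx.1.ne'
        field_simp
        linear_combination x ^ (P.dim / 2) * eq_poh hxd
    rw [poh_zero_at_zero, mul_zero, eq_comm, div_eq_zero_iff] at hceq
    rcases hceq with h | h
    · have : z ^ (P.dim / 2) ≠ 0 := (Real.rpow_pos_of_pos hpos _).ne'
      simpa [this] using h
    · linarith

/-- The Pohozaev identity in the rates. -/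
lemma poh_rates (hz : z ∈ O.dom) :
    4 * z * O.a z * O.b z + (P.be * O.pt z + P.al * O.qt z) / P.dim
      = 2 * (P.be * O.a z + P.al * O.b z) := by
  have hu := O.posU z hz
  have hv := O.posV z hz
  have : P.dim ≠ 0 := (zero_lt_two.trans P.two_lt_dim).ne'
  have h := poh_eq_zero hz
  simp only [poh, Real.rpow_add_one hu.ne', Real.rpow_add_one hv.ne'] at h
  simp only [a, b, pt, qt]
  field_simp
  field_simp at h
  linear_combination h

lemma b_eq_of_del (h : O.del z = 0) : O.b z = P.be / P.al * O.a z := by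
  have := P.al_pos.ne'
  simp only [del] at h
  field_simp
  linarith

/-- Where the defect and its forcing vanish the derivative of the forcing is negative. -/
lemma frc1_eq (hz : z ∈ O.dom) (hd : O.del z = 0) (hf : O.frc z = 0) :
    O.frc1 z = -(2 * P.be / P.al * (P.al - P.be) * O.a z ^ 2) := by
  have hal := P.al_pos.ne'
  have hbe := P.be_pos.ne'
  have hN : P.dim ≠ 0 := (zero_lt_two.trans P.two_lt_dim).ne'
  have ed := eq_del hz
  rw [hd, hf, mul_zero, add_zero] at ed
  have ea := eq_a hz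
  have hp := poh_rates hz
  simp only [frc1]
  simp only [frc] at hf
  simp only [del1] at ed
  rw [b_eq_of_del hd] at hf hp ⊢
  simp only [Par.p, Par.q]
  have eb : z * O.b1 z = P.be / P.al * (z * O.a1 z) := by field_simp; linear_combination ed / 2
  have hz1 : 4 * z * (P.al * (P.be / P.al * O.a z) * O.b1 z - P.be * O.a z * O.a1 z) =
      2 * P.be * O.a z * (P.be / P.al - 1) * (2 * z * O.a1 z) := by
    linear_combination 4 * P.al * (P.be / P.al * O.a z) * eb +
      (4 * z * P.be * O.a z * O.a1 z * P.be / P.al) * (div_self hal)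
  rw [hz1, ea]
  have hq : P.al * O.qt z = P.be * O.pt z + 4 * z * (P.be / P.al * (P.al - P.be)) * O.a z ^ 2 := by
    field_simp at hf ⊢
    linear_combination hf
  have key : 2 * P.al * P.be * O.pt z = 4 * P.dim * P.al * P.be * O.a z
      - 4 * P.dim * z * P.be * O.a z ^ 2 - 4 * z * P.be * (P.al - P.be) * O.a z ^ 2 := by
    field_simp at hp hq
    simp only [Par.dim] at hp ⊢
    linear_combination hp - hq
  have hpt' : O.pt z = 2 * P.dim * O.a z - 2 * z * O.a z ^ 2 / P.al * P.dim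
      - 2 * z * ((P.al - P.be) / P.al) * O.a z ^ 2 := by
    apply mul_left_cancel₀ (mul_ne_zero (mul_ne_zero two_ne_zero hal) hbe)
    rw [key]
    field_simp
    ring
  have hq' : O.qt z = (P.be * O.pt z + 4 * z * (P.be / P.al * (P.al - P.be)) * O.a z ^ 2) / P.al := by
    rw [← hq]; field_simp
  rw [hq', hpt']
  simp only [Par.dim]
  field_simp
  ring

/-- A nonnegative defect cannot vanish. -/
lemma del_ne_zero_of_nonneg (hz : z ∈ O.dom) (hz0 : 0 ≤ z)
    (hloc : ∀ᶠ y in 𝓝[≥] z, 0 ≤ O.del y) (hloc' : 0 < z → ∀ᶠ y in 𝓝 z, 0 ≤ O.del y) :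
    O.del z ≠ 0 := by
  intro hd
  have hf : O.frc z = 0 := by
    rw [← eq_del hz, hd, mul_zero, add_zero]
    rcases hz0.eq_or_lt with h | h
    · simp [← h]
    · have : IsLocalMin O.del z := (hloc' h).mono fun y hy => hd ▸ hy
      simp [this.hasDerivAt_eq_zero (hasDerivAt_del hz)]
  have hneg : O.frc1 z < 0 := by
    rw [frc1_eq hz hd hf, neg_lt_zero]
    have := a_pos hz
    have := P.al_pos
    have := P.be_pos
    have := sub_pos.2 P.be_lt
    positivity
  have h1 : ∀ᶠ y in 𝓝[>] z, O.frc y < 0 := by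
    have := ((hasDerivAt_iff_tendsto_slope.1 (hasDerivAt_frc hz)).mono_left
      (nhdsWithin_mono z fun y (hy : z < y) => hy.ne')).eventually_lt_const hneg
    filter_upwards [this, self_mem_nhdsWithin] with y hy hy'
    rw [slope_def_field, hf, sub_zero, div_lt_iff₀ (sub_pos.2 hy'), zero_mul] at hy
    exact hy
  have h2 : ∀ᶠ y in 𝓝[>] z, y ∈ O.dom ∧ 0 ≤ O.del y ∧ O.frc y < 0 :=
    ((Filter.Eventually.filter_mono nhdsWithin_le_nhds
      (O.isOpen.eventually_mem hz)).and
      ((hloc.filter_mono (nhdsWithin_mono z fun y (hy : z < y) => hy.le)).and h1))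
  obtain ⟨e, he, hsub⟩ := mem_nhdsGT_iff_exists_Ioc_subset.1 h2
  have hder : ∀ y ∈ Ioo z e, O.del1 y < 0 := by
    intro y hy
    obtain ⟨hyd, hy1, hy2⟩ := hsub ⟨hy.1, hy.2.le⟩
    have h := eq_del hyd
    have : 0 ≤ P.dim * O.del y := mul_nonneg (zero_le_two.trans P.two_lt_dim.le) hy1
    by_contra hge
    have : 0 ≤ 2 * y * O.del1 y := mul_nonneg (by linarith [hy.1]) (not_lt.1 hge)
    linarith
  have hanti : StrictAntiOn O.del (Icc z e) :=
    strictAntiOn_of_hasDerivWithinAt_neg (f' := O.del1) (convex_Icc z e)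
      (fun y hy => (hasDerivAt_del (by
        rcases hy.1.eq_or_lt with rfl | h
        exacts [hz, (hsub ⟨h, hy.2⟩).1])).continuousAt.continuousWithinAt)
      (fun y hy => by
        rw [interior_Icc] at hy ⊢
        exact (hasDerivAt_del (hsub ⟨hy.1, hy.2.le⟩).1).hasDerivWithinAt)
      (fun y hy => hder y (by rwa [interior_Icc] at hy))
  have := hanti (left_mem_Icc.2 (le_of_lt he)) (right_mem_Icc.2 (le_of_lt he)) he
  rw [hd] at this
  exact absurd (hsub ⟨he, le_rfl⟩).2.1 (not_le.2 this)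

lemma za_lt_of_del (hz : z ∈ O.dom) (hd : O.del z = 0) : z * O.a z < P.al := by
  have hp := poh_rates hz
  rw [b_eq_of_del hd] at hp
  have ha := a_pos hz
  have hb := P.be_pos
  have hal := P.al_pos
  have : 0 < (P.be * O.pt z + P.al * O.qt z) / P.dim := by
    have := pt_pos hz; have := qt_pos hz; have := zero_lt_two.trans P.two_lt_dim; positivity
  by_contra h
  rw [not_lt] at h
  have h' : 0 ≤ P.be / P.al * O.a z * (z * O.a z - P.al) :=
    mul_nonneg (by positivity) (sub_nonneg.2 h)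
  have e : 4 * z * O.a z * (P.be / P.al * O.a z) - 2 * (P.be * O.a z + P.al * (P.be / P.al * O.a z))
      = 4 * (P.be / P.al * O.a z * (z * O.a z - P.al)) := by field_simp; ring
  linarith

/-- `2 z b`. -/
def bb (O : Orb P) (z : ℝ) : ℝ := 2 * z * O.b z

lemma hasDerivAt_bb (hz : z ∈ O.dom) :
    HasDerivAt O.bb (O.qt z / 2 + O.b z * (O.bb z - (P.dim - 2))) z := by
  refine (((hasDerivAt_id z).const_mul 2).mul (hasDerivAt_b hz)).congr_deriv ?_
  simp only [bb, id_eq]
  linear_combination eq_b hz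

/-- Once `2 z b > N - 2` with a positive defect, the defect stays positive. -/
lemma del_pos_of_bb {z1 z2 : ℝ} (h1 : 0 ≤ z1) (hz2 : z2 ∈ O.dom)
    (hb : P.dim - 2 < O.bb z1) (hd : 0 < O.del z1) : ∀ y ∈ Icc z1 z2, 0 < O.del y := by
  intro y hy
  have hsub : Icc z1 z2 ⊆ O.dom := fun x hx =>
    O.conn.out O.zero_mem hz2 ⟨h1.trans hx.1, hx.2⟩
  have hc : ContinuousOn O.bb (Icc z1 z2) := fun x hx =>
    (hasDerivAt_bb (hsub hx)).continuousAt.continuousWithinAt
  have hbig : ∀ x ∈ Icc z1 z2, P.dim - 2 < O.bb x := by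
    by_contra hne
    push Not at hne
    obtain ⟨x, hx, hxb⟩ := hne
    obtain ⟨m, hm, hmin⟩ := (isCompact_Icc.of_isClosed_subset
      (ContinuousOn.preimage_isClosed_of_isClosed hc isClosed_Icc isClosed_Iic)
      inter_subset_left).exists_isLeast (s := Icc z1 z2 ∩ O.bb ⁻¹' Iic (P.dim - 2)) ⟨x, hx, hxb⟩
    obtain ⟨hm1, hm2⟩ := hm
    have hlt : z1 < m := lt_of_le_of_ne hm1.1 fun e => (lt_irrefl _ (hb.trans_le (e ▸ hm2)))
    have hmono : MonotoneOn O.bb (Icc z1 m) := by
      refine monotoneOn_of_hasDerivWithinAt_nonneg (convex_Icc z1 m)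
        (hc.mono (Icc_subset_Icc le_rfl hm1.2))
        (fun w hw => (hasDerivAt_bb (hsub ⟨(interior_subset hw).1,
          (interior_subset hw).2.trans hm1.2⟩)).hasDerivWithinAt) fun w hw => ?_
      rw [interior_Icc] at hw
      have hw' : w ∈ O.dom := hsub ⟨hw.1.le, hw.2.le.trans hm1.2⟩
      have : P.dim - 2 < O.bb w := by
        by_contra hle
        exact absurd (hmin ⟨⟨hw.1.le, hw.2.le.trans hm1.2⟩, not_lt.1 hle⟩) (not_le.2 hw.2)
      have := qt_pos hw'
      have := mul_pos (b_pos hw') (sub_pos.2 ‹P.dim - 2 < O.bb w›)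
      linarith
    have := hmono (left_mem_Icc.2 hlt.le) (right_mem_Icc.2 hlt.le) hlt.le
    have : O.bb m ≤ P.dim - 2 := hm2
    linarith
  by_contra hle
  obtain ⟨x, hx, hx0⟩ := intermediate_value_Icc' hy.1
    (contDel.mono fun w hw => hsub ⟨hw.1, hw.2.trans hy.2⟩) ⟨not_lt.1 hle, hd.le⟩
  have hxm : x ∈ Icc z1 z2 := ⟨hx.1, hx.2.trans hy.2⟩
  have h := za_lt_of_del (hsub hxm) hx0
  have hbx := hbig x hxm
  rw [bb, b_eq_of_del hx0] at hbx
  have hal := P.al_pos
  have : 2 * x * (P.be / P.al * O.a x) = 2 * (P.be / P.al) * (x * O.a x) := by ring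
  rw [this] at hbx
  have h2 : 2 * (P.be / P.al) * (x * O.a x) ≤ 2 * (P.be / P.al) * P.al :=
    mul_le_mul_of_nonneg_left h.le (by have := P.be_pos; positivity)
  rw [mul_assoc 2 (P.be / P.al) P.al, div_mul_cancel₀ _ hal.ne'] at h2
  have := P.be_lt
  simp only [Par.dim] at hbx
  linarith

/-- On the continuation `z < 0` the defect cannot first vanish below the level `al / be`. -/
lemma del_pos_neg {z1 : ℝ} (h1 : z1 ∈ O.dom) (h0 : 0 < O.del 0)
    (hth : ∀ y ∈ Icc z1 0, O.theta y ≤ P.al / P.be) : ∀ y ∈ Icc z1 0, 0 < O.del y := by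
  have hsub : Icc z1 0 ⊆ O.dom := O.conn.out h1 O.zero_mem
  by_contra hne
  push Not at hne
  obtain ⟨x, hx, hxd⟩ := hne
  obtain ⟨m, hm, hmax⟩ := (isCompact_Icc.of_isClosed_subset
    (ContinuousOn.preimage_isClosed_of_isClosed (contDel.mono hsub) isClosed_Icc isClosed_Iic)
    inter_subset_left).exists_isGreatest (s := Icc z1 0 ∩ O.del ⁻¹' Iic 0) ⟨x, hx, hxd⟩
  obtain ⟨hm1, hm2 : O.del m ≤ 0⟩ := hm
  have hm0 : m < 0 := lt_of_le_of_ne hm1.2 fun e => (not_le.2 h0) (e ▸ hm2)
  have hd : O.del m = 0 := by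
    refine le_antisymm hm2 (not_lt.1 fun hlt => ?_)
    obtain ⟨w, hw, hw0⟩ := intermediate_value_Icc hm0.le
      (contDel.mono ((Icc_subset_Icc hm1.1 le_rfl).trans hsub)) ⟨hlt.le, h0.le⟩
    have := hmax ⟨⟨hm1.1.trans hw.1, hw.2⟩, hw0.le⟩
    have : w = m := le_antisymm this hw.1
    rw [this] at hw0
    linarith
  have hmd := hsub hm1
  have hfp : 0 < O.frc m := by
    have hb := P.be_pos
    have hal := P.al_pos
    have hnn : 0 ≤ P.al * O.qt m - P.be * O.pt m := by
      rw [pt_eq hmd]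
      have := mul_nonneg (qt_pos hmd).le (sub_nonneg.2
        ((le_div_iff₀ hb).1 (hth m hm1)))
      linarith
    have hneg : P.al * O.b m ^ 2 - P.be * O.a m ^ 2 < 0 := by
      rw [b_eq_of_del hd]
      have : P.al * (P.be / P.al * O.a m) ^ 2 - P.be * O.a m ^ 2 =
          -(P.be / P.al * (P.al - P.be) * O.a m ^ 2) := by field_simp; ring
      rw [this, neg_lt_zero]
      have := a_pos hmd
      have := sub_pos.2 P.be_lt
      positivity
    have := mul_pos_of_neg_of_neg (show 2 * m < 0 by linarith) hneg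
    simp only [frc]
    linarith
  have h2 := eq_del hmd
  rw [hd, mul_zero, add_zero] at h2
  have hd1 : O.del1 m < 0 := by
    by_contra hge
    have := mul_nonpos_of_nonpos_of_nonneg (show 2 * m ≤ 0 by linarith) (not_lt.1 hge)
    linarith
  have := ((hasDerivAt_iff_tendsto_slope.1 (hasDerivAt_del hmd)).mono_left
      (nhdsWithin_mono (s := Ioi m) m fun y (hy : m < y) => hy.ne')).eventually_lt_const hd1
  have hin : ∀ᶠ y in 𝓝[>] m, y ∈ Ioi m := self_mem_nhdsWithin
  have hlt : ∀ᶠ y in 𝓝[>] m, y ∈ Iio 0 := nhdsWithin_le_nhds (Iio_mem_nhds hm0)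
  obtain ⟨y, hy, hy1, hy2⟩ := (this.and (hin.and hlt)).exists
  change m < y at hy1
  change y < 0 at hy2
  rw [slope_def_field, hd, sub_zero, div_lt_iff₀ (sub_pos.2 hy1), zero_mul] at hy
  exact absurd (hmax ⟨⟨hm1.1.trans hy1.le, hy2.le⟩, hy.le⟩) (not_le.2 hy1)

end Orb

end

end Vale.Agent.P100.Ground
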