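import Vale.Agent.P100.Ground.Sign

/-! P100, critical ground state: clamped solutions are orbits while they stay between the levels. -/

namespace Vale.Agent.P100.Ground

noncomputable section

open Set Filter Topology

variable (P : Par) (c : Clamp) (t : ℝ)

/-- Derivative of the first component. -/
def solU1 (z : ℝ) : ℝ := -(av P.dim (fun x => c.pw P.p (sol P c t x).2) z) / 2

/-- Derivative of the second component. -/
def solV1 (z : ℝ) : ℝ := -(av P.dim (fun x => c.pw P.q (sol P c t x).1) z) / 2

/-- Derivative of the reaction in the first equation, inside the levels. -/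
def srcU1 (z : ℝ) : ℝ := P.p * c.cut (sol P c t z).2 ^ (P.p - 1) * solV1 P c t z

/-- Derivative of the reaction in the second equation, inside the levels. -/
def srcV1 (z : ℝ) : ℝ := P.q * c.cut (sol P c t z).1 ^ (P.q - 1) * solU1 P c t z

lemma continuous_solU1 : Continuous fun x : ℝ × ℝ => solU1 P c x.1 x.2 :=
  ((continuous_av (h := fun s x => c.pw P.p (sol P c s x).2) P.one_le_dim
    ((c.continuous_pw _).comp (continuous_sol P c).snd)).neg).div_const 2

lemma continuous_solV1 : Continuous fun x : ℝ × ℝ => solV1 P c x.1 x.2 :=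
  ((continuous_av (h := fun s x => c.pw P.q (sol P c s x).1) P.one_le_dim
    ((c.continuous_pw _).comp (continuous_sol P c).fst)).neg).div_const 2

lemma continuous_solU1_right : Continuous (solU1 P c t) :=
  ((continuous_av_const P.one_le_dim
    ((c.continuous_pw P.p).comp (continuous_sol_right P c t).snd)).neg).div_const 2

lemma continuous_solV1_right : Continuous (solV1 P c t) :=
  ((continuous_av_const P.one_le_dim
    ((c.continuous_pw P.q).comp (continuous_sol_right P c t).fst)).neg).div_const 2

lemma continuous_srcU1 : Continuous (srcU1 P c t) := by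
  have h : Continuous fun z => c.pw (P.p - 1) (sol P c t z).2 :=
    (c.continuous_pw _).comp (continuous_sol_right P c t).snd
  simp only [Clamp.pw] at h
  exact (continuous_const.mul h).mul (continuous_solV1_right P c t)

lemma continuous_srcV1 : Continuous (srcV1 P c t) := by
  have h : Continuous fun z => c.pw (P.q - 1) (sol P c t z).1 :=
    (c.continuous_pw _).comp (continuous_sol_right P c t).fst
  simp only [Clamp.pw] at h
  exact (continuous_const.mul h).mul (continuous_solU1_right P c t)

lemma solU1_neg (z : ℝ) : solU1 P c t z < 0 := by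
  have hN := zero_lt_two.trans P.two_lt_dim
  have hcont := ((c.continuous_pw P.p).comp (continuous_sol_right P c t).snd).continuousOn
    (s := uIcc 0 z)
  obtain ⟨x, -, hx⟩ := isCompact_uIcc.exists_isMinOn nonempty_uIcc hcont
  have := le_av P.one_le_dim hcont (fun y hy => hx hy)
  have := div_pos (c.pw_pos P.p (sol P c t x).2) hN
  simp only [solU1, Function.comp_def] at *
  linarith

lemma solV1_neg (z : ℝ) : solV1 P c t z < 0 := by
  have hN := zero_lt_two.trans P.two_lt_dim
  have hcont := ((c.continuous_pw P.q).comp (continuous_sol_right P c t).fst).continuousOn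
    (s := uIcc 0 z)
  obtain ⟨x, -, hx⟩ := isCompact_uIcc.exists_isMinOn nonempty_uIcc hcont
  have := le_av P.one_le_dim hcont (fun y hy => hx hy)
  have := div_pos (c.pw_pos P.q (sol P c t x).1) hN
  simp only [solV1, Function.comp_def] at *
  linarith

lemma hasDerivAt_solU (z : ℝ) :
    HasDerivAt (fun x => (sol P c t x).1) (solU1 P c t z) z := by
  have e : (fun x => (sol P c t x).1) =
      fun x => 1 - t - prim (av P.dim fun y => c.pw P.p (sol P c t y).2) x / 2 :=
    funext fun x => by rw [sol_fixed]; rfl
  rw [e]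
  refine (((hasDerivAt_prim (continuous_av_const P.one_le_dim
    ((c.continuous_pw _).comp (continuous_sol_right P c t).snd))).div_const 2).const_sub
      (1 - t)).congr_deriv ?_
  rw [solU1, neg_div]; rfl

lemma hasDerivAt_solV (z : ℝ) :
    HasDerivAt (fun x => (sol P c t x).2) (solV1 P c t z) z := by
  have e : (fun x => (sol P c t x).2) =
      fun x => t - prim (av P.dim fun y => c.pw P.q (sol P c t y).1) x / 2 :=
    funext fun x => by rw [sol_fixed]; rfl
  rw [e]
  refine (((hasDerivAt_prim (continuous_av_const P.one_le_dim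
    ((c.continuous_pw _).comp (continuous_sol_right P c t).fst))).div_const 2).const_sub t).congr_deriv ?_
  rw [solV1, neg_div]; rfl

lemma antitone_solU : StrictAnti fun x => (sol P c t x).1 :=
  strictAnti_of_hasDerivAt_neg (hasDerivAt_solU P c t) (solU1_neg P c t)

lemma antitone_solV : StrictAnti fun x => (sol P c t x).2 :=
  strictAnti_of_hasDerivAt_neg (hasDerivAt_solV P c t) (solV1_neg P c t)

/-- Strictly between the levels. -/
def inside : Set ℝ :=
  {z | (sol P c t z).1 ∈ Ioo c.lo c.hi ∧ (sol P c t z).2 ∈ Ioo c.lo c.hi}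

lemma isOpen_inside : IsOpen (inside P c t) :=
  (isOpen_Ioo.preimage (continuous_sol_right P c t).fst).inter
    (isOpen_Ioo.preimage (continuous_sol_right P c t).snd)

/-- The domain on which the clamped solution solves the system. -/
def dom : Set ℝ := connectedComponentIn (inside P c t) 0

lemma mem_dom {z : ℝ} (h : uIcc 0 z ⊆ inside P c t) : z ∈ dom P c t :=
  isPreconnected_uIcc.subset_connectedComponentIn left_mem_uIcc h right_mem_uIcc

lemma dom_subset : dom P c t ⊆ inside P c t := connectedComponentIn_subset _ _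

/-- The clamped solution as an orbit. -/
def orb (h0 : (0 : ℝ) ∈ inside P c t) : Orb P where
  dom := dom P c t
  U z := (sol P c t z).1
  V z := (sol P c t z).2
  U1 := solU1 P c t
  V1 := solV1 P c t
  U2 z := -(av (P.dim + 2) (srcU1 P c t) z) / 2
  V2 z := -(av (P.dim + 2) (srcV1 P c t) z) / 2
  isOpen := (isOpen_inside P c t).connectedComponentIn
  conn := isPreconnected_connectedComponentIn.ordConnected
  zero_mem := mem_connectedComponentIn h0
  posU z hz := c.lo_pos.trans (dom_subset P c t hz).1.1
  posV z hz := c.lo_pos.trans (dom_subset P c t hz).2.1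
  hU z _ := hasDerivAt_solU P c t z
  hV z _ := hasDerivAt_solV P c t z
  hU1 z hz := by
    obtain ⟨hd, hd'⟩ := hderU z hz
    exact hd
  hV1 z hz := by
    obtain ⟨hd, hd'⟩ := hderV z hz
    exact hd
  contU2 := ((continuous_av_const (by linarith [P.one_le_dim]) (continuous_srcU1 P c t)).neg.div_const
    2).continuousOn
  contV2 := ((continuous_av_const (by linarith [P.one_le_dim]) (continuous_srcV1 P c t)).neg.div_const
    2).continuousOn
  negU z _ := solU1_neg P c t z
  negV z _ := solV1_neg P c t z
  odeU z hz := (hderU z hz).2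
  odeV z hz := (hderV z hz).2
where
  src (e : ℝ) (w w' : ℝ → ℝ) (hw : ∀ x, HasDerivAt w (w' x) x) (hw' : Continuous fun x =>
      e * c.cut (w x) ^ (e - 1) * w' x) (hin : ∀ x ∈ dom P c t, w x ∈ Ioo c.lo c.hi) (z : ℝ)
      (hz : z ∈ dom P c t) (h0' : (0 : ℝ) ∈ dom P c t) :
      HasDerivAt (av P.dim fun x => c.pw e (w x))
          (av (P.dim + 2) (fun x => e * c.cut (w x) ^ (e - 1) * w' x) z) z ∧
        P.dim * av P.dim (fun x => c.pw e (w x)) z +
          2 * z * av (P.dim + 2) (fun x => e * c.cut (w x) ^ (e - 1) * w' x) z = w z ^ e := by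
    have hseg : uIcc 0 z ⊆ dom P c t :=
      isPreconnected_connectedComponentIn.ordConnected.uIcc_subset h0' hz
    have hop : IsOpen (dom P c t) := (isOpen_inside P c t).connectedComponentIn
    obtain ⟨r, hr, hsub⟩ := isCompact_uIcc.exists_thickening_subset_open hop hseg
    have hI : Ioo (min 0 z - r) (max 0 z + r) ⊆ dom P c t := by
      intro x hx
      refine hsub (Metric.mem_thickening_iff.2 ?_)
      rcases le_total x (min 0 z) with h | h
      · exact ⟨min 0 z, ⟨le_rfl, min_le_max⟩, by
          rw [Real.dist_eq, abs_of_nonpos (by linarith)]; linarith [hx.1]⟩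
      · rcases le_total x (max 0 z) with h' | h'
        · exact ⟨x, ⟨h, h'⟩, by simpa using hr⟩
        · exact ⟨max 0 z, ⟨min_le_max, le_rfl⟩, by
            rw [Real.dist_eq, abs_of_nonneg (by linarith)]; linarith [hx.2]⟩
    have key := hasDerivAt_av P.two_lt_dim (h := fun x => c.pw e (w x))
      (h' := fun x => e * c.cut (w x) ^ (e - 1) * w' x) (lo := min 0 z - r) (hi := max 0 z + r)
      (z := z) (fun x hx => by
        have hx' := hin x (hI hx)
        have hne : w x ≠ 0 := (c.lo_pos.trans hx'.1).ne'
        rw [c.cut_eq (Ioo_subset_Icc_self hx')]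
        refine (((hw x).rpow_const (p := e) (Or.inl hne)).congr_of_eventuallyEq ?_).congr_deriv
          (by ring)
        filter_upwards [(hw x).continuousAt.preimage_mem_nhds (isOpen_Ioo.mem_nhds hx')] with y hy
        rw [Clamp.pw, c.cut_eq (Ioo_subset_Icc_self hy)])
      hw'.continuousOn ⟨by linarith [min_le_left 0 z], by linarith [le_max_left 0 z]⟩
      ⟨by linarith [min_le_right 0 z], by linarith [le_max_right 0 z]⟩
    refine ⟨key.1, key.2.trans ?_⟩
    rw [Clamp.pw, c.cut_eq (Ioo_subset_Icc_self (hin z hz))]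
  hderU (z : ℝ) (hz : z ∈ dom P c t) :
      HasDerivAt (solU1 P c t) (-(av (P.dim + 2) (srcU1 P c t) z) / 2) z ∧
      4 * z * (-(av (P.dim + 2) (srcU1 P c t) z) / 2) + 2 * P.dim * solU1 P c t z =
        -((sol P c t z).2 ^ P.p) := by
    obtain ⟨h1, h2⟩ := src P.p _ _ (hasDerivAt_solV P c t) (continuous_srcU1 P c t)
      (fun x hx => (dom_subset P c t hx).2) z hz (mem_connectedComponentIn h0)
    refine ⟨h1.neg.div_const 2, ?_⟩
    rw [← h2, solU1]
    unfold srcU1
    ring
  hderV (z : ℝ) (hz : z ∈ dom P c t) :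
      HasDerivAt (solV1 P c t) (-(av (P.dim + 2) (srcV1 P c t) z) / 2) z ∧
      4 * z * (-(av (P.dim + 2) (srcV1 P c t) z) / 2) + 2 * P.dim * solV1 P c t z =
        -((sol P c t z).1 ^ P.q) := by
    obtain ⟨h1, h2⟩ := src P.q _ _ (hasDerivAt_solU P c t) (continuous_srcV1 P c t)
      (fun x hx => (dom_subset P c t hx).1) z hz (mem_connectedComponentIn h0)
    refine ⟨h1.neg.div_const 2, ?_⟩
    rw [← h2, solV1]
    unfold srcV1
    ring

/-- Two clamps give the same solution while the solution respects both. -/
lemma sol_eq_of_mem {c' : Clamp} {z : ℝ} (h : uIcc 0 z ⊆ inside P c t)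
    (h' : ∀ x ∈ uIcc 0 z, (sol P c t x).1 ∈ Icc c'.lo c'.hi ∧ (sol P c t x).2 ∈ Icc c'.lo c'.hi) :
    EqOn (sol P c t) (sol P c' t) (uIcc 0 z) := by
  refine sol_unique P c' (continuous_sol_right P c t).continuousOn fun x hx => ?_
  rw [sol_fixed]
  have hsub := uIcc_subset_uIcc (left_mem_uIcc (a := (0 : ℝ)) (b := z)) hx
  have key : ∀ (e : ℝ) (w : ℝ → ℝ), (∀ y ∈ uIcc 0 x, w y ∈ Icc c.lo c.hi) →
      (∀ y ∈ uIcc 0 x, w y ∈ Icc c'.lo c'.hi) →
      prim (av P.dim fun y => c.pw e (w y)) x = prim (av P.dim fun y => c'.pw e (w y)) x := by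
    intro e w hw hw'
    refine intervalIntegral.integral_congr fun y hy => av_congr fun a ha => ?_
    have ha' := uIcc_subset_uIcc left_mem_uIcc hy ha
    simp only [Clamp.pw, c.cut_eq (hw a ha'), c'.cut_eq (hw' a ha')]
  simp only [step]
  rw [key P.p (fun y => (sol P c t y).2) (fun y hy => Ioo_subset_Icc_self (h (hsub hy)).2)
      (fun y hy => (h' y (hsub hy)).2),
    key P.q (fun y => (sol P c t y).1) (fun y hy => Ioo_subset_Icc_self (h (hsub hy)).1)
      (fun y hy => (h' y (hsub hy)).1)]

end

end Vale.Agent.P100.Ground
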